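import Crest.Agent.R141.TreeDefs

/-! Row 141: the telescoping (Aizenman–Sims–Starr) lower bound from the cavity inequality. -/

set_option autoImplicit false
open Finset Function MeasureTheory Crest.ProbabilityR.Diluted
namespace Crest.Agent.R141
open Sys

namespace ASS

section Comm
variable {P ι D ι' D' : Type} [Fintype P] [Fintype ι] [DecidableEq ι] [MeasurableSpace D]
  [Fintype ι'] [DecidableEq ι'] [MeasurableSpace D'] (𝒯 : Terms P ι D) (𝒯' : Terms P ι' D')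

theorem T_comm₂ {κ : ι → ℝ} {κ' : ι' → ℝ} (hκ : ∀ x, 0 ≤ κ x) (hκ' : ∀ x, 0 ≤ κ' x) {K : ℝ}
    {Φ : (P → ℝ) → ℝ} (h : Lip K Φ) : 𝒯.T κ (𝒯'.T κ' Φ) = 𝒯'.T κ' (𝒯.T κ Φ) := by
  funext H
  have hint : ∀ x y, Integrable (fun z : D × D' => Φ (H + 𝒯.U x z.1 + 𝒯'.U y z.2))
      (𝒯.ν.prod 𝒯'.ν) := by
    intro x y
    refine Integrable.mono' ((integrable_const |Φ H|).add
      (((𝒯.int.comp_fst 𝒯'.ν).add (𝒯'.int.comp_snd 𝒯.ν)).const_mul K))
      (h.continuous.measurable.comp ((((𝒯.mU x).comp measurable_fst).const_add H).add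
        ((𝒯'.mU y).comp measurable_snd))).aestronglyMeasurable
      (Filter.Eventually.of_forall fun z => ?_)
    rw [add_assoc]
    refine (h.abs_shift_le _ _).trans ?_
    have := mul_le_mul_of_nonneg_left ((norm_add_le _ _).trans
      (add_le_add (𝒯.le x z.1) (𝒯'.le y z.2))) h.1
    simp only [Pi.add_apply]; linarith
  have k1 : 𝒯.T κ (𝒯'.T κ' Φ) H =
      ∑ x, ∑ y, κ x * κ' y * ∫ d, ∫ d', Φ (H + 𝒯.U x d + 𝒯'.U y d') ∂𝒯'.ν ∂𝒯.ν := by
    rw [𝒯.T_eq κ (𝒯'.lip_T hκ' h)]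
    refine Finset.sum_congr rfl fun x _ => ?_
    simp only [𝒯'.T_eq κ' h]
    rw [integral_finsetSum _ fun y _ => ((hint x y).integral_prod_left).const_mul _,
      Finset.mul_sum]
    simp only [integral_const_mul, mul_assoc]
  have k2 : 𝒯'.T κ' (𝒯.T κ Φ) H =
      ∑ y, ∑ x, κ x * κ' y * ∫ d', ∫ d, Φ (H + 𝒯.U x d + 𝒯'.U y d') ∂𝒯.ν ∂𝒯'.ν := by
    rw [𝒯'.T_eq κ' (𝒯.lip_T hκ h)]
    refine Finset.sum_congr rfl fun y _ => ?_
    simp only [𝒯.T_eq κ h, add_right_comm H (𝒯'.U y _)]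
    rw [integral_finsetSum _ fun x _ => ((hint x y).integral_prod_right).const_mul _,
      Finset.mul_sum]
    simp only [integral_const_mul, mul_assoc, mul_left_comm (κ' y)]
  rw [k1, k2, Finset.sum_comm]
  refine Finset.sum_congr rfl fun y _ => Finset.sum_congr rfl fun x _ => ?_
  rw [integral_integral_swap (hint x y)]

theorem T_iter_comm {κ : ι → ℝ} {κ' : ι' → ℝ} (hκ : ∀ x, 0 ≤ κ x) (hκ' : ∀ x, 0 ≤ κ' x) {K : ℝ}
    {Φ : (P → ℝ) → ℝ} (h : Lip K Φ) (k : ℕ) :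
    𝒯'.T κ' ((𝒯.T κ)^[k] Φ) = (𝒯.T κ)^[k] (𝒯'.T κ' Φ) := by
  induction k with
  | zero => rfl
  | succ k ih =>
    rw [iterate_succ_apply', iterate_succ_apply', ← ih,
      T_comm₂ 𝒯 𝒯' hκ hκ' (𝒯.lip_iter hκ h k)]

theorem T_Poi_comm {κ : ι → ℝ} {κ' : ι' → ℝ} (hκ : ∀ x, 0 ≤ κ x) (hκ' : ∀ x, 0 ≤ κ' x) {K : ℝ}
    {Φ : (P → ℝ) → ℝ} (h : Lip K Φ) : 𝒯'.T κ' (𝒯.Poi κ Φ) = 𝒯.Poi κ (𝒯'.T κ' Φ) := by
  funext H
  set l := ∑ x, κ x with hl
  let w : ℕ → ℝ := fun k => Real.exp (-l) / (k.factorial : ℝ)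
  have hw : ∀ k, 0 ≤ w k := fun k => by positivity
  have := 𝒯'.T_tsum (κ := κ') (Ψ := fun j => w j • (𝒯.T κ)^[j] Φ)
    (K := fun j => |w j| * (l ^ j * K)) (fun j => (𝒯.lip_iter hκ h j).smul _)
    (((hasSum_poi l).summable.mul_right K).congr fun j => by
      rw [abs_of_nonneg (hw j), mul_assoc])
    (fun H => 𝒯.summable_Poi hκ h H) H
  simp only [Terms.T_smul_fun, T_iter_comm 𝒯 𝒯' hκ hκ' h] at this
  exact this.tsum_eq.symm

theorem F_Poi_comm (k : ℕ) {κ : ι → ℝ} {κ' : Fin k → ι' → ℝ} (hκ : ∀ x, 0 ≤ κ x)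
    (hκ' : ∀ j x, 0 ≤ κ' j x) {K : ℝ} {Φ : (P → ℝ) → ℝ} (h : Lip K Φ) :
    𝒯'.F k κ' (𝒯.Poi κ Φ) = 𝒯.Poi κ (𝒯'.F k κ' Φ) := by
  induction k with
  | zero => rw [Terms.F_zero, Terms.F_zero]
  | succ k ih =>
    rw [Terms.F_succ, Terms.F_succ, ih fun j => hκ' j.succ,
      T_Poi_comm 𝒯 𝒯' hκ (hκ' 0) (𝒯'.lip_F k (fun j => hκ' j.succ) h)]

omit [DecidableEq ι] in
theorem F_succ' (k : ℕ) (κ : Fin (k + 1) → ι → ℝ) (Φ : (P → ℝ) → ℝ) :
    𝒯.F (k + 1) κ Φ = 𝒯.F k (fun j => κ j.castSucc) (𝒯.T (κ (Fin.last k)) Φ) := by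
  simp only [Terms.F]
  rw [List.ofFn_succ', List.concat_eq_append, List.foldr_append]
  rfl

theorem abs_F_sub_le (k : ℕ) {κ : Fin k → ι → ℝ} (hκ : ∀ j x, 0 ≤ κ j x)
    (h1 : ∀ j, ∑ x, κ j x = 1) {Φ : (P → ℝ) → ℝ} (h : Lip 1 Φ) (H : P → ℝ) :
    |𝒯.F k κ Φ H - Φ H| ≤ k * 𝒯.m := by
  induction k with
  | zero => simp [Terms.F_zero]
  | succ k ih =>
    have a := ih (fun j => hκ j.succ) fun j => h1 j.succ
    have hl := 𝒯.lip_F k (fun j => hκ j.succ) h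
    simp only [h1, prod_const_one, mul_one] at hl
    have b := 𝒯.abs_T_sub_le (hκ 0) hl H
    rw [h1, one_mul, one_mul, one_mul] at b
    rw [Terms.F_succ]
    have := abs_sub_le (𝒯.T (κ 0) (𝒯.F k (fun j => κ j.succ) Φ) H)
      (𝒯.F k (fun j => κ j.succ) Φ H) (Φ H)
    push_cast
    linarith

theorem T_sum {α : Type} (s : Finset α) (κ : α → ι → ℝ) {K : ℝ} {Φ : (P → ℝ) → ℝ} (h : Lip K Φ)
    (H : P → ℝ) : 𝒯.T (fun x => ∑ a ∈ s, κ a x) Φ H = ∑ a ∈ s, 𝒯.T (κ a) Φ H := by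
  simp only [𝒯.T_eq _ h, sum_mul]
  exact sum_comm

end Comm

theorem abs_spinVal (b : Bool) : |spinVal b| = 1 := by cases b <;> simp [spinVal]

/-- the random fields on `N` spins -/
noncomputable def fieldTerms (ν : Measure ℝ) [IsProbabilityMeasure ν]
    (hν : Integrable (fun x : ℝ => x) ν) (N : ℕ) : Terms (Fin N → Bool) (Fin N) ℝ where
  ν := ν
  U i h σ := h * spinVal (σ i)
  nrm h := |h|
  mU _ := measurable_pi_lambda _ fun _ => measurable_id.mul_const _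
  int := hν.abs
  le i h := (pi_norm_le_iff_of_nonneg (abs_nonneg _)).2 fun σ => by
    rw [Real.norm_eq_abs, abs_mul, abs_spinVal, mul_one]

/-- point mass at the site `j` -/
noncomputable def dl (N j : ℕ) (i : Fin N) : ℝ := if i.val = j then 1 else 0

theorem dl_nonneg (N j : ℕ) (i : Fin N) : 0 ≤ dl N j i := by unfold dl; split_ifs <;> norm_num

theorem sum_dl_mul {N j : ℕ} (hj : j < N) (f : Fin N → ℝ) : ∑ i, dl N j i * f i = f ⟨j, hj⟩ := by
  rw [sum_eq_single ⟨j, hj⟩]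
  · simp [dl]
  · intro i _ hi
    rw [dl, if_neg (fun e => hi (Fin.ext e)), zero_mul]
  · simp

theorem sum_dl {N j : ℕ} (hj : j < N) : ∑ i, dl N j i = 1 := by
  simpa using sum_dl_mul hj fun _ => 1

/-- `log Z` -/
noncomputable def LZ {P : Type} [Fintype P] (H : P → ℝ) : ℝ := Real.log (∑ σ, Real.exp (H σ))

theorem LZ_le {P : Type} [Fintype P] [Nonempty P] (H H' : P → ℝ) : LZ H ≤ LZ H' + ‖H - H'‖ := by
  have hp : ∀ H : P → ℝ, 0 < ∑ σ, Real.exp (H σ) :=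
    fun H => sum_pos (fun _ _ => Real.exp_pos _) univ_nonempty
  unfold LZ
  rw [Real.log_le_iff_le_exp (hp H), Real.exp_add, Real.exp_log (hp H'), sum_mul]
  refine sum_le_sum fun σ _ => ?_
  rw [← Real.exp_add, Real.exp_le_exp]
  have := (le_abs_self _).trans (norm_le_pi_norm (H - H') σ)
  simp only [Pi.sub_apply] at this
  linarith

theorem lip_LZ {P : Type} [Fintype P] [Nonempty P] : Lip 1 (LZ : (P → ℝ) → ℝ) :=
  ⟨zero_le_one, fun H H' => by
    have a := LZ_le H H'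
    have b := LZ_le H' H
    rw [norm_sub_rev] at b
    rw [abs_le]; constructor <;> linarith⟩

/-! ### the weights -/

theorem sum_ite_pi {p N : ℕ} (Q : Fin p → Fin N → Prop) [∀ ℓ i, Decidable (Q ℓ i)]
    [∀ x : Fin p → Fin N, Decidable (∀ ℓ, Q ℓ (x ℓ))] (a : ℝ) :
    ∑ x : Fin p → Fin N, (if ∀ ℓ, Q ℓ (x ℓ) then a else 0) =
      (∏ ℓ, ((univ.filter (Q ℓ)).card : ℝ)) * a := by
  rw [← sum_filter, sum_const, nsmul_eq_mul, ← Nat.cast_prod, ← Fintype.card_piFinset]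
  congr 3
  ext x
  simp

theorem card_lt {N n : ℕ} (h : n ≤ N) : (univ.filter fun i : Fin N => i.val < n).card = n := by
  rw [Fin.card_filter_val_lt, min_eq_right h]

theorem card_eq {N n : ℕ} (h : n < N) : (univ.filter fun i : Fin N => i.val = n).card = 1 := by
  rw [card_eq_one]
  exact ⟨⟨n, h⟩, by ext i; simp [Fin.ext_iff]⟩

theorem wtLt_nonneg (p N n : ℕ) (x : Fin p → Fin N) : 0 ≤ wtLt p N n x := by
  unfold wtLt; split_ifs <;> positivity

theorem wtCav_nonneg (p N n : ℕ) (x : Fin p → Fin N) : 0 ≤ wtCav p N n x := by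
  unfold wtCav; split_ifs <;> positivity

theorem sum_wtLt (p : ℕ) {N n : ℕ} (h1 : 1 ≤ n) (h : n ≤ N) : ∑ x, wtLt p N n x = 1 := by
  have : (n : ℝ) ≠ 0 := by positivity
  unfold wtLt
  rw [sum_ite_pi (fun _ (i : Fin N) => i.val < n)]
  simp [card_lt h, this]

theorem sum_wtCav {p : ℕ} (hp : 1 ≤ p) {N n : ℕ} (h1 : 1 ≤ n) (h : n < N) :
    ∑ x, wtCav p N n x = 1 := by
  have : (n : ℝ) ≠ 0 := by positivity
  obtain ⟨q, rfl⟩ : ∃ q, p = q + 1 := ⟨p - 1, by omega⟩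
  unfold wtCav
  rw [sum_ite_pi (fun (ℓ : Fin (q + 1)) (i : Fin N) =>
    if ℓ.val < q + 1 - 1 then i.val < n else i.val = n), Fin.prod_univ_castSucc]
  simp [card_lt h.le, card_eq h, this]

/-- uniform law on the tuples with entry `ℓ` equal to `n` and the other entries `< n` -/
noncomputable def wtHit {q : ℕ} (N n : ℕ) (ℓ : Fin (q + 1)) (x : Fin (q + 1) → Fin N) : ℝ :=
  wtCav (q + 1) N n (x ∘ Equiv.swap ℓ (Fin.last q))

theorem sum_perm {p N : ℕ} (π : Equiv.Perm (Fin p)) (f : (Fin p → Fin N) → ℝ) :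
    ∑ x, f (x ∘ π) = ∑ x, f x :=
  Equiv.sum_comp (Equiv.arrowCongr π.symm (Equiv.refl (Fin N))) f

theorem wtHit_eq {q : ℕ} (N n : ℕ) (ℓ : Fin (q + 1)) (x : Fin (q + 1) → Fin N) :
    wtHit N n ℓ x = if (x ℓ).val = n ∧ ∀ j, j ≠ ℓ → (x j).val < n then ((n : ℝ) ^ q)⁻¹ else 0 := by
  unfold wtHit wtCav
  refine if_congr ⟨fun h => ⟨?_, fun j hj => ?_⟩, fun h j => ?_⟩ rfl rfl
  · simpa using h (Fin.last q)
  · have h1 := h (Equiv.swap ℓ (Fin.last q) j)
    have h2 : Equiv.swap ℓ (Fin.last q) j ≠ Fin.last q := fun e => hj (by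
      have := congrArg (Equiv.swap ℓ (Fin.last q)) e
      simpa using this)
    rw [if_pos (by simpa using Fin.val_lt_last h2)] at h1
    simpa using h1
  · split_ifs with hj
    · refine h.2 _ fun e => ?_
      have := congrArg (Equiv.swap ℓ (Fin.last q)) e
      simp only [Equiv.swap_apply_self, Equiv.swap_apply_left] at this
      simp [this] at hj
    · have : j = Fin.last q := Fin.ext (by have := j.2; simp at hj ⊢; omega)
      simpa [this] using h.1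

theorem dominated {q : ℕ} (N n : ℕ) (hn : q + 1 ≤ n) (x : Fin (q + 1) → Fin N) :
    (n - q : ℝ) * wtLt (q + 1) N n x + (n / (n + 1) : ℝ) ^ q * ∑ ℓ, wtHit N n ℓ x ≤
      (n + 1 : ℝ) * wtLt (q + 1) N (n + 1) x := by
  have hn0 : (0 : ℝ) < n := by exact_mod_cast (by omega : 0 < n)
  by_cases h1 : ∀ ℓ, (x ℓ).val < n
  · have e1 : ∑ ℓ, wtHit N n ℓ x = 0 := sum_eq_zero fun ℓ _ => by
      rw [wtHit_eq, if_neg fun h => (h1 ℓ).ne h.1]
    rw [e1, mul_zero, add_zero, wtLt, wtLt, if_pos h1, if_pos fun ℓ => (h1 ℓ).trans n.lt_succ_self]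
    have hb := one_add_mul_le_pow (a := -(1 / (n + 1) : ℝ)) (by
      have : (1 / (n + 1) : ℝ) ≤ 1 := by rw [div_le_one (by positivity)]; linarith
      linarith) (q + 1)
    have e2 : (1 + -(1 / (n + 1)) : ℝ) = n / (n + 1) := by field_simp; ring
    have e3 : (1 + ((q + 1 : ℕ) : ℝ) * -(1 / (n + 1)) : ℝ) = (n - q) / (n + 1) := by
      push_cast; field_simp; ring
    rw [e2, e3, div_pow, div_le_div_iff₀ (by positivity) (by positivity)] at hb
    push_cast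
    rw [← div_eq_mul_inv, ← div_eq_mul_inv, div_le_div_iff₀ (by positivity) (by positivity)]
    linarith
  · rw [wtLt, if_neg h1, mul_zero, zero_add]
    by_cases h2 : ∃ ℓ, (x ℓ).val = n ∧ ∀ j, j ≠ ℓ → (x j).val < n
    · obtain ⟨ℓ, h2⟩ := h2
      rw [sum_eq_single ℓ (fun j _ hj => by
        rw [wtHit_eq, if_neg fun h => (h.2 ℓ hj.symm).ne h2.1]) (by simp), wtHit_eq, if_pos h2,
        wtLt, if_pos fun j => by
          by_cases hj : j = ℓ
          · rw [hj, h2.1]; exact n.lt_succ_self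
          · exact (h2.2 j hj).trans n.lt_succ_self]
      push_cast
      rw [div_pow]
      refine le_of_eq ?_
      field_simp
      ring
    · rw [sum_eq_zero fun ℓ _ => by rw [wtHit_eq, if_neg fun h => h2 ⟨ℓ, h⟩], mul_zero]
      exact mul_nonneg (by positivity) (wtLt_nonneg _ _ _ _)

theorem wtHit_nonneg {q : ℕ} (N n : ℕ) (ℓ : Fin (q + 1)) (x : Fin (q + 1) → Fin N) :
    0 ≤ wtHit N n ℓ x := wtCav_nonneg _ _ _ _

theorem sum_wtHit {q N n : ℕ} (h1 : 1 ≤ n) (h : n < N) (ℓ : Fin (q + 1)) :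
    ∑ x, wtHit N n ℓ x = 1 :=
  (sum_perm _ (wtCav (q + 1) N n)).trans (sum_wtCav (by omega) h1 h)

theorem l1_le {q N n : ℕ} (hq : q + 1 ≤ n) (hn : n < N) :
    ∑ x : Fin (q + 1) → Fin N, |(n + 1 : ℝ) * wtLt (q + 1) N (n + 1) x -
      ((n - q : ℝ) * wtLt (q + 1) N n x + ∑ ℓ, wtHit N n ℓ x)| ≤ 2 * (q + 1) * q / n := by
  have hn0 : (0 : ℝ) < n := by exact_mod_cast (by omega : 0 < n)
  set t : ℝ := (n / (n + 1) : ℝ) ^ q with ht
  have ht1 : t ≤ 1 := pow_le_one₀ (by positivity) (by rw [div_le_one (by positivity)]; linarith)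
  have ht2 : 1 - t ≤ q / n := by
    have hb := one_add_mul_le_pow (a := -(1 / (n + 1) : ℝ)) (by
      have : (1 / (n + 1) : ℝ) ≤ 1 := by rw [div_le_one (by positivity)]; linarith
      linarith) q
    have e2 : (1 + -(1 / (n + 1)) : ℝ) = n / (n + 1) := by field_simp; ring
    rw [e2, ← ht] at hb
    have : (q : ℝ) * (1 / (n + 1)) ≤ q / n := by
      rw [mul_one_div]
      exact div_le_div_of_nonneg_left (by positivity) hn0 (by linarith)
    linarith
  have hS : ∑ x : Fin (q + 1) → Fin N, ∑ ℓ, wtHit N n ℓ x = q + 1 := by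
    rw [sum_comm]
    simp [sum_wtHit (by omega : 1 ≤ n) hn]
  calc _ ≤ ∑ x : Fin (q + 1) → Fin N, ((n + 1 : ℝ) * wtLt (q + 1) N (n + 1) x -
        (n - q : ℝ) * wtLt (q + 1) N n x + (1 - 2 * t) * ∑ ℓ, wtHit N n ℓ x) := by
        refine sum_le_sum fun x _ => ?_
        have a := dominated N n hq x
        rw [← ht] at a
        have b := mul_nonneg (sub_nonneg.2 ht1) (sum_nonneg fun ℓ (_ : ℓ ∈ univ) =>
          wtHit_nonneg N n ℓ x)
        rw [abs_le]; constructor <;> linarith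
    _ = 2 * (q + 1) * (1 - t) := by
        rw [sum_add_distrib, sum_sub_distrib, ← mul_sum, ← mul_sum, ← mul_sum, hS,
          sum_wtLt _ (by omega) (by omega), sum_wtLt _ (by omega) hn.le]
        ring
    _ ≤ _ := by
        rw [mul_div_assoc]
        exact mul_le_mul_of_nonneg_left ht2 (by positivity)

section Main
variable {p : ℕ} {μ : Measure (Inter p)} [IsProbabilityMeasure μ]
  (hμ : Integrable (fun θ => supNorm θ) μ)

theorem T_perm (hs : SymLaw p μ) {N : ℕ} (π : Equiv.Perm (Fin p)) (κ : (Fin p → Fin N) → ℝ)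
    {Φ : ((Fin N → Bool) → ℝ) → ℝ} (hΦ : LipschitzWith 1 Φ) (he : Equi Φ) (H : (Fin N → Bool) → ℝ) :
    (clauseTerms p μ hμ N).T (fun x => κ (x ∘ π)) Φ H = (clauseTerms p μ hμ N).T κ Φ H := by
  have hl := lip_one_iff.2 hΦ
  rw [Terms.T_eq _ _ hl, Terms.T_eq _ _ hl, ← sum_perm π fun y => κ y * _]
  refine sum_congr rfl fun x _ => ?_
  congr 1
  refine (hs π (fun θ => Φ (H + (clauseTerms p μ hμ N).U x θ))
    (lip_one_iff.1 ⟨zero_le_one, fun θ θ' => (hl.2 _ _).trans ?_⟩) fun θ c => ?_).symm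
  · rw [add_sub_add_left_eq_sub, one_mul, one_mul, ← supNorm_eq_norm (θ - θ')]
    exact (clauseTerms p μ hμ N).le x (θ - θ')
  · rw [← he]
    congr 1
    funext σ
    exact (add_assoc _ _ _).symm

end Main

section Main
variable {q : ℕ} {α : ℝ} (hα : 0 ≤ α) {μ : Measure (ProbabilityR.Diluted.Inter (q + 1))}
  [IsProbabilityMeasure μ] {hμ : Integrable (fun θ => supNorm θ) μ} {ν : Measure ℝ} [IsProbabilityMeasure ν]
  (hν : Integrable (fun x : ℝ => x) ν) (hs : SymLaw (q + 1) μ) {c ε : ℝ}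
  (D : CavityData (q + 1) α μ hμ ν c ε)

/-- the clause intensity of the system with `n` active sites -/
noncomputable def kint (p : ℕ) (α : ℝ) (N n : ℕ) (x : Fin p → Fin N) : ℝ := α * n * wtLt p N n x

include hα in
theorem kint_nonneg (p N n : ℕ) (x : Fin p → Fin N) : 0 ≤ kint p α N n x :=
  mul_nonneg (by positivity) (wtLt_nonneg _ _ _ _)

include hα hs in
theorem step_clause {N n : ℕ} (hq : q + 1 ≤ n) (hn : n < N) (H : (Fin N → Bool) → ℝ) :
    (clauseTerms (q + 1) μ hμ N).Poi (fun x => α * (n - q) * wtLt (q + 1) N n x)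
      ((clauseTerms (q + 1) μ hμ N).Poi (fun x => α * (q + 1 : ℕ) * wtCav (q + 1) N n x) (D.Ψ N n)) H +
      -((D.A + 2 * (q + 1) * q * α * ∫ θ, supNorm θ ∂μ) / n) ≤
    (clauseTerms (q + 1) μ hμ N).Poi (kint (q + 1) α N (n + 1)) (D.Ψ N (n + 1)) H := by
  set 𝒯 := clauseTerms (q + 1) μ hμ N with h𝒯
  have hqn : (0 : ℝ) ≤ n - q := by
    have : (q : ℝ) ≤ n := by exact_mod_cast (by omega : q ≤ n)
    linarith
  have hb : ∀ x, 0 ≤ α * (n - q) * wtLt (q + 1) N n x := fun x =>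
    mul_nonneg (mul_nonneg hα hqn) (wtLt_nonneg _ _ _ _)
  have hc : ∀ x, 0 ≤ α * (q + 1 : ℕ) * wtCav (q + 1) N n x := fun x =>
    mul_nonneg (by positivity) (wtCav_nonneg _ _ _ _)
  have hh : ∀ x : Fin (q + 1) → Fin N, 0 ≤ α * ∑ ℓ, wtHit N n ℓ x := fun x =>
    mul_nonneg hα (sum_nonneg fun ℓ _ => wtHit_nonneg N n ℓ x)
  have e1 : 𝒯.Poi (fun x => α * (q + 1 : ℕ) * wtCav (q + 1) N n x) (D.Ψ N n) =
      𝒯.Poi (fun x => α * ∑ ℓ, wtHit N n ℓ x) (D.Ψ N n) := by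
    refine 𝒯.Poi_congr _ _ hc hh ?_ (fun Φ hΦ he => ?_) (D.lip N n) (D.equi N n)
    · rw [← mul_sum, ← mul_sum, sum_comm, sum_wtCav (by omega) (by omega) hn]
      simp [sum_wtHit (by omega : 1 ≤ n) hn]
    · funext H
      rw [Terms.T_smul, Terms.T_smul, Pi.smul_apply, Pi.smul_apply,
        T_sum 𝒯 univ (wtHit N n) (lip_one_iff.2 hΦ)]
      have : ∀ ℓ, 𝒯.T (wtHit N n ℓ) Φ H = 𝒯.T (wtCav (q + 1) N n) Φ H := fun ℓ =>
        T_perm hμ hs _ _ hΦ he H
      simp [this, mul_assoc]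
  rw [e1, ← 𝒯.Poi_add _ _ hb hh (D.lip N n)]
  have a := 𝒯.Poi_close (kint (q + 1) α N (n + 1)) _ (kint_nonneg hα _ _ _)
    (fun x => add_nonneg (hb x) (hh x)) (D.lip N n) H
  have b := 𝒯.Poi_mono (kint (q + 1) α N (n + 1)) (kint_nonneg hα _ _ _) (D.lip N n)
    (D.lip N (n + 1)) (-(D.A / n)) Set.univ (fun _ _ _ _ _ => trivial)
    (fun H _ => by linarith [(abs_le.1 (D.step N n H (by omega) hn)).1]) H trivial
  have hm : 0 ≤ ∫ θ, supNorm θ ∂μ :=
    integral_nonneg fun θ => by simp only [supNorm_eq_norm]; exact norm_nonneg _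
  have e2 : ∑ x, |kint (q + 1) α N (n + 1) x -
      (α * (n - q) * wtLt (q + 1) N n x + α * ∑ ℓ, wtHit N n ℓ x)| ≤ α * (2 * (q + 1) * q / n) := by
    refine le_trans (le_of_eq ?_) (mul_le_mul_of_nonneg_left (l1_le hq hn) hα)
    rw [mul_sum]
    refine sum_congr rfl fun x _ => ?_
    rw [← abs_of_nonneg hα, ← abs_mul, abs_of_nonneg hα, kint]
    congr 1
    push_cast
    ring
  have a' := (abs_le.1 (a.trans (mul_le_mul_of_nonneg_right e2 hm))).1
  have e3 : (D.A + 2 * (q + 1) * q * α * ∫ θ, supNorm θ ∂μ) / n =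
      D.A / n + α * (2 * (q + 1) * q / n) * ∫ θ, supNorm θ ∂μ := by ring
  change -(_ * ∫ θ, supNorm θ ∂μ) ≤ _ at a'
  rw [e3]
  change 𝒯.Poi (fun x => α * (n - q) * wtLt (q + 1) N n x + α * ∑ ℓ, wtHit N n ℓ x) _ H + _ ≤ _
  linarith

include hα hs in
theorem step_site {N n : ℕ} (hq : q + 1 ≤ n) (hn : n < N) (H : (Fin N → Bool) → ℝ)
    (hH : ∀ σ b, H (update σ ⟨n, hn⟩ b) = H σ) :
    (clauseTerms (q + 1) μ hμ N).Poi (kint (q + 1) α N n) (D.Ψ N n) H +
      (c - ε - Real.log 2 - (D.A + 2 * (q + 1) * q * α * ∫ θ, supNorm θ ∂μ) / n) ≤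
    (fieldTerms ν hν N).T (dl N n)
      ((clauseTerms (q + 1) μ hμ N).Poi (kint (q + 1) α N (n + 1)) (D.Ψ N (n + 1))) H := by
  set 𝒯 := clauseTerms (q + 1) μ hμ N with h𝒯
  set 𝓕 := fieldTerms ν hν N with h𝓕
  have hqn : (0 : ℝ) ≤ n - q := by
    have : (q : ℝ) ≤ n := by exact_mod_cast (by omega : q ≤ n)
    linarith
  have hb : ∀ x, 0 ≤ α * (n - q) * wtLt (q + 1) N n x := fun x =>
    mul_nonneg (mul_nonneg hα hqn) (wtLt_nonneg _ _ _ _)
  have hc : ∀ x, 0 ≤ α * (q + 1 : ℕ) * wtCav (q + 1) N n x := fun x =>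
    mul_nonneg (by positivity) (wtCav_nonneg _ _ _ _)
  have he : ∀ x, 0 ≤ α * ((q + 1 : ℕ) - 1 : ℝ) * wtLt (q + 1) N n x := fun x =>
    mul_nonneg (mul_nonneg hα (by simp)) (wtLt_nonneg _ _ _ _)
  have lc := lip_one_iff.2 (𝒯.lip_Poi _ hc (D.lip N n))
  have a := 𝓕.T_mono (dl_nonneg N n) (𝒯.lip_Poi' hb lc)
    (𝒯.lip_Poi' (kint_nonneg hα _ N (n + 1)) (lip_one_iff.2 (D.lip N (n + 1)))) _ H
    fun x d _ => step_clause hα hs D hq hn (H + 𝓕.U x d)
  rw [sum_dl hn, one_mul, T_Poi_comm 𝒯 𝓕 hb (dl_nonneg N n) lc] at a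
  have lf := 𝓕.lip_T (dl_nonneg N n) lc
  rw [sum_dl hn, one_mul] at lf
  have b := 𝒯.Poi_mono _ hb (𝒯.lip_Poi _ he (D.lip N n)) (lip_one_iff.1 lf) (c - ε - Real.log 2)
    {H | ∀ σ b, H (update σ ⟨n, hn⟩ b) = H σ} (fun H hH x θ hx σ b => by
      have hx' : ∀ ℓ, (x ℓ).val < n := by
        by_contra h
        exact hx (by rw [wtLt, if_neg h, mul_zero])
      change H _ + θ _ = H _ + θ _
      rw [hH]
      congr 2
      funext ℓ
      exact update_of_ne (fun e => (hx' ℓ).ne (congrArg Fin.val e)) _ _)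
    (fun H hH => by
      have := D.cav N n hn (by omega) H hH
      rw [𝓕.T_eq _ lc, sum_dl_mul hn]
      change _ ≤ ∫ h, 𝒯.Poi _ (D.Ψ N n) (fun σ => H σ + h * spinVal (σ ⟨n, hn⟩)) ∂ν
      linarith) H hH
  rw [← 𝒯.Poi_add _ _ hb he (D.lip N n)] at b
  have e : ((fun x => α * (n - q) * wtLt (q + 1) N n x) +
      fun x => α * ((q + 1 : ℕ) - 1 : ℝ) * wtLt (q + 1) N n x) = kint (q + 1) α N n := by
    funext x
    simp only [Pi.add_apply, kint]
    push_cast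
    ring
  rw [e] at b
  linarith

/-- the interpolating sequence -/
noncomputable def seq (N n : ℕ) : ℝ :=
  (fieldTerms ν hν N).F n (fun j => dl N j)
    ((clauseTerms (q + 1) μ hμ N).Poi (kint (q + 1) α N n) (D.Ψ N n)) 0

include hα hs in
theorem seq_step {N n : ℕ} (hq : q + 1 ≤ n) (hn : n < N) :
    seq hν D N n + (c - ε - Real.log 2 - (D.A + 2 * (q + 1) * q * α * ∫ θ, supNorm θ ∂μ) / n) ≤
      seq hν D N (n + 1) := by
  have l1 := (clauseTerms (q + 1) μ hμ N).lip_Poi' (kint_nonneg hα _ N n)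
    (lip_one_iff.2 (D.lip N n))
  have l2 := (clauseTerms (q + 1) μ hμ N).lip_Poi' (kint_nonneg hα _ N (n + 1))
    (lip_one_iff.2 (D.lip N (n + 1)))
  have := (fieldTerms ν hν N).F_mono n (κ := fun j => dl N j) (fun j => dl_nonneg N j) l1
    ((fieldTerms ν hν N).lip_T (dl_nonneg N n) l2) _ {H | ∀ σ b, H (update σ ⟨n, hn⟩ b) = H σ}
    (fun j H hH i h hi σ b => by
      have hi' : i.val = j.val := by
        by_contra h
        exact hi (if_neg h)
      change H _ + h * spinVal _ = H _ + h * spinVal _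
      rw [hH, update_of_ne fun e => by
        have := congrArg Fin.val e
        have := j.2
        simp only at *
        omega])
    (fun H hH => step_site hα hν hs D hq hn H hH) 0 fun _ _ => rfl
  rw [prod_congr rfl fun (j : Fin n) _ => sum_dl (j.2.trans hn), prod_const_one, one_mul] at this
  unfold seq
  rw [F_succ']
  exact this

include hα in
theorem seq_ge {N n : ℕ} (h1 : 1 ≤ n) (hn : n ≤ N) :
    -(D.A + α * n * (∫ θ, supNorm θ ∂μ) + n * ∫ h, |h| ∂ν) ≤ seq hν D N n := by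
  have l0 := lip_one_iff.2 (D.lip N n)
  have l1 := (clauseTerms (q + 1) μ hμ N).lip_Poi' (kint_nonneg hα _ N n) l0
  have a := abs_F_sub_le (fieldTerms ν hν N) n (κ := fun j => dl N j) (fun j => dl_nonneg N j)
    (fun j => sum_dl (j.2.trans_le hn)) l1 0
  have b := (clauseTerms (q + 1) μ hμ N).abs_Poi_sub_le (kint_nonneg hα _ N n) l0 0
  have e : ∑ x, kint (q + 1) α N n x = α * n := by
    simp only [kint]
    rw [← mul_sum, sum_wtLt _ h1 hn, mul_one]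
  have d := D.close N n 0 h1 hn
  have e2 : ((2 : ℝ) ^ N)⁻¹ * ∑ σ : Fin N → Bool, Real.exp ((0 : (Fin N → Bool) → ℝ) σ) = 1 := by
    simp
  rw [e2, Real.log_one, sub_zero] at d
  rw [e, one_mul] at b
  change _ ≤ (n : ℝ) * ∫ h, |h| ∂ν at a
  change _ ≤ α * n * ∫ θ, supNorm θ ∂μ at b
  unfold seq
  linarith [(abs_le.1 a).1, (abs_le.1 b).1, (abs_le.1 d).1]

theorem F_field (N : ℕ) {Φ : ((Fin N → Bool) → ℝ) → ℝ} (h : Lip 1 Φ) (H : (Fin N → Bool) → ℝ) :
    (Integrable (fun hs : Fin N → ℝ => Φ (fun σ => H σ + ∑ i, hs i * spinVal (σ i)))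
      (Measure.pi fun _ => ν)) ∧
    (fieldTerms ν hν N).F N (fun j => dl N j) Φ H =
      ∫ hs : Fin N → ℝ, Φ (fun σ => H σ + ∑ i, hs i * spinVal (σ i)) ∂(Measure.pi fun _ => ν) := by
  have e : (fun ds : Fin N → ℝ => ∑ xs : Fin N → Fin N, (∏ j : Fin N, dl N j (xs j)) *
      Φ (H + ∑ j, (fieldTerms ν hν N).U (xs j) (ds j))) =
      fun hs => Φ (fun σ => H σ + ∑ i, hs i * spinVal (σ i)) := by
    funext ds
    rw [sum_eq_single id (fun xs _ hx => ?_) (by simp)]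
    · have : (∏ j : Fin N, dl N j (id j)) = 1 := prod_eq_one fun j _ => if_pos rfl
      rw [this, one_mul]
      congr 1
      funext σ
      simp only [Pi.add_apply, Finset.sum_apply]
      rfl
    · obtain ⟨j, hj⟩ := Function.ne_iff.1 hx
      rw [prod_eq_zero (mem_univ j) (if_neg fun e => hj (Fin.ext e)), zero_mul]
  have a := (fieldTerms ν hν N).integrable_pi N (fun j => dl N j) h H
  have b := (fieldTerms ν hν N).F_eq N (fun j => dl N j) h H
  rw [e] at a b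
  exact ⟨a, b⟩

include hα in
theorem pressure_eq {N : ℕ} (hN : 1 ≤ N) :
    N * pressure (q + 1) α μ ν N = (fieldTerms ν hν N).F N (fun j => dl N j)
      ((clauseTerms (q + 1) μ hμ N).Poi (kint (q + 1) α N N) LZ) 0 := by
  have hN' : (N : ℝ) ≠ 0 := by positivity
  have lf := (fieldTerms ν hν N).lip_F N (κ := fun j => dl N j) (fun j => dl_nonneg N j) lip_LZ
  rw [prod_congr rfl fun (j : Fin N) _ => sum_dl j.2, prod_const_one, one_mul] at lf
  rw [F_Poi_comm _ _ N (kint_nonneg hα _ N N) (fun j => dl_nonneg N j) lip_LZ, pressure,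
    ← mul_assoc, mul_one_div_cancel hN', one_mul]
  refine Eq.trans ?_ ((clauseTerms (q + 1) μ hμ N).Poi_eq (wtLt (q + 1) N N) (wtLt_nonneg _ _ _)
    (sum_wtLt _ hN le_rfl) (α * N) (by positivity) _ (lip_one_iff.1 lf) 0).2.symm
  refine tsum_congr fun M => ?_
  congr 1
  refine integral_congr_ae (Filter.Eventually.of_forall fun θs => ?_)
  have e : ∀ (idx : Fin M → Fin (q + 1) → Fin N) (hs : Fin N → ℝ), logPartition N θs idx hs =
      LZ (fun σ => (0 + ∑ j, (clauseTerms (q + 1) μ hμ N).U (idx j) (θs j)) σ +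
        ∑ i, hs i * spinVal (σ i)) := by
    intro idx hs
    simp only [zero_add, Finset.sum_apply]
    rfl
  simp only [e]
  rw [integral_const_mul, integral_finsetSum _ fun idx _ => (F_field hν N lip_LZ _).1, mul_sum]
  refine sum_congr rfl fun idx _ => ?_
  rw [(F_field hν N lip_LZ _).2]
  congr 1
  rw [prod_congr rfl fun j _ => show wtLt (q + 1) N N (idx j) = ((N : ℝ) ^ (q + 1))⁻¹ from
    if_pos fun ℓ => (idx j ℓ).2]
  simp

include hα in
theorem seq_le {N : ℕ} (hN : 1 ≤ N) :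
    seq hν D N N + (N * Real.log 2 - D.A) ≤ N * pressure (q + 1) α μ ν N := by
  have hκ := kint_nonneg hα (q + 1) N N
  have a := (clauseTerms (q + 1) μ hμ N).Poi_mono _ hκ (D.lip N N) (lip_one_iff.1 lip_LZ)
    (N * Real.log 2 - D.A) Set.univ (fun _ _ _ _ _ => trivial) fun H _ => by
      have d := (abs_le.1 (D.close N N H hN le_rfl)).2
      rw [Real.log_mul (by positivity)
        (sum_pos (fun _ _ => Real.exp_pos _) univ_nonempty).ne', Real.log_inv, Real.log_pow] at d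
      unfold LZ
      linarith
  have b := (fieldTerms ν hν N).F_mono N (κ := fun j => dl N j) (fun j => dl_nonneg N j)
    ((clauseTerms (q + 1) μ hμ N).lip_Poi' hκ (lip_one_iff.2 (D.lip N N)))
    ((clauseTerms (q + 1) μ hμ N).lip_Poi' hκ lip_LZ) _ Set.univ (fun _ _ _ _ _ _ => trivial)
    a 0 trivial
  rw [prod_congr rfl fun (j : Fin N) _ => sum_dl j.2, prod_const_one, one_mul] at b
  rw [pressure_eq (hμ := hμ) hα hν hN]
  exact b

end Main

end ASS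

open ASS in
theorem lower_of_cavity (p : ℕ) (hp : 1 ≤ p) (α : ℝ) (hα : 0 ≤ α) (μ : Measure (Inter p))
    [IsProbabilityMeasure μ] (ν : Measure ℝ) [IsProbabilityMeasure ν]
    (hμ : Integrable (fun θ => supNorm θ) μ) (hν : Integrable (fun x : ℝ => x) ν) (hs : SymLaw p μ)
    (c ε : ℝ) (hε : 0 < ε) (D : CavityData p α μ hμ ν c ε) :
    ∀ᶠ N in Filter.atTop, c - 2 * ε ≤ pressure p α μ ν N := by
  obtain ⟨q, rfl⟩ : ∃ q, p = q + 1 := ⟨p - 1, by omega⟩
  set C : ℝ := D.A + 2 * (q + 1) * q * α * ∫ θ, supNorm θ ∂μ with hC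
  obtain ⟨n₁, hn₁⟩ := exists_nat_ge (2 * C / ε)
  set n₀ := n₁ + (q + 1) with hn₀
  set g : ℝ := c - 3 / 2 * ε - Real.log 2 with hg
  have tel : ∀ N k, n₀ + k ≤ N → seq hν D N n₀ + k * g ≤ seq hν D N (n₀ + k) := by
    intro N k
    induction k with
    | zero => intro _; simp
    | succ k ih =>
      intro hk
      have a := ih (by omega)
      have b := seq_step hα hν hs D (N := N) (n := n₀ + k) (by omega) (by omega)
      have h0 : (0 : ℝ) < (n₀ + k : ℕ) := by exact_mod_cast (by omega : 0 < n₀ + k)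
      have h1 : (n₁ : ℝ) ≤ (n₀ + k : ℕ) := by exact_mod_cast (by omega : n₁ ≤ n₀ + k)
      have d : C / (n₀ + k : ℕ) ≤ ε / 2 := by
        rw [div_le_iff₀ h0]
        rw [div_le_iff₀ hε] at hn₁
        nlinarith
      rw [← hC] at b
      rw [← add_assoc]
      push_cast at *
      linarith
  set K : ℝ := D.A + α * n₀ * (∫ θ, supNorm θ ∂μ) + n₀ * (∫ h, |h| ∂ν) + D.A + n₀ * g with hK
  obtain ⟨n₂, hn₂⟩ := exists_nat_ge (2 * K / ε)
  filter_upwards [Filter.eventually_ge_atTop (n₀ + n₂)] with N hN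
  obtain ⟨k, rfl⟩ : ∃ k, N = n₀ + k := ⟨N - n₀, by omega⟩
  have a := tel (n₀ + k) k le_rfl
  have b := seq_ge hα hν D (N := n₀ + k) (n := n₀) (by omega) (by omega)
  have d := seq_le hα hν D (N := n₀ + k) (by omega)
  have h0 : (0 : ℝ) < (n₀ + k : ℕ) := by exact_mod_cast (by omega : 0 < n₀ + k)
  have h1 : (n₂ : ℝ) ≤ (n₀ + k : ℕ) := by exact_mod_cast (by omega : n₂ ≤ n₀ + k)
  rw [div_le_iff₀ hε] at hn₂
  refine le_of_mul_le_mul_left ?_ h0
  have h2 := mul_le_mul_of_nonneg_right h1 hε.le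
  push_cast at *
  nlinarith

end Crest.Agent.R141
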