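import Crest.Agent.R141.Grid

set_option autoImplicit false

open MeasureTheory Crest.ProbabilityR.Diluted Filter Topology
namespace Crest.Agent.R141

namespace Approx

/-! ### the splice map -/

theorem splice_one {ι : Type} [Fintype ι] [DecidableEq ι] (lvl : ι) :
    MeasurePreserving (fun q : (ι → unitInterval) × unitInterval =>
      fun j => if j = lvl then q.2 else q.1 j)
      ((Measure.pi fun _ : ι => (volume : Measure unitInterval)).prod volume)
      (Measure.pi fun _ : ι => (volume : Measure unitInterval)) := by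
  have hm : Measurable (fun q : (ι → unitInterval) × unitInterval =>
      fun j => if j = lvl then q.2 else q.1 j) := by
    refine measurable_pi_iff.2 fun j => ?_
    by_cases h : j = lvl
    · simp only [if_pos h]; fun_prop
    · simp only [if_neg h]; fun_prop
  refine ⟨hm, (Measure.pi_eq fun s hs => ?_).symm⟩
  rw [Measure.map_apply hm (MeasurableSet.univ_pi hs)]
  have : (fun q : (ι → unitInterval) × unitInterval => fun j => if j = lvl then q.2 else q.1 j) ⁻¹'
      Set.univ.pi s = (Set.univ.pi (Function.update s lvl Set.univ)) ×ˢ s lvl := by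
    ext q
    simp only [Set.mem_preimage, Set.mem_pi, Set.mem_univ, forall_true_left, Set.mem_prod]
    constructor
    · intro h
      refine ⟨fun j => ?_, by simpa using h lvl⟩
      by_cases hj : j = lvl
      · subst hj; simp
      · simpa [hj] using h j
    · rintro ⟨h1, h2⟩ j
      by_cases hj : j = lvl
      · subst hj; simpa using h2
      · simpa [hj] using h1 j
  rw [this, Measure.prod_prod, Measure.pi_pi,
    ← Finset.mul_prod_erase _ _ (Finset.mem_univ lvl),
    ← Finset.mul_prod_erase _ (fun i => (volume : Measure unitInterval) (s i))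
      (Finset.mem_univ lvl)]
  simp only [Function.update_self, measure_univ, one_mul]
  rw [mul_comm]
  congr 1
  apply Finset.prod_congr rfl
  intro j hj
  rw [Function.update_of_ne (Finset.ne_of_mem_erase hj)]

variable {L : Type} [Fintype L] {r : ℕ}

instance : IsProbabilityMeasure (uniformArrays L r) := by
  unfold uniformArrays; infer_instance

theorem splice (lvl : Fin (r + 1)) :
    MeasurePreserving (fun q : (L → Fin (r + 1) → unitInterval) × (L → unitInterval) =>
      fun ω j => if j = lvl then q.2 ω else q.1 ω j)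
      ((uniformArrays L r).prod (Measure.pi fun _ : L => (volume : Measure unitInterval)))
      (uniformArrays L r) :=
  (measurePreserving_pi _ _ fun _ : L => splice_one lvl).comp
    (measurePreserving_arrowProdEquivProdArrow _ _ L
      (fun _ => Measure.pi fun _ : Fin (r + 1) => (volume : Measure unitInterval))
      (fun _ => (volume : Measure unitInterval))).symm

/-! ### power means -/

theorem measurable_pmStep {Θ : Type} [MeasurableSpace Θ] (m : ℝ) (lvl : Fin (r + 1))
    {W : Θ → (L → Fin (r + 1) → unitInterval) → ℝ}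
    (hW : Measurable fun q : Θ × (L → Fin (r + 1) → unitInterval) => W q.1 q.2) :
    Measurable fun q : Θ × (L → Fin (r + 1) → unitInterval) => pmStep m lvl (W q.1) q.2 := by
  unfold pmStep
  refine Measurable.pow_const ?_ _
  have h1 : Measurable fun z : (Θ × (L → Fin (r + 1) → unitInterval)) × (L → unitInterval) =>
      (W z.1.1 (fun ω j => if j = lvl then z.2 ω else z.1.2 ω j)) ^ m := by
    refine Measurable.pow_const ?_ _
    exact hW.comp (f := fun z : (Θ × (L → Fin (r + 1) → unitInterval)) × (L → unitInterval) =>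
      (z.1.1, fun ω j => if j = lvl then z.2 ω else z.1.2 ω j))
      (measurable_fst.fst.prodMk ((splice lvl).measurable.comp
        (f := fun z : (Θ × (L → Fin (r + 1) → unitInterval)) × (L → unitInterval) => (z.1.2, z.2))
        (by fun_prop)))
  exact h1.stronglyMeasurable.integral_prod_right'.measurable

theorem measurable_foldr {Θ : Type} [MeasurableSpace Θ] (m : Fin r → ℝ)
    {W : Θ → (L → Fin (r + 1) → unitInterval) → ℝ}
    (hW : Measurable fun q : Θ × (L → Fin (r + 1) → unitInterval) => W q.1 q.2)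
    (l : List (Fin r)) :
    Measurable fun q : Θ × (L → Fin (r + 1) → unitInterval) =>
      l.foldr (fun d acc => pmStep (m d) d.succ acc) (W q.1) q.2 := by
  induction l with
  | nil => exact hW
  | cons d l ih =>
    exact measurable_pmStep (m d) d.succ
      (W := fun θ => l.foldr (fun d acc => pmStep (m d) d.succ acc) (W θ)) ih

theorem measurable_foldr' (m : Fin r → ℝ) {W : (L → Fin (r + 1) → unitInterval) → ℝ}
    (hW : Measurable W) (l : List (Fin r)) :
    Measurable (l.foldr (fun d acc => pmStep (m d) d.succ acc) W) :=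
  (measurable_foldr (Θ := Unit) m (W := fun _ => W) (hW.comp measurable_snd) l).comp
    (f := fun u => ((), u)) measurable_prodMk_left

theorem measurable_slice {W : (L → Fin (r + 1) → unitInterval) → ℝ} (hW : Measurable W) (m : ℝ)
    (lvl : Fin (r + 1)) (u : L → Fin (r + 1) → unitInterval) :
    Measurable fun v : L → unitInterval =>
      (W (fun ω j => if j = lvl then v ω else u ω j)) ^ m :=
  (hW.comp ((splice lvl).measurable.comp
    (f := fun v : L → unitInterval => (u, v)) measurable_prodMk_left)).pow_const _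

theorem integral_bounds {m a b : ℝ} (hm : 0 < m) (ha : 0 < a) (lvl : Fin (r + 1))
    {W : (L → Fin (r + 1) → unitInterval) → ℝ} (hW : Measurable W)
    (hb : ∀ u, a ≤ W u ∧ W u ≤ b) (u : L → Fin (r + 1) → unitInterval) :
    a ^ m ≤ ∫ v : L → unitInterval, (W (fun ω j => if j = lvl then v ω else u ω j)) ^ m
      ∂(Measure.pi fun _ : L => (volume : Measure unitInterval)) ∧
    ∫ v : L → unitInterval, (W (fun ω j => if j = lvl then v ω else u ω j)) ^ m
      ∂(Measure.pi fun _ : L => (volume : Measure unitInterval)) ≤ b ^ m := by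
  have h1 : ∀ u, a ^ m ≤ W u ^ m := fun u => Real.rpow_le_rpow ha.le (hb u).1 hm.le
  have h2 : ∀ u, W u ^ m ≤ b ^ m := fun u =>
    Real.rpow_le_rpow (ha.le.trans (hb u).1) (hb u).2 hm.le
  have hi : Integrable (fun v : L → unitInterval =>
      (W (fun ω j => if j = lvl then v ω else u ω j)) ^ m)
      (Measure.pi fun _ : L => (volume : Measure unitInterval)) := by
    refine Integrable.of_bound (measurable_slice hW m lvl u).aestronglyMeasurable (b ^ m)
      (ae_of_all _ fun v => ?_)
    rw [Real.norm_of_nonneg ((Real.rpow_pos_of_pos ha m).le.trans (h1 _))]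
    exact h2 _
  constructor
  · simpa using integral_mono (integrable_const (a ^ m)) hi fun v => h1 _
  · simpa using integral_mono hi (integrable_const (b ^ m)) fun v => h2 _

theorem pmStep_bounds {m a b : ℝ} (hm : 0 < m) (ha : 0 < a) (lvl : Fin (r + 1))
    {W : (L → Fin (r + 1) → unitInterval) → ℝ} (hW : Measurable W)
    (hb : ∀ u, a ≤ W u ∧ W u ≤ b) (u : L → Fin (r + 1) → unitInterval) :
    a ≤ pmStep m lvl W u ∧ pmStep m lvl W u ≤ b := by
  obtain ⟨h1, h2⟩ := integral_bounds hm ha lvl hW hb u
  have hb0 : 0 ≤ b := ha.le.trans ((hb u).1.trans (hb u).2)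
  have h0 := (Real.rpow_pos_of_pos ha m).le
  unfold pmStep
  rw [one_div]
  constructor
  · calc a = (a ^ m) ^ m⁻¹ := (Real.rpow_rpow_inv ha.le hm.ne').symm
      _ ≤ _ := Real.rpow_le_rpow h0 h1 (by positivity)
  · calc _ ≤ (b ^ m) ^ m⁻¹ := Real.rpow_le_rpow (h0.trans h1) h2 (by positivity)
      _ = b := Real.rpow_rpow_inv hb0 hm.ne'

theorem foldr_bounds {m : Fin r → ℝ} (hm : ∀ d, 0 < m d) {a b : ℝ} (ha : 0 < a)
    {W : (L → Fin (r + 1) → unitInterval) → ℝ} (hW : Measurable W)
    (hb : ∀ u, a ≤ W u ∧ W u ≤ b) (l : List (Fin r)) :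
    ∀ u, a ≤ l.foldr (fun d acc => pmStep (m d) d.succ acc) W u ∧
      l.foldr (fun d acc => pmStep (m d) d.succ acc) W u ≤ b := by
  induction l with
  | nil => exact hb
  | cons d l ih => exact pmStep_bounds (hm d) ha d.succ (measurable_foldr' m hW l) ih

theorem pmStep_tendsto {m a b : ℝ} (hm : 0 < m) (ha : 0 < a) (lvl : Fin (r + 1))
    {W : ℕ → (L → Fin (r + 1) → unitInterval) → ℝ} {V : (L → Fin (r + 1) → unitInterval) → ℝ}
    (hW : ∀ n, Measurable (W n)) (hb : ∀ n u, a ≤ W n u ∧ W n u ≤ b)
    (h : ∀ᵐ u ∂uniformArrays L r, Tendsto (fun n => W n u) atTop (𝓝 (V u))) :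
    ∀ᵐ u ∂uniformArrays L r,
      Tendsto (fun n => pmStep m lvl (W n) u) atTop (𝓝 (pmStep m lvl V u)) := by
  filter_upwards [Measure.ae_ae_of_ae_prod ((splice lvl).quasiMeasurePreserving.ae h)] with u hu
  unfold pmStep
  refine Tendsto.rpow_const ?_ (Or.inr (by positivity))
  refine tendsto_integral_of_dominated_convergence (fun _ => b ^ m)
    (fun n => (measurable_slice (hW n) m lvl u).aestronglyMeasurable) (integrable_const _)
    (fun n => ae_of_all _ fun v => ?_) ?_
  · rw [Real.norm_of_nonneg (Real.rpow_nonneg (ha.le.trans (hb n _).1) _)]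
    exact Real.rpow_le_rpow (ha.le.trans (hb n _).1) (hb n _).2 hm.le
  · filter_upwards [hu] with v hv
    exact hv.rpow_const (Or.inr hm.le)

theorem foldr_tendsto {m : Fin r → ℝ} (hm : ∀ d, 0 < m d) {a b : ℝ} (ha : 0 < a)
    {W : ℕ → (L → Fin (r + 1) → unitInterval) → ℝ} {V : (L → Fin (r + 1) → unitInterval) → ℝ}
    (hW : ∀ n, Measurable (W n)) (hb : ∀ n u, a ≤ W n u ∧ W n u ≤ b)
    (h : ∀ᵐ u ∂uniformArrays L r, Tendsto (fun n => W n u) atTop (𝓝 (V u))) (l : List (Fin r)) :
    ∀ᵐ u ∂uniformArrays L r,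
      Tendsto (fun n => l.foldr (fun d acc => pmStep (m d) d.succ acc) (W n) u) atTop
        (𝓝 (l.foldr (fun d acc => pmStep (m d) d.succ acc) V u)) := by
  induction l with
  | nil => exact h
  | cons d l ih =>
    exact pmStep_tendsto (hm d) ha d.succ (fun n => measurable_foldr' m (hW n) l)
      (fun n => foldr_bounds hm ha (hW n) (hb n) l) ih

theorem abs_log_le {B x : ℝ} (h : Real.exp (-B) ≤ x ∧ x ≤ Real.exp B) : |Real.log x| ≤ B := by
  have hx : 0 < x := (Real.exp_pos _).trans_le h.1
  rw [abs_le]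
  exact ⟨(Real.le_log_iff_exp_le hx).2 h.1, (Real.log_le_iff_le_exp hx).2 h.2⟩

theorem norm_int_le {m : Fin r → ℝ} (hm : ∀ d, 0 < m d) {B : ℝ}
    {W : (L → Fin (r + 1) → unitInterval) → ℝ} (hW : Measurable W)
    (hb : ∀ u, Real.exp (-B) ≤ W u ∧ W u ≤ Real.exp B) :
    ‖∫ u, Real.log (powerMeans m W u) ∂uniformArrays L r‖ ≤ B := by
  have := norm_integral_le_of_norm_le_const (μ := uniformArrays L r)
    (f := fun u => Real.log (powerMeans m W u)) (C := B) (ae_of_all _ fun u =>
      abs_log_le (foldr_bounds hm (Real.exp_pos _) hW hb _ u))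
  simpa using this

theorem int_tendsto {m : Fin r → ℝ} (hm : ∀ d, 0 < m d) {B : ℝ}
    {W : ℕ → (L → Fin (r + 1) → unitInterval) → ℝ} {V : (L → Fin (r + 1) → unitInterval) → ℝ}
    (hW : ∀ n, Measurable (W n)) (hb : ∀ n u, Real.exp (-B) ≤ W n u ∧ W n u ≤ Real.exp B)
    (h : ∀ᵐ u ∂uniformArrays L r, Tendsto (fun n => W n u) atTop (𝓝 (V u))) :
    Tendsto (fun n => ∫ u, Real.log (powerMeans m (W n) u) ∂uniformArrays L r) atTop
      (𝓝 (∫ u, Real.log (powerMeans m V u) ∂uniformArrays L r)) := by
  refine tendsto_integral_of_dominated_convergence (fun _ => B)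
    (fun n => (measurable_foldr' m (hW n) _).log.aestronglyMeasurable) (integrable_const _)
    (fun n => ae_of_all _ fun u => abs_log_le (foldr_bounds hm (Real.exp_pos _) (hW n) (hb n) _ u))
    ?_
  filter_upwards [foldr_tendsto hm (Real.exp_pos _) hW hb h (List.finRange r)] with u hu
  refine hu.log (ne_of_gt ((Real.exp_pos (-B)).trans_le ?_))
  exact ge_of_tendsto' hu fun n => (foldr_bounds hm (Real.exp_pos _) (hW n) (hb n) _ u).1

/-! ### the site and edge terms -/

theorem tilt_pos (x : ℝ) (s : Bool) : 0 < tilt x s := by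
  unfold tilt
  have := Real.cosh_pos x
  positivity

theorem sum_tilt (x : ℝ) : ∑ s, tilt x s = 1 := by
  have := Real.cosh_pos x
  simp only [tilt, spinVal, Fintype.sum_bool, if_true, Bool.false_eq_true, if_false, mul_one,
    mul_neg]
  rw [← add_div, div_eq_one_iff_eq (by positivity), Real.cosh_eq]
  ring

theorem continuous_tilt (s : Bool) : Continuous fun x => tilt x s := by
  unfold tilt
  refine Continuous.div (by fun_prop) (by fun_prop) fun x => ?_
  have := Real.cosh_pos x
  positivity

theorem mix_bounds {q : ℕ} (φ : (Fin q → Bool) → ℝ) (x : Fin q → ℝ) {B : ℝ} (hB : ∀ s, |φ s| ≤ B) :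
    Real.exp (-B) ≤ ∑ s, Real.exp (φ s) * ∏ ℓ, tilt (x ℓ) (s ℓ) ∧
      ∑ s, Real.exp (φ s) * ∏ ℓ, tilt (x ℓ) (s ℓ) ≤ Real.exp B := by
  have h1 : ∑ s : Fin q → Bool, ∏ ℓ, tilt (x ℓ) (s ℓ) = 1 := by
    rw [← Fintype.piFinset_univ, ← Finset.prod_univ_sum]
    simp only [sum_tilt, Finset.prod_const_one]
  have h2 : ∀ s : Fin q → Bool, 0 ≤ ∏ ℓ, tilt (x ℓ) (s ℓ) := fun s =>
    Finset.prod_nonneg fun ℓ _ => (tilt_pos _ _).le
  constructor
  · rw [← mul_one (Real.exp (-B)), ← h1, Finset.mul_sum]
    exact Finset.sum_le_sum fun s _ =>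
      mul_le_mul_of_nonneg_right (Real.exp_le_exp.2 (abs_le.1 (hB s)).1) (h2 s)
  · rw [← mul_one (Real.exp B), ← h1, Finset.mul_sum]
    exact Finset.sum_le_sum fun s _ =>
      mul_le_mul_of_nonneg_right (Real.exp_le_exp.2 (abs_le.1 (hB s)).2) (h2 s)

theorem abs_le_supNorm {p : ℕ} (θ : Inter p) (s : Fin p → Bool) : |θ s| ≤ supNorm θ :=
  le_ciSup (f := fun s => |θ s|) (Set.finite_range _).bddAbove s

theorem edge_bounds {p : ℕ} (θ : Inter p) (x : Fin p → ℝ) :
    Real.exp (-supNorm θ) ≤ edgeTerm θ x ∧ edgeTerm θ x ≤ Real.exp (supNorm θ) :=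
  mix_bounds θ x (abs_le_supNorm θ)

theorem abs_siteMessage {p : ℕ} (θ : Inter p) (x : Fin (p - 1) → ℝ) (ε : Bool) :
    |siteMessage θ x ε| ≤ supNorm θ :=
  abs_log_le (mix_bounds _ x fun _ => abs_le_supNorm θ _)

theorem site_bounds {p k : ℕ} (h : ℝ) (θs : Fin k → Inter p) (x : Fin k → Fin (p - 1) → ℝ) :
    Real.exp (-(|h| + ∑ j, supNorm (θs j))) ≤ siteTerm h θs x ∧
      siteTerm h θs x ≤ Real.exp (|h| + ∑ j, supNorm (θs j)) := by
  have h1 : ∀ ε, |h * spinVal ε + ∑ j, siteMessage (θs j) (x j) ε| ≤
      |h| + ∑ j, supNorm (θs j) := by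
    intro ε
    refine (abs_add_le _ _).trans (add_le_add ?_ ((Finset.abs_sum_le_sum_abs _ _).trans
      (Finset.sum_le_sum fun j _ => abs_siteMessage _ _ _)))
    cases ε <;> simp [spinVal]
  have h2 := fun ε => Real.exp_le_exp.2 (abs_le.1 (h1 ε)).1
  have h3 := fun ε => Real.exp_le_exp.2 (abs_le.1 (h1 ε)).2
  unfold siteTerm
  rw [Fintype.sum_bool]
  constructor
  · linarith [h2 true, h2 false]
  · linarith [h3 true, h3 false]

theorem continuous_edge {p : ℕ} :
    Continuous fun q : Inter p × (Fin p → ℝ) => edgeTerm q.1 q.2 := by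
  unfold edgeTerm
  refine continuous_finsetSum _ fun s _ => Continuous.mul (by fun_prop) ?_
  exact continuous_finsetProd _ fun ℓ _ => (continuous_tilt _).comp (by fun_prop)

theorem continuous_siteMessage {p : ℕ} (ε : Bool) :
    Continuous fun q : Inter p × (Fin (p - 1) → ℝ) => siteMessage q.1 q.2 ε := by
  unfold siteMessage
  refine Continuous.log ?_ fun q => ne_of_gt ((Real.exp_pos _).trans_le
    (mix_bounds _ q.2 fun _ => abs_le_supNorm q.1 _).1)
  refine continuous_finsetSum _ fun s _ => Continuous.mul (by fun_prop) ?_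
  exact continuous_finsetProd _ fun ℓ _ => (continuous_tilt _).comp (by fun_prop)

theorem continuous_site {p k : ℕ} :
    Continuous fun q : ((Fin k → Inter p) × ℝ) × (Fin k → Fin (p - 1) → ℝ) =>
      siteTerm q.1.2 q.1.1 q.2 := by
  unfold siteTerm
  refine continuous_const.mul (continuous_finsetSum _ fun ε _ => Real.continuous_exp.comp ?_)
  refine Continuous.add (by fun_prop) (continuous_finsetSum _ fun j _ => ?_)
  exact (continuous_siteMessage ε).comp
    (f := fun q : ((Fin k → Inter p) × ℝ) × (Fin k → Fin (p - 1) → ℝ) => (q.1.1 j, q.2 j))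
    (by fun_prop)

/-! ### continuity of the functional -/

theorem ae_labels {X : ℕ → (Fin (r + 1) → unitInterval) → ℝ} {Y : (Fin (r + 1) → unitInterval) → ℝ}
    (h : ∀ᵐ u ∂(Measure.pi fun _ : Fin (r + 1) => (volume : Measure unitInterval)),
      Tendsto (fun n => X n u) atTop (𝓝 (Y u))) :
    ∀ᵐ u ∂uniformArrays L r, ∀ ω, Tendsto (fun n => X n (u ω)) atTop (𝓝 (Y (u ω))) :=
  ae_all_iff.2 fun ω => (measurePreserving_eval
    (fun _ : L => Measure.pi fun _ : Fin (r + 1) => (volume : Measure unitInterval))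
    ω).quasiMeasurePreserving.ae h

theorem summable_poisson (lam a b : ℝ) :
    Summable fun k : ℕ => poissonWeight lam k * (a + k * b) := by
  have h1 : Summable fun k : ℕ => poissonWeight lam k := by
    simpa [poissonWeight, mul_div_assoc] using
      (Real.summable_pow_div_factorial lam).mul_left (Real.exp (-lam))
  have h2 : Summable fun k : ℕ => poissonWeight lam k * k := by
    rw [← summable_nat_add_iff 1]
    refine (h1.mul_left lam).congr fun k => ?_
    simp only [poissonWeight, Nat.factorial_succ]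
    push_cast
    field_simp
    ring
  refine ((h1.mul_right a).add (h2.mul_right b)).congr fun k => ?_
  ring

theorem trial_tendsto (p : ℕ) (α : ℝ) (hα : 0 ≤ α) (μ : Measure (Inter p)) [IsProbabilityMeasure μ]
    (ν : Measure ℝ) [IsProbabilityMeasure ν] (hμ : Integrable (fun θ => supNorm θ) μ)
    (hν : Integrable (fun x : ℝ => x) ν) (m : Fin r → ℝ) (hm : ∀ d, 0 < m d)
    {X : ℕ → (Fin (r + 1) → unitInterval) → ℝ} {Y : (Fin (r + 1) → unitInterval) → ℝ}
    (hX : ∀ n, Measurable (X n))
    (h : ∀ᵐ u ∂(Measure.pi fun _ : Fin (r + 1) => (volume : Measure unitInterval)),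
      Tendsto (fun n => X n u) atTop (𝓝 (Y u))) :
    Tendsto (fun n => trialFunctional p α μ ν r m (X n)) atTop
      (𝓝 (trialFunctional p α μ ν r m Y)) := by
  unfold trialFunctional
  refine Tendsto.sub (Tendsto.const_add _ ?_) (Tendsto.const_mul _ ?_)
  · have hms : ∀ k n, Measurable fun q : ((Fin k → Inter p) × ℝ) ×
        ((Fin k × Fin (p - 1)) → Fin (r + 1) → unitInterval) =>
          siteTerm q.1.2 q.1.1 (fun j ℓ => X n (q.2 (j, ℓ))) := by
      intro k n
      have := hX n
      exact continuous_site.measurable.comp (f := fun q : ((Fin k → Inter p) × ℝ) ×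
        ((Fin k × Fin (p - 1)) → Fin (r + 1) → unitInterval) =>
          (q.1, fun j ℓ => X n (q.2 (j, ℓ)))) (by fun_prop)
    have hms1 : ∀ k n (θs : Fin k → Inter p) (h : ℝ), Measurable
        fun u' : (Fin k × Fin (p - 1)) → Fin (r + 1) → unitInterval =>
          siteTerm h θs (fun j ℓ => X n (u' (j, ℓ))) := fun k n θs h =>
      (hms k n).comp (f := fun u' => ((θs, h), u')) measurable_prodMk_left
    have hms2 : ∀ k n, StronglyMeasurable fun q : (Fin k → Inter p) × ℝ =>
        ∫ u, Real.log (powerMeans m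
          (fun u' : (Fin k × Fin (p - 1)) → Fin (r + 1) → unitInterval =>
            siteTerm q.2 q.1 (fun j ℓ => X n (u' (j, ℓ)))) u)
          ∂(uniformArrays (Fin k × Fin (p - 1)) r) := fun k n =>
      (measurable_foldr m (W := fun (q : (Fin k → Inter p) × ℝ)
        (u' : (Fin k × Fin (p - 1)) → Fin (r + 1) → unitInterval) =>
          siteTerm q.2 q.1 (fun j ℓ => X n (u' (j, ℓ)))) (hms k n)
        (List.finRange r)).log.stronglyMeasurable.integral_prod_right'
    have hb1 : ∀ k n (θs : Fin k → Inter p), ‖∫ h, ∫ u, Real.log (powerMeans m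
          (fun u' : (Fin k × Fin (p - 1)) → Fin (r + 1) → unitInterval =>
            siteTerm h θs (fun j ℓ => X n (u' (j, ℓ)))) u)
          ∂(uniformArrays (Fin k × Fin (p - 1)) r) ∂ν‖ ≤
        ∫ h, |h| ∂ν + ∑ j, supNorm (θs j) := by
      intro k n θs
      refine (norm_integral_le_of_norm_le (g := fun h => |h| + ∑ j, supNorm (θs j))
        (hν.abs.add (integrable_const _)) (ae_of_all _ fun h =>
          norm_int_le hm (hms1 k n θs h) fun u => site_bounds _ _ _)).trans (le_of_eq ?_)
      rw [integral_add hν.abs (integrable_const _)]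
      simp
    have hi : ∀ k (j : Fin k), Integrable (fun θs : Fin k → Inter p => supNorm (θs j))
        (Measure.pi fun _ => μ) := fun k j =>
      (measurePreserving_eval (fun _ : Fin k => μ) j).integrable_comp_of_integrable hμ
    have hi2 : ∀ k, Integrable (fun θs : Fin k → Inter p => ∫ h, |h| ∂ν + ∑ j, supNorm (θs j))
        (Measure.pi fun _ => μ) := fun k =>
      (integrable_const _).add (integrable_finsetSum _ fun j _ => hi k j)
    have hw : ∀ k, 0 ≤ poissonWeight (α * p) k := by
      intro k; unfold poissonWeight; positivity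
    refine tendsto_tsum_of_dominated_convergence
      (summable_poisson (α * p) (∫ h, |h| ∂ν) (∫ θ, supNorm θ ∂μ)) (fun k => ?_)
      (Eventually.of_forall fun n k => ?_)
    · refine Tendsto.const_mul _ ?_
      refine tendsto_integral_of_dominated_convergence _
        (fun n => (hms2 k n).integral_prod_right'.aestronglyMeasurable) (hi2 k)
        (fun n => ae_of_all _ (hb1 k n)) (ae_of_all _ fun θs => ?_)
      refine tendsto_integral_of_dominated_convergence (fun h => |h| + ∑ j, supNorm (θs j))
        (fun n => ((hms2 k n).measurable.comp (f := fun h => (θs, h))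
          measurable_prodMk_left).aestronglyMeasurable) (hν.abs.add (integrable_const _))
        (fun n => ae_of_all _ fun h => norm_int_le hm (hms1 k n θs h) fun u => site_bounds _ _ _)
        (ae_of_all _ fun h' => ?_)
      refine int_tendsto hm (fun n => hms1 k n θs h') (fun n u => site_bounds _ _ _) ?_
      filter_upwards [ae_labels h] with u hu
      refine (continuous_site.tendsto ((θs, h'), fun j ℓ => Y (u (j, ℓ)))).comp
        (f := fun n => ((θs, h'), fun j ℓ => X n (u (j, ℓ)))) ?_
      exact tendsto_const_nhds.prodMk_nhds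
        (tendsto_pi_nhds.2 fun j => tendsto_pi_nhds.2 fun ℓ => hu _)
    · rw [norm_mul, Real.norm_of_nonneg (hw k)]
      refine mul_le_mul_of_nonneg_left ((norm_integral_le_of_norm_le (hi2 k)
        (ae_of_all _ (hb1 k n))).trans (le_of_eq ?_)) (hw k)
      rw [integral_add (integrable_const _) (integrable_finsetSum _ fun j _ => hi k j),
        integral_finsetSum _ fun j _ => hi k j]
      have : ∀ j : Fin k, ∫ θs : Fin k → Inter p, supNorm (θs j) ∂(Measure.pi fun _ => μ) =
          ∫ θ, supNorm θ ∂μ := by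
        intro j
        have h1 := measurePreserving_eval (fun _ : Fin k => μ) j
        rw [← h1.map_eq, integral_map h1.measurable.aemeasurable
          (by rw [h1.map_eq]; exact hμ.aestronglyMeasurable), h1.map_eq]
      simp [this]
  · have hms : ∀ n, Measurable fun q : Inter p × (Fin p → Fin (r + 1) → unitInterval) =>
        edgeTerm q.1 (fun ℓ => X n (q.2 ℓ)) := by
      intro n
      have := hX n
      exact continuous_edge.measurable.comp
        (f := fun q : Inter p × (Fin p → Fin (r + 1) → unitInterval) =>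
          (q.1, fun ℓ => X n (q.2 ℓ))) (by fun_prop)
    have hms1 : ∀ n (θ : Inter p), Measurable fun u' : Fin p → Fin (r + 1) → unitInterval =>
        edgeTerm θ (fun ℓ => X n (u' ℓ)) := fun n θ =>
      (hms n).comp (f := fun u' => (θ, u')) measurable_prodMk_left
    refine tendsto_integral_of_dominated_convergence _
      (fun n => (measurable_foldr m (W := fun (θ : Inter p)
        (u' : Fin p → Fin (r + 1) → unitInterval) => edgeTerm θ (fun ℓ => X n (u' ℓ))) (hms n)
        (List.finRange r)).log.stronglyMeasurable.integral_prod_right'.aestronglyMeasurable) hμ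
      (fun n => ae_of_all _ fun θ => norm_int_le hm (hms1 n θ) fun u => edge_bounds _ _)
      (ae_of_all _ fun θ => ?_)
    refine int_tendsto hm (fun n => hms1 n θ) (fun n u => edge_bounds _ _) ?_
    filter_upwards [ae_labels h] with u hu
    refine (continuous_edge.tendsto (θ, fun ℓ => Y (u ℓ))).comp
      (f := fun n => (θ, fun ℓ => X n (u ℓ))) ?_
    exact tendsto_const_nhds.prodMk_nhds (tendsto_pi_nhds.2 fun ℓ => hu _)

/-! ### grid approximation -/

theorem measurable_gridFun {ι : Type} [Fintype ι] (n : ℕ) [NeZero n] (g : (ι → Fin n) → ℝ) :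
    Measurable fun u : ι → unitInterval => g (fun j => grid n (u j)) := by
  have h1 : Measurable (grid n) := measurable_to_countable' (measurableSet_grid n)
  exact (Measurable.of_discrete (f := g)).comp (by fun_prop)

theorem exists_grid_close {ι : Type} [Fintype ι] (Y : (ι → unitInterval) → ℝ) (hY : Continuous Y)
    {ε : ℝ} (hε : 0 < ε) : ∃ (n : ℕ) (g : (ι → Fin (n + 1)) → ℝ),
      ∀ u, |g (fun j => grid (n + 1) (u j)) - Y u| ≤ ε := by
  obtain ⟨δ, hδ, h⟩ := Metric.uniformContinuous_iff.1
    (CompactSpace.uniformContinuous_of_continuous hY) ε hε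
  obtain ⟨n, hn⟩ := exists_nat_one_div_lt hδ
  have hn0 : (0 : ℝ) < n + 1 := by positivity
  let c : Fin (n + 1) → unitInterval := fun k => ⟨k / (n + 1), by positivity, by
    rw [div_le_one hn0]
    exact_mod_cast k.2.le⟩
  refine ⟨n, fun k => Y fun j => c (k j), fun u => (h ?_).le⟩
  rw [dist_pi_lt_iff hδ]
  intro j
  refine lt_of_le_of_lt ?_ hn
  obtain ⟨h1, h2⟩ := grid_spec (n + 1) (u j)
  push_cast at h1 h2
  change |((grid (n + 1) (u j) : ℕ) : ℝ) / (n + 1) - u j| ≤ _
  rw [abs_le]
  constructor
  · rw [le_sub_iff_add_le, le_div_iff₀ hn0, add_mul, neg_mul, div_mul_cancel₀ _ hn0.ne']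
    linarith
  · have : ((grid (n + 1) (u j) : ℕ) : ℝ) / (n + 1) ≤ u j := by
      rw [div_le_iff₀ hn0]; linarith
    have h3 : (0 : ℝ) ≤ 1 / (n + 1) := by positivity
    linarith

theorem exists_grid_seq {ι : Type} [Fintype ι] (X : (ι → unitInterval) → ℝ) (hX : Measurable X) :
    ∃ (n : ℕ → ℕ) (g : ∀ i, (ι → Fin (n i + 1)) → ℝ),
      ∀ᵐ u ∂(Measure.pi fun _ : ι => (volume : Measure unitInterval)),
        Tendsto (fun i => g i (fun j => grid (n i + 1) (u j))) atTop (𝓝 (X u)) := by
  set P := Measure.pi fun _ : ι => (volume : Measure unitInterval)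
  have hY : Measurable fun u => Real.arctan (X u) := Real.continuous_arctan.measurable.comp hX
  have hYi : Integrable (fun u => Real.arctan (X u)) P :=
    Integrable.of_bound hY.aestronglyMeasurable (Real.pi / 2) (ae_of_all _ fun u =>
      (abs_lt.2 ⟨Real.neg_pi_div_two_lt_arctan _, Real.arctan_lt_pi_div_two _⟩).le)
  have h1 : ∀ i : ℕ, ∃ (n : ℕ) (g : (ι → Fin (n + 1)) → ℝ),
      eLpNorm ((fun u => g (fun j => grid (n + 1) (u j))) - fun u => Real.arctan (X u)) 1 P ≤
        ENNReal.ofReal (2 * (1 / ((i : ℝ) + 1))) := by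
    intro i
    have hε : (0 : ℝ) < 1 / ((i : ℝ) + 1) := by positivity
    obtain ⟨Y, hY1, hY2⟩ := hYi.exists_boundedContinuous_integral_sub_le hε
    obtain ⟨n, g, hg⟩ := exists_grid_close Y Y.continuous hε
    refine ⟨n, g, ?_⟩
    have hi : Integrable (fun u => 1 / ((i : ℝ) + 1) + ‖Real.arctan (X u) - Y u‖) P :=
      (integrable_const _).add (hYi.sub hY2).norm
    rw [eLpNorm_one_eq_lintegral_enorm]
    calc _ ≤ ∫⁻ u, ENNReal.ofReal (1 / ((i : ℝ) + 1) + ‖Real.arctan (X u) - Y u‖) ∂P := by
          refine lintegral_mono fun u => ?_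
          rw [← ofReal_norm]
          refine ENNReal.ofReal_le_ofReal ?_
          have h2 := hg u
          have h3 := abs_sub_le (g (fun j => grid (n + 1) (u j))) (Y u) (Real.arctan (X u))
          rw [abs_sub_comm (Y u)] at h3
          simp only [Pi.sub_apply, Real.norm_eq_abs]
          linarith
      _ = ENNReal.ofReal (∫ u, (1 / ((i : ℝ) + 1) + ‖Real.arctan (X u) - Y u‖) ∂P) :=
          (ofReal_integral_eq_lintegral_ofReal hi (ae_of_all _ fun u => by positivity)).symm
      _ ≤ _ := by
          refine ENNReal.ofReal_le_ofReal ?_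
          have hi2 : Integrable (fun u => ‖Real.arctan (X u) - Y u‖) P := (hYi.sub hY2).norm
          rw [integral_add (integrable_const _) hi2]
          simp only [integral_const, probReal_univ, smul_eq_mul, one_mul]
          linarith
  choose n g hg using h1
  have h2 : TendstoInMeasure P (fun i u => g i (fun j => grid (n i + 1) (u j))) atTop
      fun u => Real.arctan (X u) := by
    refine tendstoInMeasure_of_tendsto_eLpNorm (p := 1) one_ne_zero
      (fun i => (measurable_gridFun _ _).aestronglyMeasurable) hY.aestronglyMeasurable ?_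
    refine tendsto_of_tendsto_of_tendsto_of_le_of_le tendsto_const_nhds ?_ (fun _ => zero_le) hg
    have := ENNReal.tendsto_ofReal
      ((tendsto_one_div_add_atTop_nhds_zero_nat (𝕜 := ℝ)).const_mul 2)
    simpa using this
  obtain ⟨ns, -, h3⟩ := h2.exists_seq_tendsto_ae
  refine ⟨fun i => n (ns i), fun i k => Real.tan (g (ns i) k), ?_⟩
  filter_upwards [h3] with u hu
  have h4 := (Real.continuousAt_tan.2 (Real.cos_arctan_pos (X u)).ne').tendsto.comp hu
  rwa [Real.tan_arctan] at h4

end Approx

theorem trial_approx (p : ℕ) (hp : 1 ≤ p) (α : ℝ) (hα : 0 ≤ α) (μ : Measure (Inter p)) [IsProbabilityMeasure μ]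
    (ν : Measure ℝ) [IsProbabilityMeasure ν] (hμ : Integrable (fun θ => supNorm θ) μ)
    (hν : Integrable (fun x : ℝ => x) ν) (r : ℕ) (m : Fin r → ℝ) (hm : AdmissibleExponents m)
    (X : (Fin (r + 1) → unitInterval) → ℝ) (hX : Measurable X) (ε : ℝ) (hε : 0 < ε) :
    ∃ (n : ℕ) (_ : NeZero n) (g : (Fin (r + 1) → Fin n) → ℝ),
      |trialFunctional p α μ ν r m (fun u => g (fun j => grid n (u j))) - trialFunctional p α μ ν r m X| ≤ ε := by
  obtain ⟨n, g, h⟩ := Approx.exists_grid_seq X hX
  have h1 := Approx.trial_tendsto p α hα μ ν hμ hν m (fun d => (hm.2 d).1)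
    (X := fun i u => g i (fun j => grid (n i + 1) (u j)))
    (fun i => Approx.measurable_gridFun _ _) h
  obtain ⟨i, hi⟩ := (Metric.tendsto_atTop.1 h1 ε hε)
  exact ⟨n i + 1, inferInstance, g i, (hi i le_rfl).le⟩

end Crest.Agent.R141
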