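import Crest.Agent.R141.TreeDefs

/-! The perturbed free energies `Psi` and their elementary properties. -/

set_option autoImplicit false
open Finset Function MeasureTheory Crest.ProbabilityR.Diluted

namespace Crest.Agent.R141
namespace Cav
open Sys

section Avg
variable {J J' : Type} [Fintype J] [Fintype J']

/-- uniform average -/
noncomputable def avg (f : J → ℝ) : ℝ := (Fintype.card J : ℝ)⁻¹ * ∑ j, f j

theorem avg_mono {f g : J → ℝ} (h : ∀ j, f j ≤ g j) : avg f ≤ avg g :=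
  mul_le_mul_of_nonneg_left (sum_le_sum fun j _ => h j) (by positivity)

theorem avg_add (f g : J → ℝ) : avg (fun j => f j + g j) = avg f + avg g := by
  simp only [avg, sum_add_distrib, mul_add]

theorem avg_sub (f g : J → ℝ) : avg (fun j => f j - g j) = avg f - avg g := by
  simp only [avg, sum_sub_distrib, mul_sub]

theorem avg_const_mul (c : ℝ) (f : J → ℝ) : avg (fun j => c * f j) = c * avg f := by
  simp only [avg, ← mul_sum]; ring

theorem avg_const [Nonempty J] (c : ℝ) : avg (fun _ : J => c) = c := by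
  have : (Fintype.card J : ℝ) ≠ 0 := by exact_mod_cast Fintype.card_ne_zero
  simp only [avg, sum_const, card_univ, nsmul_eq_mul]; field_simp

theorem avg_sum {ι : Type} (s : Finset ι) (f : ι → J → ℝ) :
    avg (fun j => ∑ i ∈ s, f i j) = ∑ i ∈ s, avg (f i) := by
  simp only [avg, mul_sum]; exact sum_comm

theorem avg_comm (f : J → J' → ℝ) :
    avg (fun j => avg (f j)) = avg (fun j' => avg fun j => f j j') := by
  simp only [avg, mul_sum]
  rw [sum_comm]
  exact sum_congr rfl fun _ _ => sum_congr rfl fun _ _ => by ring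

theorem abs_avg_le (f : J → ℝ) : |avg f| ≤ avg fun j => |f j| := by
  unfold avg
  rw [abs_mul, abs_of_nonneg (by positivity)]
  exact mul_le_mul_of_nonneg_left (abs_sum_le_sum_abs _ _) (by positivity)

theorem avg_le {f : J → ℝ} {c : ℝ} (hc : 0 ≤ c) (h : ∀ j, f j ≤ c) : avg f ≤ c := by
  rcases isEmpty_or_nonempty J with hJ | hJ
  · simpa [avg] using hc
  · exact (avg_mono h).trans (avg_const c).le

theorem abs_avg_le_of_le {f : J → ℝ} {c : ℝ} (hc : 0 ≤ c) (h : ∀ j, |f j| ≤ c) : |avg f| ≤ c :=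
  (abs_avg_le f).trans (avg_le hc h)

theorem abs_avg_sub_le {f g : J → ℝ} {c : ℝ} (hc : 0 ≤ c) (h : ∀ j, |f j - g j| ≤ c) :
    |avg f - avg g| ≤ c := by
  rw [← avg_sub]; exact abs_avg_le_of_le hc h

theorem avg_equiv (e : J ≃ J') (f : J' → ℝ) : avg (fun j => f (e j)) = avg f := by
  simp only [avg, Fintype.card_congr e, Equiv.sum_comp e f]

theorem avg_prod (f : J × J' → ℝ) : avg f = avg fun j => avg fun j' => f (j, j') := by
  simp only [avg, Fintype.card_prod, Fintype.sum_prod_type, ← mul_sum]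
  push_cast
  rw [mul_inv]; ring

theorem avg_pi_eval {K : Type} [Fintype K] [DecidableEq K] [Nonempty J] (k : K) (f : J → ℝ) :
    avg (fun x : K → J => f (x k)) = avg f := by
  rw [← avg_equiv (Equiv.funSplitAt k J).symm, avg_prod]
  simp only [Equiv.funSplitAt_symm_apply, dif_pos]
  congr 1; funext j; exact avg_const _

/-- averages over a large subset -/
theorem abs_avg_sub_avg_le [Nonempty J] (e : J ↪ J') {g : J' → ℝ} {A : ℝ} (h : ∀ y, |g y| ≤ A) :
    |avg g - avg fun x => g (e x)| ≤ 2 * A * (1 - Fintype.card J / Fintype.card J') := by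
  classical
  have hJ : (0 : ℝ) < Fintype.card J := by exact_mod_cast Fintype.card_pos
  have hle : (Fintype.card J : ℝ) ≤ Fintype.card J' := by
    exact_mod_cast Fintype.card_le_of_embedding e
  have hJ' : (0 : ℝ) < Fintype.card J' := hJ.trans_le hle
  have h1 : ∑ y, g y = ∑ x, g (e x) + ∑ y ∈ (univ.map e)ᶜ, g y := by
    rw [← sum_map univ e g, sum_add_sum_compl]
  have h2 : |∑ y ∈ (univ.map e)ᶜ, g y| ≤ (Fintype.card J' - Fintype.card J) * A := by
    refine (abs_sum_le_sum_abs _ _).trans ((sum_le_sum fun y _ => h y).trans (le_of_eq ?_))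
    rw [sum_const, card_compl, card_map, card_univ, nsmul_eq_mul,
      Nat.cast_sub (by exact_mod_cast hle)]
  have h3 : |∑ x, g (e x)| ≤ Fintype.card J * A := by
    refine (abs_sum_le_sum_abs _ _).trans ((sum_le_sum fun y _ => h _).trans (le_of_eq ?_))
    rw [sum_const, card_univ, nsmul_eq_mul]
  unfold avg
  rw [h1]
  generalize (Fintype.card J : ℝ) = a at *
  generalize (Fintype.card J' : ℝ) = b at *
  generalize ∑ x, g (e x) = u at *
  generalize ∑ y ∈ (univ.map e)ᶜ, g y = v at *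
  have h4 : b⁻¹ * (u + v) - a⁻¹ * u = b⁻¹ * v - (a⁻¹ - b⁻¹) * u := by ring
  have h5 : 0 ≤ a⁻¹ - b⁻¹ := sub_nonneg.2 (inv_anti₀ hJ hle)
  rw [h4]
  refine (abs_sub _ _).trans ?_
  rw [abs_mul, abs_mul, abs_of_nonneg h5, abs_of_pos (inv_pos.2 hJ')]
  refine (add_le_add (mul_le_mul_of_nonneg_left h2 (inv_pos.2 hJ').le)
    (mul_le_mul_of_nonneg_left h3 h5)).trans (le_of_eq ?_)
  field_simp
  ring
end Avg

variable (L : Lev) {𝒦 B : Type} [Fintype 𝒦] [DecidableEq 𝒦] [Fintype B] [Nonempty B]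
  (pt : 𝒦 → Bool → (ℕ → B) → ℝ)

/-- base path -/
noncomputable def w0 (B : Type) [Nonempty B] (N : ℕ) : ℕ → (Fin N → Bool) × B :=
  fun _ => (fun _ => true, Classical.arbitrary B)

/-- the spins of the active sites -/
def spinN {N n : ℕ} (h : n ≤ N) (i : Fin n) (σ : Fin N → Bool) : Bool := σ (Fin.castLE h i)

/-- the free energy for one placement of the perturbation -/
noncomputable def Fst {N : ℕ} (st : 𝒦 → Fin N) (H : (Fin N → Bool) → ℝ) : ℝ :=
  (unif L ((Fin N → Bool) × B)).X 0 (pertH L pt (fun i σ => σ i) H st) (w0 B N)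

/-- the perturbed free energy -/
noncomputable def Psi (N n : ℕ) (H : (Fin N → Bool) → ℝ) : ℝ :=
  if h : 1 ≤ n ∧ n ≤ N then avg fun st : 𝒦 → Fin n => Fst L pt (fun k => Fin.castLE h.2 (st k)) H
  else H (fun _ => true)

omit [DecidableEq 𝒦] in
theorem Fst_lip {N : ℕ} (st : 𝒦 → Fin N) (H H' : (Fin N → Bool) → ℝ) :
    |Fst L pt st H - Fst L pt st H'| ≤ ‖H - H'‖ := by
  refine abs_X_sub_le _ 0 (fun ω => ?_) _
  simp only [pertH, add_sub_add_right_eq_sub]
  exact norm_le_pi_norm (H - H') _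

omit [DecidableEq 𝒦] in
theorem Fst_equi {N : ℕ} (st : 𝒦 → Fin N) (H : (Fin N → Bool) → ℝ) (c : ℝ) :
    Fst L pt st (fun y => H y + c) = Fst L pt st H + c := by
  unfold Fst
  have : pertH L pt (fun i (σ : Fin N → Bool) => σ i) (fun y => H y + c) st =
      fun ω => pertH L pt (fun i (σ : Fin N → Bool) => σ i) H st ω + c := by
    ext ω; simp only [pertH]; ring
  rw [this, X_add_const]

theorem Psi_lip (N n : ℕ) : LipschitzWith 1 (Psi L pt N n) := by
  rw [← lip_one_iff]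
  refine ⟨zero_le_one, fun H H' => ?_⟩
  rw [one_mul]
  unfold Psi
  split_ifs with h
  · exact abs_avg_sub_le (norm_nonneg _) fun st => Fst_lip L pt _ H H'
  · exact norm_le_pi_norm (H - H') _

theorem Psi_equi (N n : ℕ) : Equi (Psi L pt N n) := by
  intro H c
  unfold Psi
  split_ifs with h
  · have : Nonempty (Fin n) := ⟨⟨0, h.1⟩⟩
    simp only [Fst_equi, avg_add, avg_const]
  · rfl

theorem E_last {Ω : Type} [Fintype Ω] (S : Sys L Ω) (f : Fn Ω) :
    S.E (L.T - 1) f = S.P (L.T - 1) f := by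
  have h := L.T_pos
  rw [S.E_of_lt (by omega), S.E_of_le (by omega)]

theorem X_eq_Xk {Ω : Type} [Fintype Ω] (S : Sys L Ω) {a : ℕ} (ha : a < L.T) (V : Fn Ω) :
    S.X a V = S.Xk (L.T - 1 - a) a (S.X (L.T - 1) V) := by
  have := S.Xk_X (L.T - 1 - a) a (by omega) V
  rw [show a + (L.T - 1 - a) = L.T - 1 by omega] at this
  exact this.symm

theorem X_unif_last {N : ℕ} (H : (Fin N → Bool) → ℝ) (ω : ℕ → (Fin N → Bool) × B) :
    (unif L ((Fin N → Bool) × B)).X 0 (fun ω => H (ω (L.T - 1)).1) ω =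
      Real.log (((2 : ℝ) ^ N)⁻¹ * ∑ σ, Real.exp (H σ)) := by
  have h1 : (unif L ((Fin N → Bool) × B)).X (L.T - 1) (fun ω => H (ω (L.T - 1)).1) =
      fun _ => Real.log (((2 : ℝ) ^ N)⁻¹ * ∑ σ, Real.exp (H σ)) := by
    ext ω
    rw [X_last, E_last, P_apply]
    congr 1
    have hB : (Fintype.card B : ℝ) ≠ 0 := by exact_mod_cast Fintype.card_ne_zero
    simp only [unif, update_self, Fintype.sum_prod_type, sum_const, card_univ, nsmul_eq_mul,
      Fintype.card_prod, Fintype.card_fun, Fintype.card_bool, Fintype.card_fin, mul_sum]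
    refine sum_congr rfl fun σ _ => ?_
    push_cast
    field_simp
  rw [X_eq_Xk L _ L.T_pos, h1, Xk_const]

omit [DecidableEq 𝒦] in
theorem Fst_close {A : ℝ} (hA : ∀ k b y, |pt k b y| ≤ A) {N : ℕ} (st : 𝒦 → Fin N)
    (H : (Fin N → Bool) → ℝ) :
    |Fst L pt st H - Real.log (((2 : ℝ) ^ N)⁻¹ * ∑ σ, Real.exp (H σ))| ≤ Fintype.card 𝒦 * A := by
  rw [← X_unif_last L H (w0 B N)]
  refine abs_X_sub_le _ 0 (fun ω => ?_) _
  simp only [pertH, add_sub_cancel_left]
  refine (abs_sum_le_sum_abs _ _).trans ((sum_le_sum fun k _ => hA k _ _).trans (le_of_eq ?_))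
  rw [sum_const, card_univ, nsmul_eq_mul]

theorem Psi_close {A : ℝ} (hA0 : 0 ≤ A) (hA : ∀ k b y, |pt k b y| ≤ A) (N n : ℕ)
    (H : (Fin N → Bool) → ℝ) (h1 : 1 ≤ n) (h2 : n ≤ N) :
    |Psi L pt N n H - Real.log (((2 : ℝ) ^ N)⁻¹ * ∑ σ, Real.exp (H σ))| ≤ Fintype.card 𝒦 * A := by
  have : Nonempty (Fin n) := ⟨⟨0, h1⟩⟩
  unfold Psi
  rw [dif_pos ⟨h1, h2⟩, ← avg_const (J := 𝒦 → Fin n) (Real.log _)]
  exact abs_avg_sub_le (by positivity) fun st => Fst_close L pt hA _ H

theorem Psi_step {A : ℝ} (hA0 : 0 ≤ A) (hA : ∀ k b y, |pt k b y| ≤ A) (N n : ℕ)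
    (H : (Fin N → Bool) → ℝ) (h1 : 1 ≤ n) (h2 : n + 1 ≤ N) :
    |Psi L pt N (n + 1) H - Psi L pt N n H| ≤
      2 * (Fintype.card 𝒦 * A) * Fintype.card 𝒦 / n := by
  have : Nonempty (Fin n) := ⟨⟨0, h1⟩⟩
  unfold Psi
  rw [dif_pos ⟨by omega, h2⟩, dif_pos ⟨h1, by omega⟩]
  set F := Real.log (((2 : ℝ) ^ N)⁻¹ * ∑ σ, Real.exp (H σ))
  let e : (𝒦 → Fin n) ↪ (𝒦 → Fin (n + 1)) := ⟨fun st k => (st k).castSucc, fun st st' h =>
    funext fun k => Fin.castSucc_injective _ (congrFun h k)⟩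
  have h := abs_avg_sub_avg_le e (g := fun st => Fst L pt (fun k => Fin.castLE h2 (st k)) H - F)
    (fun st => Fst_close L pt hA _ H)
  simp only [avg_sub, avg_const, sub_sub_sub_cancel_right] at h
  refine le_trans (le_of_eq rfl) (h.trans ?_)
  rw [mul_div_assoc]
  refine mul_le_mul_of_nonneg_left ?_ (by positivity)
  simp only [Fintype.card_fun, Fintype.card_fin]
  push_cast
  have hn : (0 : ℝ) < n := by exact_mod_cast h1
  have hb := one_add_mul_le_pow (a := -(1 / ((n : ℝ) + 1))) (by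
    have : 1 / ((n : ℝ) + 1) ≤ 1 := by rw [div_le_one (by positivity)]; linarith
    linarith) (Fintype.card 𝒦)
  have h3 : (1 + -(1 / ((n : ℝ) + 1))) = n / (n + 1) := by field_simp; ring
  rw [h3, div_pow] at hb
  have h4 : (Fintype.card 𝒦 : ℝ) * (1 / ((n : ℝ) + 1)) ≤ Fintype.card 𝒦 / n := by
    rw [mul_one_div]
    exact div_le_div_of_nonneg_left (by positivity) hn (by linarith)
  linarith

end Cav
end Crest.Agent.R141
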