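import Crest.Agent.R141.TreeDefs

/-! Poisson mixtures of integrals over interactions and a field. -/

set_option autoImplicit false
open Finset Function MeasureTheory Crest.ProbabilityR.Diluted

namespace Crest.Agent.R141
namespace Cav

theorem hasSum_pw (l : ℝ) : HasSum (fun k : ℕ => poissonWeight l k) 1 := by
  convert hasSum_poi l using 1
  funext k; unfold poissonWeight; ring

theorem hasSum_pw' (l : ℝ) : HasSum (fun k : ℕ => poissonWeight l k * k) l := by
  convert hasSum_poi' l using 1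
  funext k; unfold poissonWeight; ring

theorem pw_nonneg {l : ℝ} (hl : 0 ≤ l) (k : ℕ) : 0 ≤ poissonWeight l k := by
  unfold poissonWeight; positivity

theorem hasSum_pw_affine (l a b : ℝ) :
    HasSum (fun k : ℕ => poissonWeight l k * (a + k * b)) (a + l * b) := by
  have := ((hasSum_pw l).mul_right a).add ((hasSum_pw' l).mul_right b)
  rw [one_mul] at this
  convert! this using 1
  funext k; ring

variable {p : ℕ}

/-- size of the data -/
noncomputable def nrm {k : ℕ} (θs : Fin k → Inter p) (h : ℝ) : ℝ := |h| + ∑ j, ‖θs j‖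

/-- truncated size of the data -/
noncomputable def nrmb (b : ℝ) {k : ℕ} (θs : Fin k → Inter p) (h : ℝ) : ℝ :=
  max (|h| - b) 0 + ∑ j, max (‖θs j‖ - b) 0

theorem nrm_le (b : ℝ) {k : ℕ} (θs : Fin k → Inter p) (h : ℝ) :
    nrm θs h ≤ nrmb b θs h + (k + 1) * b := by
  unfold nrm nrmb
  have h1 : ∑ j, ‖θs j‖ ≤ ∑ j, (max (‖θs j‖ - b) 0 + b) :=
    sum_le_sum fun j _ => by linarith [le_max_left (‖θs j‖ - b) 0]
  rw [sum_add_distrib] at h1
  simp only [sum_const, card_univ, Fintype.card_fin, nsmul_eq_mul] at h1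
  linarith [le_max_left (|h| - b) 0]

theorem nrmb_nonneg (b : ℝ) {k : ℕ} (θs : Fin k → Inter p) (h : ℝ) : 0 ≤ nrmb b θs h :=
  add_nonneg (le_max_right _ _) (sum_nonneg fun _ _ => le_max_right _ _)

/-- families of functions of the data -/
structure Nice (f : ∀ k : ℕ, (Fin k → Inter p) → ℝ → ℝ) : Prop where
  cont : ∀ k, Continuous (fun z : (Fin k → Inter p) × ℝ => f k z.1 z.2)
  le : ∀ k θs h, |f k θs h| ≤ nrm θs h

variable (μ : Measure (Inter p)) (ν : Measure ℝ)

noncomputable def II (f : ∀ k : ℕ, (Fin k → Inter p) → ℝ → ℝ) (k : ℕ) : ℝ :=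
  ∫ θs, ∫ h, f k θs h ∂ν ∂(Measure.pi fun _ : Fin k => μ)

noncomputable def EE (l : ℝ) (f : ∀ k : ℕ, (Fin k → Inter p) → ℝ → ℝ) : ℝ :=
  ∑' k : ℕ, poissonWeight l k * II μ ν f k

variable {μ ν} [IsProbabilityMeasure μ] [IsProbabilityMeasure ν]

theorem integrable_sep (k : ℕ) {a : ℝ → ℝ} {c : Inter p → ℝ} (ha : Integrable a ν)
    (hc : Integrable c μ) :
    Integrable (fun z : (Fin k → Inter p) × ℝ => a z.2 + ∑ j, c (z.1 j))
      ((Measure.pi fun _ : Fin k => μ).prod ν) :=
  (ha.comp_snd _).add ((integrable_finsetSum univ fun j _ =>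
    integrable_comp_eval (μ := fun _ : Fin k => μ) (i := j) hc).comp_fst ν)

theorem integral_pi_sum (k : ℕ) {c : Inter p → ℝ} (hc : Integrable c μ) :
    ∫ θs : Fin k → Inter p, ∑ j, c (θs j) ∂(Measure.pi fun _ : Fin k => μ) = k * ∫ θ, c θ ∂μ := by
  rw [integral_finsetSum _ fun j _ => integrable_comp_eval (μ := fun _ : Fin k => μ) (i := j) hc]
  have : ∀ j : Fin k, ∫ θs : Fin k → Inter p, c (θs j) ∂(Measure.pi fun _ : Fin k => μ) =
      ∫ θ, c θ ∂μ := fun j => integral_comp_eval (μ := fun _ : Fin k => μ) hc.aestronglyMeasurable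
  simp [this]

theorem integral_sep (k : ℕ) {a : ℝ → ℝ} {c : Inter p → ℝ} (ha : Integrable a ν)
    (hc : Integrable c μ) :
    ∫ z : (Fin k → Inter p) × ℝ, (a z.2 + ∑ j, c (z.1 j)) ∂((Measure.pi fun _ : Fin k => μ).prod ν)
      = ∫ h, a h ∂ν + k * ∫ θ, c θ ∂μ := by
  have h2 : Integrable (fun θs : Fin k → Inter p => ∑ j, c (θs j)) (Measure.pi fun _ => μ) :=
    integrable_finsetSum univ fun j _ => integrable_comp_eval (μ := fun _ : Fin k => μ) (i := j) hc
  rw [integral_add (ha.comp_snd _) (h2.comp_fst ν), integral_fun_snd,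
    integral_fun_fst (fun θs : Fin k → Inter p => ∑ j, c (θs j)), integral_pi_sum k hc]
  simp

variable (hμ : Integrable (fun θ : Inter p => ‖θ‖) μ) (hν : Integrable (fun x : ℝ => |x|) ν)
include hμ hν

theorem Nice.integrable {f : ∀ k : ℕ, (Fin k → Inter p) → ℝ → ℝ} (hf : Nice f) (k : ℕ) :
    Integrable (fun z : (Fin k → Inter p) × ℝ => f k z.1 z.2)
      ((Measure.pi fun _ : Fin k => μ).prod ν) :=
  (integrable_sep k hν hμ).mono' (hf.cont k).measurable.aestronglyMeasurable
    (Filter.Eventually.of_forall fun z => hf.le k z.1 z.2)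

theorem Nice.II_eq {f : ∀ k : ℕ, (Fin k → Inter p) → ℝ → ℝ} (hf : Nice f) (k : ℕ) :
    II μ ν f k = ∫ z : (Fin k → Inter p) × ℝ, f k z.1 z.2
      ∂((Measure.pi fun _ : Fin k => μ).prod ν) :=
  (integral_prod _ (hf.integrable hμ hν k)).symm

theorem Nice.abs_II_le {f : ∀ k : ℕ, (Fin k → Inter p) → ℝ → ℝ} (hf : Nice f) (k : ℕ) :
    |II μ ν f k| ≤ ∫ h, |h| ∂ν + k * ∫ θ, ‖θ‖ ∂μ := by
  rw [hf.II_eq hμ hν, ← integral_sep k hν hμ, ← Real.norm_eq_abs]
  exact norm_integral_le_of_norm_le (integrable_sep k hν hμ)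
    (Filter.Eventually.of_forall fun z => hf.le k z.1 z.2)

theorem Nice.summable {f : ∀ k : ℕ, (Fin k → Inter p) → ℝ → ℝ} (hf : Nice f) {l : ℝ}
    (hl : 0 ≤ l) : Summable fun k => poissonWeight l k * II μ ν f k := by
  refine Summable.of_norm_bounded (hasSum_pw_affine l (∫ h, |h| ∂ν) (∫ θ, ‖θ‖ ∂μ)).summable
    fun k => ?_
  rw [Real.norm_eq_abs, abs_mul, abs_of_nonneg (pw_nonneg hl k)]
  exact mul_le_mul_of_nonneg_left (hf.abs_II_le hμ hν k) (pw_nonneg hl k)

/-- finite linear combinations -/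
theorem EE_sum {J : Type} [Fintype J] (w : J → ℝ) {f : J → ∀ k : ℕ, (Fin k → Inter p) → ℝ → ℝ}
    (hf : ∀ j, Nice (f j)) {g : ∀ k : ℕ, (Fin k → Inter p) → ℝ → ℝ} (hg : Nice g)
    (h : ∀ k θs x, g k θs x = ∑ j, w j * f j k θs x) {l : ℝ} (hl : 0 ≤ l) :
    EE μ ν l g = ∑ j, w j * EE μ ν l (f j) := by
  have h1 : ∀ k, II μ ν g k = ∑ j, w j * II μ ν (f j) k := by
    intro k
    rw [hg.II_eq hμ hν]
    simp only [h, fun j => (hf j).II_eq hμ hν]
    rw [integral_finsetSum _ fun j _ => ((hf j).integrable hμ hν k).const_mul _]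
    simp only [integral_const_mul]
  unfold EE
  simp only [h1]
  have h2 := hasSum_sum (s := univ) fun j _ =>
    (((hf j).summable hμ hν hl).hasSum.mul_left (w j))
  rw [← h2.tsum_eq]
  refine tsum_congr fun k => ?_
  rw [mul_sum]
  exact sum_congr rfl fun j _ => by ring

/-- exchange of the field integral with the Poisson sum -/
theorem EE_swap {f : ∀ k : ℕ, (Fin k → Inter p) → ℝ → ℝ} (hf : Nice f) {l : ℝ} (hl : 0 ≤ l) :
    Integrable (fun h => ∑' k : ℕ, poissonWeight l k *
      ∫ θs, f k θs h ∂(Measure.pi fun _ : Fin k => μ)) ν ∧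
    ∫ h, ∑' k : ℕ, poissonWeight l k * ∫ θs, f k θs h ∂(Measure.pi fun _ : Fin k => μ) ∂ν =
      EE μ ν l f := by
  have hi : ∀ k, Integrable (fun h => poissonWeight l k *
      ∫ θs, f k θs h ∂(Measure.pi fun _ : Fin k => μ)) ν := fun k =>
    (hf.integrable hμ hν k).integral_prod_right.const_mul _
  have hb : ∀ k h, ‖poissonWeight l k * ∫ θs, f k θs h ∂(Measure.pi fun _ : Fin k => μ)‖ ≤
      poissonWeight l k * (|h| + k * ∫ θ, ‖θ‖ ∂μ) := by
    intro k h
    rw [norm_mul, Real.norm_eq_abs, abs_of_nonneg (pw_nonneg hl k)]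
    refine mul_le_mul_of_nonneg_left ?_ (pw_nonneg hl k)
    have h2 : Integrable (fun θs : Fin k → Inter p => ∑ j, ‖θs j‖) (Measure.pi fun _ => μ) :=
      integrable_finsetSum univ fun j _ =>
        integrable_comp_eval (μ := fun _ : Fin k => μ) (i := j) hμ
    refine (norm_integral_le_of_norm_le ((integrable_const |h|).add h2)
      (Filter.Eventually.of_forall fun θs => hf.le k θs h)).trans (le_of_eq ?_)
    simp only [Pi.add_apply]
    rw [integral_add (integrable_const _) h2, integral_pi_sum k hμ]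
    simp
  have hs : Summable fun k => ∫ h, ‖poissonWeight l k *
      ∫ θs, f k θs h ∂(Measure.pi fun _ : Fin k => μ)‖ ∂ν := by
    refine Summable.of_nonneg_of_le (fun k => integral_nonneg fun _ => norm_nonneg _) (fun k => ?_)
      (hasSum_pw_affine l (∫ h, |h| ∂ν) (∫ θ, ‖θ‖ ∂μ)).summable
    refine (integral_mono (hi k).norm ((hν.add (integrable_const _)).const_mul _) (hb k)).trans
      (le_of_eq ?_)
    simp only [Pi.add_apply]
    rw [integral_const_mul, integral_add hν (integrable_const _)]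
    simp
  have := hasSum_integral_of_summable_integral_norm hi hs
  refine ⟨?_, ?_⟩
  · refine (hν.add (integrable_const (l * ∫ θ, ‖θ‖ ∂μ))).mono'
      (AEStronglyMeasurable.tsum fun k => (hi k).aestronglyMeasurable)
      (Filter.Eventually.of_forall fun h => ?_)
    exact tsum_of_norm_bounded (hasSum_pw_affine l _ _) fun k => hb k h
  · rw [← this.tsum_eq]
    refine tsum_congr fun k => ?_
    rw [integral_const_mul, hf.II_eq hμ hν, integral_prod_symm _ (hf.integrable hμ hν k)]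

/-- comparison -/
theorem EE_close {f g : ∀ k : ℕ, (Fin k → Inter p) → ℝ → ℝ} (hf : Nice f) (hg : Nice g)
    {l : ℝ} (hl : 0 ≤ l) (δ b : ℝ) (t : ℕ → ℝ) (ht : Summable fun k => poissonWeight l k * t k)
    (h : ∀ k θs x, |f k θs x - g k θs x| ≤ δ + 2 * nrmb b θs x + t k) :
    |EE μ ν l f - EE μ ν l g| ≤ δ + 2 * ∫ x, max (|x| - b) 0 ∂ν +
      l * (2 * ∫ θ, max (‖θ‖ - b) 0 ∂μ) + ∑' k, poissonWeight l k * t k := by
  have ha : Integrable (fun x : ℝ => max (|x| - b) 0) ν := (hν.sub (integrable_const b)).sup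
    (integrable_const 0)
  have hc : Integrable (fun θ : Inter p => max (‖θ‖ - b) 0) μ := (hμ.sub (integrable_const b)).sup
    (integrable_const 0)
  have h1 : ∀ k, |II μ ν f k - II μ ν g k| ≤ (δ + 2 * ∫ x, max (|x| - b) 0 ∂ν +
      k * (2 * ∫ θ, max (‖θ‖ - b) 0 ∂μ)) + t k := by
    intro k
    rw [hf.II_eq hμ hν, hg.II_eq hμ hν,
      ← integral_sub (hf.integrable hμ hν k) (hg.integrable hμ hν k), ← Real.norm_eq_abs]
    have hi : Integrable (fun z : (Fin k → Inter p) × ℝ => (δ + t k) + 2 * nrmb b z.1 z.2)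
        ((Measure.pi fun _ : Fin k => μ).prod ν) :=
      (integrable_const _).add ((integrable_sep k ha hc).const_mul 2)
    refine (norm_integral_le_of_norm_le hi (Filter.Eventually.of_forall fun z => ?_)).trans
      (le_of_eq ?_)
    · have := h k z.1 z.2
      rw [Real.norm_eq_abs]; linarith
    · unfold nrmb
      rw [integral_add (integrable_const _) ((integrable_sep k ha hc).const_mul 2),
        integral_const_mul, integral_sep k ha hc]
      simp; ring
  unfold EE
  rw [← (hf.summable hμ hν hl).tsum_sub (hg.summable hμ hν hl), ← Real.norm_eq_abs]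
  refine tsum_of_norm_bounded ((hasSum_pw_affine l _ _).add ht.hasSum) fun k => ?_
  rw [← mul_sub, ← mul_add, norm_mul, Real.norm_eq_abs, Real.norm_eq_abs,
    abs_of_nonneg (pw_nonneg hl k)]
  exact mul_le_mul_of_nonneg_left (h1 k) (pw_nonneg hl k)

omit hμ hν in
theorem exists_trunc {D : Type} [MeasurableSpace D] {ρ : Measure D} {a : D → ℝ}
    (ha : Integrable a ρ) (h0 : ∀ x, 0 ≤ a x) {ε : ℝ} (hε : 0 < ε) :
    ∀ᶠ b : ℕ in Filter.atTop, ∫ x, max (a x - b) 0 ∂ρ ≤ ε := by
  have h : Filter.Tendsto (fun b : ℕ => ∫ x, max (a x - b) 0 ∂ρ) Filter.atTop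
      (nhds (∫ _x, (0 : ℝ) ∂ρ)) := by
    refine tendsto_integral_of_dominated_convergence a (fun b => ?_) ha (fun b => ?_) ?_
    · exact (ha.aestronglyMeasurable.sub aestronglyMeasurable_const).sup aestronglyMeasurable_const
    · refine Filter.Eventually.of_forall fun x => ?_
      rw [Real.norm_eq_abs, abs_of_nonneg (le_max_right _ _)]
      exact max_le (by linarith [(Nat.cast_nonneg b : (0 : ℝ) ≤ b)]) (h0 x)
    · refine Filter.Eventually.of_forall fun x => ?_
      refine tendsto_const_nhds.congr' ?_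
      filter_upwards [Filter.eventually_ge_atTop ⌈a x⌉₊] with b hb
      have : a x ≤ b := (Nat.le_ceil _).trans (by exact_mod_cast hb)
      rw [max_eq_right (by linarith)]
  rw [integral_zero] at h
  exact h.eventually (eventually_le_nhds hε)

omit hμ hν in
theorem exists_tail {l : ℝ} (hl : 0 ≤ l) {b : ℝ} (hb : 0 ≤ b) {ε : ℝ} (hε : 0 < ε) :
    ∀ᶠ k₀ : ℕ in Filter.atTop,
      Summable (fun k : ℕ => poissonWeight l k * if k ≤ k₀ then 0 else 2 * ((k + 1) * b)) ∧
      ∑' k : ℕ, poissonWeight l k * (if k ≤ k₀ then 0 else 2 * ((k + 1) * b)) ≤ ε := by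
  have hs : Summable fun k : ℕ => poissonWeight l k * (2 * ((k + 1) * b)) := by
    convert (hasSum_pw_affine l (2 * b) (2 * b)).summable using 3
    ring
  have hle : ∀ k₀ k : ℕ, ‖poissonWeight l k * (if k ≤ k₀ then 0 else 2 * ((k + 1) * b))‖ ≤
      poissonWeight l k * (2 * ((k + 1) * b)) := by
    intro k₀ k
    have := pw_nonneg hl k
    split_ifs
    · simp only [mul_zero, norm_zero]; positivity
    · rw [Real.norm_eq_abs, abs_of_nonneg (by positivity)]
  have h : Filter.Tendsto (fun k₀ : ℕ => ∑' k : ℕ, poissonWeight l k *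
      (if k ≤ k₀ then 0 else 2 * ((k + 1) * b))) Filter.atTop (nhds (∑' _k : ℕ, (0 : ℝ))) := by
    refine tendsto_tsum_of_dominated_convergence hs (fun k => ?_)
      (Filter.Eventually.of_forall fun k₀ k => hle k₀ k)
    refine tendsto_const_nhds.congr' ?_
    filter_upwards [Filter.eventually_ge_atTop k] with k₀ hk
    rw [if_pos hk, mul_zero]
  rw [tsum_zero] at h
  filter_upwards [h.eventually (eventually_le_nhds hε)] with k₀ hk
  exact ⟨Summable.of_norm_bounded hs (hle k₀), hk⟩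

end Cav
end Crest.Agent.R141
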