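import Crest.Agent.R141.CavT

/-! The joint side of the cavity step. -/

set_option autoImplicit false
open Finset Function MeasureTheory Crest.ProbabilityR.Diluted

namespace Crest.Agent.R141
namespace Cav
open Sys

section Wt
variable {ι J : Type} [Fintype ι] [DecidableEq ι] [Fintype J] {κ : ι → ℝ} {e : J → ι}

theorem sum_pi_wt (he : Injective e) (h1 : ∀ y, κ (e y) = (Fintype.card J : ℝ)⁻¹)
    (h0 : ∀ x, x ∉ Set.range e → κ x = 0) (k : ℕ) (F : (Fin k → ι) → ℝ) :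
    ∑ xs : Fin k → ι, (∏ j, κ (xs j)) * F xs = avg fun ys : Fin k → J => F fun j => e (ys j) := by
  unfold avg
  rw [mul_sum]
  symm
  refine Fintype.sum_of_injective (fun (ys : Fin k → J) j => e (ys j))
    (fun ys ys' h => funext fun j => he (congrFun h j)) _ _ (fun xs hxs => ?_) (fun ys => ?_)
  · have : ∃ j, xs j ∉ Set.range e := by
      by_contra hcon
      push Not at hcon
      choose ys hys using hcon
      exact hxs ⟨ys, funext hys⟩
    obtain ⟨j, hj⟩ := this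
    rw [prod_eq_zero (mem_univ j) (h0 _ hj), zero_mul]
  · simp [h1]

omit [DecidableEq ι] in
theorem sum_wt [Nonempty J] (he : Injective e) (h1 : ∀ y, κ (e y) = (Fintype.card J : ℝ)⁻¹)
    (h0 : ∀ x, x ∉ Set.range e → κ x = 0) : ∑ x, κ x = 1 := by
  rw [← Fintype.sum_of_injective e he (fun _ => (Fintype.card J : ℝ)⁻¹) κ h0 (fun y => (h1 y).symm)]
  have : (Fintype.card J : ℝ) ≠ 0 := by exact_mod_cast Fintype.card_ne_zero
  simp [this]
end Wt

section Emb
variable {p N n : ℕ}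

/-- index tuples among the first `n` sites -/
def eLt (h : n ≤ N) (y : Fin p → Fin n) : Fin p → Fin N := fun ℓ => Fin.castLE h (y ℓ)

/-- index tuples ending at the cavity site -/
def eCav (p : ℕ) (h : n < N) (y : Fin (p - 1) → Fin n) : Fin p → Fin N :=
  snocB p (fun ℓ => Fin.castLE h.le (y ℓ)) ⟨n, h⟩

theorem eLt_inj (h : n ≤ N) : Injective (eLt (p := p) h) := fun _ _ hy =>
  funext fun ℓ => Fin.castLE_injective h (congrFun hy ℓ)

theorem eCav_inj (h : n < N) : Injective (eCav p h) := fun y y' hy => funext fun ℓ => by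
  have := congrFun hy ⟨ℓ.val, by have := ℓ.2; omega⟩
  simp only [eCav, snocB, dif_pos ℓ.2] at this
  exact Fin.castLE_injective h.le this

theorem wtLt_eLt (h : n ≤ N) (y : Fin p → Fin n) :
    wtLt p N n (eLt h y) = (Fintype.card (Fin p → Fin n) : ℝ)⁻¹ := by
  unfold wtLt
  rw [if_pos (show ∀ ℓ, (eLt h y ℓ).val < n from fun ℓ => (y ℓ).2)]
  simp

theorem wtLt_zero (h : n ≤ N) (x : Fin p → Fin N) (hx : x ∉ Set.range (eLt h)) :
    wtLt p N n x = 0 := by
  unfold wtLt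
  rw [if_neg fun hh => hx ⟨fun ℓ => ⟨x ℓ, hh ℓ⟩, rfl⟩]

theorem wtCav_eCav (h : n < N) (y : Fin (p - 1) → Fin n) :
    wtCav p N n (eCav p h y) = (Fintype.card (Fin (p - 1) → Fin n) : ℝ)⁻¹ := by
  unfold wtCav
  rw [if_pos fun ℓ => ?_]
  · simp
  · simp only [eCav, snocB]
    split_ifs with hl
    · exact (y _).2
    · rfl

theorem wtCav_zero (h : n < N) (x : Fin p → Fin N) (hx : x ∉ Set.range (eCav p h)) :
    wtCav p N n x = 0 := by
  unfold wtCav
  rw [if_neg fun hh => hx ⟨fun ℓ => ⟨x ⟨ℓ.val, by have := ℓ.2; omega⟩, ?_⟩, ?_⟩]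
  · have := hh ⟨ℓ.val, by have := ℓ.2; omega⟩
    rwa [if_pos ℓ.2] at this
  · funext ℓ
    simp only [eCav, snocB]
    by_cases hl : ℓ.val < p - 1
    · rw [dif_pos hl]; rfl
    · have := hh ℓ
      rw [if_neg hl] at this
      rw [dif_neg hl]
      exact Fin.ext this.symm

theorem wtLt_nonneg (x : Fin p → Fin N) : 0 ≤ wtLt p N n x := by
  unfold wtLt; split_ifs <;> positivity

theorem wtCav_nonneg (x : Fin p → Fin N) : 0 ≤ wtCav p N n x := by
  unfold wtCav; split_ifs <;> positivity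
end Emb

section Flip
variable {L : Lev} {Sg B : Type} [Fintype Sg] [Nonempty Sg] [Fintype B] [Nonempty B]

theorem E_flip (τ : Equiv.Perm Sg) {V : Fn (Sg × B)}
    (hV : ∀ ω, V (update ω (L.T - 1) (τ (ω (L.T - 1)).1, (ω (L.T - 1)).2)) = V ω)
    (F : Sg → ℝ) (ω : ℕ → Sg × B) :
    ((unif L (Sg × B)).tilt V).E (L.T - 1) (fun ω => F (τ (ω (L.T - 1)).1)) ω =
      ((unif L (Sg × B)).tilt V).E (L.T - 1) (fun ω => F (ω (L.T - 1)).1) ω := by
  let π : ℕ → Equiv.Perm (Sg × B) := fun j =>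
    if j = L.T - 1 then Equiv.prodCongr τ (Equiv.refl B) else 1
  have hπ : ∀ ω : ℕ → Sg × B, pmap (fun j => π j) ω =
      update ω (L.T - 1) (τ (ω (L.T - 1)).1, (ω (L.T - 1)).2) := by
    intro ω
    funext j
    by_cases hj : j = L.T - 1
    · subst hj; simp [pmap, π, Prod.map]
    · simp [pmap, π, hj]
  have h := ((isProj_unif_perm (L := L) π).tilt_self (V := V) (fun ω => by rw [hπ, hV])).E
    (L.T - 1) (fun ω => F (ω (L.T - 1)).1)
  have h2 := congrFun h ω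
  simp only [hπ, update_self] at h2
  rw [h2]
  have := L.T_pos
  exact E_meas _ _ _ _ _ _ le_rfl (by omega)
end Flip

variable (L : Lev) {𝒦 B : Type} [Fintype 𝒦] [DecidableEq 𝒦] [Fintype B] [Nonempty B]
  (pt : 𝒦 → Bool → (ℕ → B) → ℝ)

/-- the tilted system -/
noncomputable def Sst {N n : ℕ} (h : n ≤ N) (H : (Fin N → Bool) → ℝ) (st : 𝒦 → Fin n) :
    Sys L ((Fin N → Bool) × B) := (unif L _).tilt (pertH L pt (spinN h) H st)

/-- the spins read at the last level -/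
def spL (B : Type) {N n : ℕ} (h : n ≤ N) (i : Fin n) (ω : ℕ → (Fin N → Bool) × B) : Bool :=
  spinN h i (ω (L.T - 1)).1

theorem Psi_add {N n : ℕ} (h1 : 1 ≤ n) (h : n ≤ N) (H U : (Fin N → Bool) → ℝ) :
    Psi L pt N n (H + U) = Psi L pt N n H +
      avg fun st : 𝒦 → Fin n => (Sst L pt h H st).X 0 (fun ω => U (ω (L.T - 1)).1) (w0 B N) := by
  unfold Psi
  rw [dif_pos ⟨h1, h⟩, dif_pos ⟨h1, h⟩, ← avg_add]
  congr 1
  funext st
  unfold Fst
  have : pertH L pt (fun i (σ : Fin N → Bool) => σ i) (H + U) (fun k => Fin.castLE h (st k)) =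
      pertH L pt (spinN h) H st + fun ω => U (ω (L.T - 1)).1 := by
    ext ω; simp only [pertH, Pi.add_apply, spinN]; ring
  rw [this, X_add]
  rfl

omit [DecidableEq 𝒦] in
theorem Sst_pos {N n : ℕ} (h : n ≤ N) (H : (Fin N → Bool) → ℝ) (st : 𝒦 → Fin n) (i : Fin n)
    (b : Bool) (ω : ℕ → (Fin N → Bool) × B) :
    0 < (Sst L pt h H st).E (L.T - 1) (fun ω' => if spL L B h i ω' = b then 1 else 0) ω := by
  rw [E_last, P_apply]
  refine sum_pos' (fun x _ => mul_nonneg ((Sst L pt h H st).pos _ _).le (by positivity))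
    ⟨(fun _ => b, Classical.arbitrary B), mem_univ _, ?_⟩
  rw [if_pos (by simp [spL, spinN]), mul_one]
  exact (Sst L pt h H st).pos _ _

omit [DecidableEq 𝒦] in
theorem X_site {p N n : ℕ} (hn : n < N) (H : (Fin N → Bool) → ℝ)
    (hH : ∀ σ b, H (update σ ⟨n, hn⟩ b) = H σ) (st : 𝒦 → Fin n) (k : ℕ) (θs : Fin k → Inter p)
    (h : ℝ) (i : Fin k × Fin (p - 1) → Fin n) (ω : ℕ → (Fin N → Bool) × B) :
    (Sst L pt hn.le H st).X 0 (fun ω => h * spinVal ((ω (L.T - 1)).1 ⟨n, hn⟩) +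
      ∑ j, θs j (fun ℓ => (ω (L.T - 1)).1 (eCav p hn (fun ℓ => i (j, ℓ)) ℓ))) ω =
      JX (Sst L pt hn.le H st) (spL L B hn.le) 0 i (Gsite k θs h) ω := by
  unfold JX
  rw [X_eq_Xk L _ L.T_pos, X_eq_Xk L _ L.T_pos]
  congr 1
  funext ω
  rw [X_last, X_last]
  congr 1
  have hne : ∀ y : Fin n, Fin.castLE hn.le y ≠ ⟨n, hn⟩ := fun y hy => by
    have := congrArg Fin.val hy
    simp only [Fin.val_castLE] at this
    omega
  let τ : Equiv.Perm (Fin N → Bool) := Function.Involutive.toPerm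
    (fun σ => update σ ⟨n, hn⟩ (!σ ⟨n, hn⟩)) (fun σ => by simp)
  have hτ : ∀ σ, τ σ = update σ ⟨n, hn⟩ (!σ ⟨n, hn⟩) := fun _ => rfl
  let F : (Fin N → Bool) → ℝ := fun σ => Real.exp (h * spinVal (σ ⟨n, hn⟩) +
      ∑ j, θs j (fun ℓ => σ (eCav p hn (fun ℓ => i (j, ℓ)) ℓ)))
  have h1 := E_flip (L := L) (V := pertH L pt (spinN hn.le) H st) τ (fun ω => by
    simp only [pertH, update_self, hτ, hH, spinN, update_of_ne (hne _)]
    congr 1
    refine sum_congr rfl fun k _ => ?_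
    congr 1
    funext j
    by_cases hj : j = L.T - 1
    · subst hj; simp
    · rw [update_of_ne hj]) F ω
  have hF : ∀ σ : Fin N → Bool, F σ = Real.exp (h * spinVal (σ ⟨n, hn⟩) +
      ∑ j, θs j (snocB p (fun ℓ => spinN hn.le (i (j, ℓ)) σ) (σ ⟨n, hn⟩))) := by
    intro σ
    simp only [F]
    congr 2
    refine sum_congr rfl fun j _ => ?_
    congr 1
    funext ℓ
    simp only [eCav, snocB, spinN]
    split_ifs <;> rfl
  have h2 : ∀ σ : Fin N → Bool, Real.exp (Gsite k θs h fun s => spinN hn.le (i s) σ) =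
      (1 / 2) * F (τ σ) + (1 / 2) * F σ := by
    intro σ
    unfold Gsite
    rw [Real.exp_log (mul_pos (by norm_num) (sum_pos (fun _ _ => Real.exp_pos _) univ_nonempty)),
      hF, hF, Fintype.sum_bool]
    simp only [hτ, update_self, spinN, update_of_ne (hne _)]
    cases σ ⟨n, hn⟩
    · simp only [Bool.not_false]; ring
    · simp only [Bool.not_true]; ring
  simp only [spL, h2]
  rw [E_add_apply, E_const_mul, E_const_mul]
  unfold Sst
  rw [h1]
  simp only [F]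
  ring

variable {p : ℕ}

/-- the joint functional -/
noncomputable def PhiJ {N n : ℕ} (h : n ≤ N) (H : (Fin N → Bool) → ℝ) (Lab : Type) [Fintype Lab]
    [DecidableEq Lab] (G : (Lab → Bool) → ℝ) : ℝ :=
  avg fun st : 𝒦 → Fin n => avg fun i : Lab → Fin n =>
    JX (Sst L pt h H st) (spL L B h) 0 i G (w0 B N)

theorem con_PhiJ {N n : ℕ} (h : n ≤ N) (H : (Fin N → Bool) → ℝ) (Lab : Type) [Fintype Lab]
    [DecidableEq Lab] : Con (PhiJ L pt h H Lab) :=
  Con.avg fun _ => Con.avg fun _ => con_JX _ _ _ _ _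

theorem sum_site {μ : Measure (Inter p)} [IsProbabilityMeasure μ]
    (hμ : Integrable (fun θ => supNorm θ) μ) {N n : ℕ} (h1 : 1 ≤ n) (hn : n < N)
    (H : (Fin N → Bool) → ℝ) (hH : ∀ σ b, H (update σ ⟨n, hn⟩ b) = H σ) (k : ℕ)
    (θs : Fin k → Inter p) (h : ℝ) :
    ∑ xs : Fin k → Fin p → Fin N, (∏ j, wtCav p N n (xs j)) *
      Psi L pt N n ((fun σ => H σ + h * spinVal (σ ⟨n, hn⟩)) +
        ∑ j, (clauseTerms p μ hμ N).U (xs j) (θs j)) =
      Psi L pt N n H + PhiJ L pt hn.le H _ (Gsite k θs h) := by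
  have : Nonempty (Fin n) := ⟨⟨0, h1⟩⟩
  rw [sum_pi_wt (eCav_inj hn) (wtCav_eCav hn) (wtCav_zero hn),
    ← avg_equiv (Equiv.curry (Fin k) (Fin (p - 1)) (Fin n))]
  unfold PhiJ
  rw [avg_comm, ← avg_const (J := Fin k × Fin (p - 1) → Fin n) (Psi L pt N n H), ← avg_add]
  congr 1
  funext i
  have : ((fun σ => H σ + h * spinVal (σ ⟨n, hn⟩)) +
      ∑ j, (clauseTerms p μ hμ N).U (eCav p hn (Equiv.curry _ _ _ i j)) (θs j)) =
      H + fun σ => h * spinVal (σ ⟨n, hn⟩) +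
        ∑ j, θs j (fun ℓ => σ (eCav p hn (fun ℓ => i (j, ℓ)) ℓ)) := by
    funext σ
    simp only [Pi.add_apply, Finset.sum_apply, add_assoc]
    rfl
  rw [this, Psi_add L pt h1 hn.le]
  simp only [X_site L pt hn H hH]

theorem sum_edge {μ : Measure (Inter p)} [IsProbabilityMeasure μ]
    (hμ : Integrable (fun θ => supNorm θ) μ) {N n : ℕ} (h1 : 1 ≤ n) (hn : n ≤ N)
    (H : (Fin N → Bool) → ℝ) (k : ℕ) (θs : Fin k → Inter p) (h : ℝ) :
    ∑ xs : Fin k → Fin p → Fin N, (∏ j, wtLt p N n (xs j)) *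
      Psi L pt N n (H + ∑ j, (clauseTerms p μ hμ N).U (xs j) (θs j)) =
      Psi L pt N n H + PhiJ L pt hn H _ (Gedge k θs h) := by
  have : Nonempty (Fin n) := ⟨⟨0, h1⟩⟩
  rw [sum_pi_wt (eLt_inj hn) (wtLt_eLt hn) (wtLt_zero hn),
    ← avg_equiv (Equiv.curry (Fin k) (Fin p) (Fin n))]
  unfold PhiJ
  rw [avg_comm, ← avg_const (J := Fin k × Fin p → Fin n) (Psi L pt N n H), ← avg_add]
  congr 1
  funext i
  rw [Psi_add L pt h1 hn]
  congr 2
  funext st
  unfold JX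
  congr 1
  funext ω
  simp only [Finset.sum_apply]
  rfl

end Cav
end Crest.Agent.R141
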