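import Crest.Agent.R141.CavJ

/-! Assembly of the cavity step from the decoupling statement. -/

set_option autoImplicit false
open Finset Function MeasureTheory Crest.ProbabilityR.Diluted

namespace Crest.Agent.R141
namespace Cav
open Sys

/-- the statement of `decouple` -/
def DecStmt : Prop := ∀ (B ε : ℝ) (_ : 0 < ε) (R : ℕ), ∃ (n : ℕ) (C : ℝ), 0 ≤ C ∧
    ∀ (L : Lev), L.Unif → ∀ (Ω I Lab : Type) [Fintype Ω] [Fintype I] [Nonempty I] [Fintype Lab]
      [DecidableEq Lab] (S : Sys L Ω) (ω₀ : ℕ → Ω) (sp : I → (ℕ → Ω) → Bool),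
      Fintype.card Lab ≤ R → ∀ (G : (Lab → Bool) → ℝ), (∀ s, |G s| ≤ B) →
      (L.T : ℝ)⁻¹ * ∑ a ∈ range L.T, (Fintype.card (Lab → I) : ℝ)⁻¹ * ∑ i : Lab → I,
        S.E 0 (fun ω => |S.X a (fun ω' => G fun s => sp (i s) ω') ω -
          (Sys.pi fun _ : Lab => S).X a
            (fun ω' => G fun s => sp (i s) (pmap (fun _ x => x s) ω')) (fun j _ => ω j)|) ω₀
        ≤ C * S.coreErr ω₀ sp n n + ε

/-- the statement of `abs_X_zero_sub` -/
def ZeroStmt : Prop := ∀ {L : Lev} {Ω : Type} [Fintype Ω] (S : Sys L Ω) (a : ℕ) {V : Fn Ω} {B : ℝ}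
    (_ : ∀ ω, |V ω| ≤ B) (ω : ℕ → Ω),
    |S.X 0 V ω - S.E 0 (S.X a V) ω| ≤ (Real.exp (2 * B * L.m a) - 1) * B

theorem E_avg {L : Lev} {Ω J : Type} [Fintype Ω] [Fintype J] (S : Sys L Ω) (c : ℕ) (f : J → Fn Ω)
    (ω : ℕ → Ω) : S.E c (fun ω' => avg fun j => f j ω') ω = avg fun j => S.E c (f j) ω := by
  unfold avg
  rw [E_const_mul, E_sum_apply]

theorem cmp_one (hz : ZeroStmt) {L : Lev} {Ω I Lab : Type} [Fintype Ω] [Fintype I] [Fintype Lab]
    [DecidableEq Lab] (S : Sys L Ω) (sp : I → (ℕ → Ω) → Bool) (ω₀ : ℕ → Ω)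
    (G : (Lab → Bool) → ℝ) {B η : ℝ} (hG : ∀ x, |G x| ≤ B) {a₀ : ℕ} (h1 : 1 ≤ a₀) (h2 : a₀ ≤ L.T)
    (hη0 : 0 ≤ η) (hη : ∀ a, a < a₀ → (Real.exp (2 * B * L.m a) - 1) * B ≤ η) :
    |avg (fun i : Lab → I => JX S sp 0 i G ω₀) -
      avg (fun a : Fin a₀ => S.E 0 (fun ω => avg fun i : Lab → I => PX S sp a i G ω) ω₀)| ≤
      η + (L.T / a₀) * ((L.T : ℝ)⁻¹ * ∑ a ∈ range L.T, avg fun i : Lab → I =>
        S.E 0 (fun ω => |JX S sp a i G ω - PX S sp a i G ω|) ω₀) := by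
  have : Nonempty (Fin a₀) := ⟨⟨0, h1⟩⟩
  set d : ℕ → ℝ := fun a => avg fun i : Lab → I =>
    S.E 0 (fun ω => |JX S sp a i G ω - PX S sp a i G ω|) ω₀ with hd
  have hd0 : ∀ a, 0 ≤ d a := fun a =>
    mul_nonneg (by positivity) (sum_nonneg fun i _ => S.E_nonneg 0 (fun _ => abs_nonneg _) _)
  have key : ∀ a : Fin a₀, |avg (fun i : Lab → I => JX S sp 0 i G ω₀) -
      S.E 0 (fun ω => avg fun i : Lab → I => PX S sp a i G ω) ω₀| ≤ η + d a := by
    intro a
    rw [E_avg]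
    have e1 : |avg (fun i : Lab → I => JX S sp 0 i G ω₀) -
        avg (fun i : Lab → I => S.E 0 (JX S sp a i G) ω₀)| ≤ η :=
      abs_avg_sub_le hη0 fun i => (hz S a (fun _ => hG _) ω₀).trans (hη a a.2)
    have e2 : |avg (fun i : Lab → I => S.E 0 (JX S sp a i G) ω₀) -
        avg (fun i : Lab → I => S.E 0 (PX S sp a i G) ω₀)| ≤ d a := by
      rw [← avg_sub]
      refine (abs_avg_le _).trans (avg_mono fun i => ?_)
      rw [← E_sub_apply]
      exact S.abs_E_le 0 _ ω₀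
    exact (abs_sub_le _ _ _).trans (add_le_add e1 e2)
  rw [← avg_const (J := Fin a₀) (avg (fun i : Lab → I => JX S sp 0 i G ω₀)), ← avg_sub]
  refine (abs_avg_le _).trans ((avg_mono key).trans ?_)
  rw [avg_add, avg_const]
  refine add_le_add le_rfl ?_
  have hT : (0 : ℝ) < L.T := by exact_mod_cast L.T_pos
  have ha : (0 : ℝ) < a₀ := by exact_mod_cast h1
  unfold avg
  rw [Fintype.card_fin, Fin.sum_univ_eq_sum_range d a₀, ← mul_assoc,
    show (L.T : ℝ) / a₀ * (L.T : ℝ)⁻¹ = (a₀ : ℝ)⁻¹ by field_simp]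
  exact mul_le_mul_of_nonneg_left (sum_le_sum_of_subset_of_nonneg (range_mono h2)
    fun a _ _ => hd0 a) (by positivity)

section
variable (L : Lev) {𝒦 B : Type} [Fintype 𝒦] [DecidableEq 𝒦] [Fintype B] [Nonempty B]
  (pt : 𝒦 → Bool → (ℕ → B) → ℝ)

/-- the product functional -/
noncomputable def PhiP (a₀ : ℕ) {N n : ℕ} (h : n ≤ N) (H : (Fin N → Bool) → ℝ) (Lab : Type)
    [Fintype Lab] [DecidableEq Lab] (G : (Lab → Bool) → ℝ) : ℝ :=
  avg fun st : 𝒦 → Fin n => avg fun a : Fin a₀ => (Sst L pt h H st).E 0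
    (fun ω => avg fun i : Lab → Fin n => PX (Sst L pt h H st) (spL L B h) a i G ω) (w0 B N)

theorem con_PhiP (a₀ : ℕ) {N n : ℕ} (h : n ≤ N) (H : (Fin N → Bool) → ℝ) (Lab : Type)
    [Fintype Lab] [DecidableEq Lab] : Con (PhiP L pt a₀ h H Lab) :=
  Con.avg fun _ => Con.avg fun _ => Con.E _ _ _ fun _ => Con.avg fun _ => con_PX _ _ _ _ _
end

/-- the perturbation making the joint and the product functional close -/
theorem exists_pert (hcore : CoreStmt) (hdec : DecStmt) (hz : ZeroStmt) (B₀ δ : ℝ) (hB : 0 ≤ B₀)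
    (hδ : 0 < δ) (R : ℕ) :
    ∃ (L : Lev) (𝒦 B : Type) (_ : Fintype 𝒦) (_ : DecidableEq 𝒦) (_ : Fintype B) (_ : Nonempty B)
      (pt : 𝒦 → Bool → (ℕ → B) → ℝ) (A : ℝ) (a₀ : ℕ), L.Unif ∧ 0 ≤ A ∧ (∀ k b y, |pt k b y| ≤ A) ∧
      1 ≤ a₀ ∧ a₀ ≤ L.T ∧ ∀ (N n : ℕ) (h : n ≤ N), 1 ≤ n → ∀ (H : (Fin N → Bool) → ℝ) (Lab : Type)
        [Fintype Lab] [DecidableEq Lab], Fintype.card Lab ≤ R → ∀ G : (Lab → Bool) → ℝ,
        (∀ x, |G x| ≤ B₀) → |PhiJ L pt h H Lab G - PhiP L pt a₀ h H Lab G| ≤ δ := by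
  obtain ⟨γ, hγ0, hγ1, hγ⟩ : ∃ γ : ℝ, 0 < γ ∧ γ ≤ 1 ∧
      (Real.exp (2 * B₀ * (2 * γ)) - 1) * B₀ ≤ δ / 2 := by
    have hc : Continuous fun γ : ℝ => (Real.exp (2 * B₀ * (2 * γ)) - 1) * B₀ := by fun_prop
    have h1 : ∀ᶠ γ in nhds (0 : ℝ), (Real.exp (2 * B₀ * (2 * γ)) - 1) * B₀ ≤ δ / 2 := by
      have := hc.tendsto 0
      simp only [mul_zero, Real.exp_zero, sub_self, zero_mul] at this
      exact this.eventually (eventually_le_nhds (by positivity))
    have h2 : ∀ᶠ γ in nhds (0 : ℝ), γ ≤ 1 := eventually_le_nhds one_pos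
    obtain ⟨γ, h, h'⟩ := (((h1.and h2).filter_mono nhdsWithin_le_nhds).and
      (self_mem_nhdsWithin (s := Set.Ioi (0 : ℝ)))).exists
    exact ⟨γ, h', h.2, h.1⟩
  obtain ⟨n₀, C, hC, hd⟩ := hdec B₀ (δ * γ / 4) (by positivity) R
  obtain ⟨L, 𝒦, B, _, _, _, _, pt, A, hL, hT, hA, hc⟩ :=
    hcore n₀ (min γ (δ * γ / (4 * (C + 1)))) (lt_min hγ0 (by positivity))
  have hTpos : (0 : ℝ) < L.T := by exact_mod_cast L.T_pos
  have h1 : 1 ≤ ⌈γ * L.T⌉₊ := Nat.ceil_pos.2 (by positivity)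
  have h2 : ⌈γ * L.T⌉₊ ≤ L.T := Nat.ceil_le.2 (mul_le_of_le_one_left hTpos.le hγ1)
  refine ⟨L, 𝒦, B, inferInstance, inferInstance, inferInstance, inferInstance, pt, max A 0,
    ⌈γ * L.T⌉₊, hL, le_max_right _ _, fun k b y => (hA k b y).trans (le_max_left _ _), h1, h2,
    fun N n h hn H Lab _ _ hR G hG => ?_⟩
  have : Nonempty (Fin n) := ⟨⟨0, hn⟩⟩
  have hη : ∀ a, a < ⌈γ * L.T⌉₊ → (Real.exp (2 * B₀ * L.m a) - 1) * B₀ ≤ δ / 2 := by
    intro a ha
    refine le_trans ?_ hγ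
    have hm : L.m a ≤ 2 * γ := by
      rw [hL.m_eq (by omega), div_le_iff₀ hTpos]
      have e1 : (a : ℝ) < γ * L.T := Nat.lt_ceil.1 ha
      have e2 : 1 ≤ γ * L.T := by
        have := hT.trans (min_le_left _ _)
        rwa [inv_le_iff_one_le_mul₀ hTpos] at this
      linarith
    gcongr
  have hq : (L.T : ℝ) / (⌈γ * L.T⌉₊ : ℕ) ≤ γ⁻¹ := by
    rw [div_le_iff₀ (by exact_mod_cast h1), le_inv_mul_iff₀ hγ0]
    exact Nat.le_ceil _
  unfold PhiJ PhiP
  rw [← avg_sub]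
  refine (abs_avg_le _).trans ((avg_mono (g := fun st => δ / 2 + γ⁻¹ *
    (C * (Sst L pt h H st).coreErr (w0 B N) (spL L B h) n₀ n₀ + δ * γ / 4)) fun st => ?_).trans ?_)
  · refine (cmp_one hz _ _ _ G hG h1 h2 (by positivity) hη).trans (add_le_add le_rfl ?_)
    refine mul_le_mul hq (hd L hL _ _ Lab (Sst L pt h H st) (w0 B N) (spL L B h) hR G hG) ?_
      (by positivity)
    exact mul_nonneg (by positivity) (sum_nonneg fun a _ => mul_nonneg (by positivity)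
      (sum_nonneg fun i _ => E_nonneg _ 0 (fun _ => abs_nonneg _) _))
  · rw [avg_add, avg_const, avg_const_mul, avg_add, avg_const, avg_const_mul]
    have h3 : avg (fun st : 𝒦 → Fin n => (Sst L pt h H st).coreErr (w0 B N) (spL L B h) n₀ n₀) ≤
        δ * γ / (4 * (C + 1)) :=
      (hc (Fin N → Bool) (Fin n) (spinN h) H (w0 B N)).trans (min_le_right _ _)
    have h4 : C * (δ * γ / (4 * (C + 1))) ≤ δ * γ / 4 := by
      rw [mul_div_assoc', div_le_div_iff₀ (by positivity) (by positivity)]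
      nlinarith [mul_pos hδ hγ0]
    have h5 := (mul_le_mul_of_nonneg_left h3 hC).trans h4
    have h6 : γ⁻¹ * (δ * γ / 4 + δ * γ / 4) = δ / 2 := by field_simp; ring
    have h7 := mul_le_mul_of_nonneg_left (add_le_add h5 (le_refl (δ * γ / 4))) (inv_pos.2 hγ0).le
    linarith

variable {p : ℕ} {μ : Measure (Inter p)} {ν : Measure ℝ} [IsProbabilityMeasure μ]
  [IsProbabilityMeasure ν]

theorem Nice.poi_const (hμ : Integrable (fun θ : Inter p => ‖θ‖) μ)
    {f : ∀ k : ℕ, (Fin k → Inter p) → ℝ → ℝ} (hf : Nice f) {l : ℝ} (hl : 0 ≤ l) (c h : ℝ) :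
    ∑' k : ℕ, poissonWeight l k * ∫ θs, (c + f k θs h) ∂(Measure.pi fun _ : Fin k => μ) =
      c + ∑' k : ℕ, poissonWeight l k * ∫ θs, f k θs h ∂(Measure.pi fun _ : Fin k => μ) := by
  have h2 : ∀ k, Integrable (fun θs : Fin k → Inter p => |h| + ∑ j, ‖θs j‖)
      (Measure.pi fun _ => μ) := fun k => (integrable_const _).add
    (integrable_finsetSum univ fun j _ => integrable_comp_eval (μ := fun _ : Fin k => μ) (i := j) hμ)
  have hi : ∀ k, Integrable (fun θs => f k θs h) (Measure.pi fun _ : Fin k => μ) := fun k =>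
    (h2 k).mono' ((hf.cont k).comp (Continuous.prodMk_left h)).measurable.aestronglyMeasurable
      (Filter.Eventually.of_forall fun θs => hf.le k θs h)
  have hs : Summable fun k : ℕ =>
      poissonWeight l k * ∫ θs, f k θs h ∂(Measure.pi fun _ : Fin k => μ) := by
    refine Summable.of_norm_bounded (hasSum_pw_affine l |h| (∫ θ, ‖θ‖ ∂μ)).summable fun k => ?_
    rw [norm_mul, Real.norm_eq_abs, abs_of_nonneg (pw_nonneg hl k)]
    refine mul_le_mul_of_nonneg_left ?_ (pw_nonneg hl k)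
    refine (norm_integral_le_of_norm_le (h2 k)
      (Filter.Eventually.of_forall fun θs => hf.le k θs h)).trans (le_of_eq ?_)
    rw [integral_add (integrable_const _) (integrable_finsetSum univ fun j _ =>
      integrable_comp_eval (μ := fun _ : Fin k => μ) (i := j) hμ), integral_pi_sum k hμ]
    simp
  have h3 := ((hasSum_pw l).mul_right c).add hs.hasSum
  rw [one_mul] at h3
  rw [← h3.tsum_eq]
  refine tsum_congr fun k => ?_
  rw [integral_add (integrable_const _) (hi k)]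
  simp [mul_add]

theorem cavity_of (hdec : DecStmt) (hz : ZeroStmt) (hcore : CoreStmt) (p : ℕ) (hp : 1 ≤ p) (α : ℝ)
    (hα : 0 ≤ α) (μ : Measure (Inter p)) [IsProbabilityMeasure μ] (ν : Measure ℝ)
    [IsProbabilityMeasure ν] (hμ : Integrable (fun θ => supNorm θ) μ)
    (hν : Integrable (fun x : ℝ => x) ν) (c : ℝ)
    (hc : ∀ T a r : ℕ, a + r + 1 = T → ∀ X : (Fin (r + 1) → unitInterval) → ℝ, Measurable X →
      c ≤ trialFunctional p α μ ν r (fun d => ((a + d + 1 : ℕ) : ℝ) / T) X)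
    (ε : ℝ) (hε : 0 < ε) : Nonempty (CavityData p α μ hμ ν c ε) := by
  have hμ' : Integrable (fun θ : Inter p => ‖θ‖) μ := by simpa only [supNorm_eq_norm] using hμ
  have hν' : Integrable (fun x : ℝ => |x|) ν := hν.abs
  have hp' : (1 : ℝ) ≤ p := by exact_mod_cast hp
  have hl1 : 0 ≤ α * p := by positivity
  have hl2 : 0 ≤ α * (p - 1) := mul_nonneg hα (by linarith)
  obtain ⟨b, hb1, hb2⟩ := ((exists_trunc hν' (fun _ => abs_nonneg _) (ε := ε / 16)
    (by positivity)).and (exists_trunc hμ' (fun _ => norm_nonneg _) (ε := ε / (16 * (α * p + 1)))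
    (by positivity))).exists
  have hb0 : (0 : ℝ) ≤ b := Nat.cast_nonneg b
  obtain ⟨k₀, ⟨ht1, ht1'⟩, ht2, ht2'⟩ := ((exists_tail hl1 hb0 (ε := ε / 8) (by positivity)).and
    (exists_tail hl2 hb0 (ε := ε / 8) (by positivity))).exists
  obtain ⟨L, 𝒦, B, _, _, _, _, pt, A, a₀, hL, hA0, hA, ha1, ha2, hcl⟩ :=
    exists_pert hcore hdec hz ((k₀ + 1) * b) (ε / 8) (by positivity) (by positivity) (k₀ * p)
  have hK : (0 : ℝ) ≤ Fintype.card 𝒦 := Nat.cast_nonneg _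
  refine ⟨⟨Fintype.card 𝒦 * A + 2 * (Fintype.card 𝒦 * A) * Fintype.card 𝒦, Psi L pt,
    Psi_lip L pt, Psi_equi L pt, fun N n H h1 h2 => ?_, fun N n H h1 h2 => ?_,
    fun N n hn h1 H hH => ?_⟩⟩
  · exact (Psi_close L pt hA0 hA N n H h1 h2).trans (le_add_of_nonneg_right (by positivity))
  · refine (Psi_step L pt hA0 hA N n H h1 h2).trans ?_
    exact div_le_div_of_nonneg_right (le_add_of_nonneg_left (by positivity)) (Nat.cast_nonneg n)
  have : Nonempty (Fin n) := ⟨⟨0, h1⟩⟩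
  have : Nonempty (Fin a₀) := ⟨⟨0, ha1⟩⟩
  have hτ : ∀ l : ℝ, 0 ≤ l → l ≤ α * p → l * (2 * ∫ θ, max (‖θ‖ - b) 0 ∂μ) ≤ ε / 8 := by
    intro l hl hl'
    have h0 : 0 ≤ ∫ θ, max (‖θ‖ - b) 0 ∂μ := integral_nonneg fun _ => le_max_right _ _
    rw [le_div_iff₀ (by positivity)] at hb2
    nlinarith
  -- the joint side
  have nJs := niceG_site.nice (p := p) fun k => con_PhiJ L pt hn.le H (Fin k × Fin (p - 1))
  have nJe := niceG_edge.nice (p := p) fun k => con_PhiJ L pt hn.le H (Fin k × Fin p)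
  have eS : ∫ h, (clauseTerms p μ hμ N).Poi (fun x => α * p * wtCav p N n x) (Psi L pt N n)
        (fun σ => H σ + h * spinVal (σ ⟨n, hn⟩)) ∂ν = Psi L pt N n H +
      EE μ ν (α * p) (fun k θs h => PhiJ L pt hn.le H _ (Gsite k θs h)) := by
    have e : ∀ h, (clauseTerms p μ hμ N).Poi (fun x => α * p * wtCav p N n x) (Psi L pt N n)
        (fun σ => H σ + h * spinVal (σ ⟨n, hn⟩)) = Psi L pt N n H + ∑' k : ℕ,
        poissonWeight (α * p) k * ∫ θs, PhiJ L pt hn.le H _ (Gsite k θs h)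
          ∂(Measure.pi fun _ : Fin k => μ) := by
      intro h
      rw [((clauseTerms p μ hμ N).Poi_eq _ wtCav_nonneg
        (sum_wt (eCav_inj hn) (wtCav_eCav hn) (wtCav_zero hn)) _ hl1 _ (Psi_lip L pt N n) _).2]
      simp only [sum_site L pt hμ h1 hn H hH]
      exact nJs.poi_const hμ' hl1 _ h
    obtain ⟨hi, he⟩ := EE_swap hμ' hν' nJs hl1
    simp only [e]
    rw [integral_add (integrable_const _) hi, he]
    simp
  have eE : (clauseTerms p μ hμ N).Poi (fun x => α * (p - 1 : ℝ) * wtLt p N n x) (Psi L pt N n) H =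
      Psi L pt N n H + EE μ ν (α * (p - 1)) (fun k θs h => PhiJ L pt hn.le H _ (Gedge k θs h)) := by
    rw [((clauseTerms p μ hμ N).Poi_eq _ wtLt_nonneg
      (sum_wt (eLt_inj hn.le) (wtLt_eLt hn.le) (wtLt_zero hn.le)) _ hl2 _ (Psi_lip L pt N n) _).2]
    simp only [fun k θs => sum_edge L pt hμ h1 hn.le H k θs 0]
    refine (nJe.poi_const hμ' hl2 _ 0).trans ?_
    unfold EE II
    simp only [show ∀ k θs h, Gedge (p := p) k θs h = Gedge k θs 0 from fun _ _ _ => rfl,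
      integral_const, probReal_univ, one_smul]
  -- comparison
  have cS := EE_cmp hμ' hν' niceG_site hl1
    (fun k => con_PhiJ L pt hn.le H (Fin k × Fin (p - 1)))
    (fun k => con_PhiP L pt a₀ hn.le H (Fin k × Fin (p - 1))) (δ := ε / 8) (by positivity) hb0 k₀ ht1
    (fun k hk F hF => hcl N n hn.le h1 H _ (by
      simp only [Fintype.card_prod, Fintype.card_fin]
      exact Nat.mul_le_mul hk (Nat.sub_le _ _)) F hF)
  have cE := EE_cmp hμ' hν' niceG_edge hl2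
    (fun k => con_PhiJ L pt hn.le H (Fin k × Fin p))
    (fun k => con_PhiP L pt a₀ hn.le H (Fin k × Fin p)) (δ := ε / 8) (by positivity) hb0 k₀ ht2
    (fun k hk F hF => hcl N n hn.le h1 H _ (by
      simp only [Fintype.card_prod, Fintype.card_fin]
      exact Nat.mul_le_mul hk le_rfl) F hF)
  -- the product side
  have eP : ∀ {Lab : ℕ → Type} [∀ k, Fintype (Lab k)] [∀ k, DecidableEq (Lab k)]
      {G : ∀ k, (Fin k → Inter p) → ℝ → (Lab k → Bool) → ℝ} (_ : NiceG G) {l : ℝ} (_ : 0 ≤ l),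
      EE μ ν l (fun k θs h => PhiP L pt a₀ hn.le H _ (G k θs h)) =
      avg fun st : 𝒦 → Fin n => avg fun a : Fin a₀ => (Sst L pt hn.le H st).E 0
        (fun ω => EE μ ν l fun k θs h => avg fun i : Lab k → Fin n =>
          PX (Sst L pt hn.le H st) (spL L B hn.le) a i (G k θs h) ω) (w0 B N) := by
    intro Lab _ _ G hG l hl
    unfold PhiP
    rw [EE_avg hμ' hν' hG hl (Φ := fun st k G => avg fun a : Fin a₀ => (Sst L pt hn.le H st).E 0
      (fun ω => avg fun i : Lab k → Fin n => PX (Sst L pt hn.le H st) (spL L B hn.le) a i G ω)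
      (w0 B N)) fun _ _ => Con.avg fun _ => Con.E _ _ _ fun _ => Con.avg fun _ => con_PX _ _ _ _ _]
    congr 1
    funext st
    rw [EE_avg hμ' hν' hG hl (Φ := fun (a : Fin a₀) k G => (Sst L pt hn.le H st).E 0
      (fun ω => avg fun i : Lab k → Fin n => PX (Sst L pt hn.le H st) (spL L B hn.le) a i G ω)
      (w0 B N)) fun _ _ => Con.E _ _ _ fun _ => Con.avg fun _ => con_PX _ _ _ _ _]
    congr 1
    funext a
    exact EE_E hμ' hν' hG hl _ 0 _ (Φ := fun ω k G => avg fun i : Lab k → Fin n =>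
      PX (Sst L pt hn.le H st) (spL L B hn.le) a i G ω) fun _ _ => Con.avg fun _ => con_PX _ _ _ _ _
  have hP : c ≤ Real.log 2 + EE μ ν (α * p) (fun k θs h => PhiP L pt a₀ hn.le H _ (Gsite k θs h)) -
      EE μ ν (α * (p - 1)) (fun k θs h => PhiP L pt a₀ hn.le H _ (Gedge k θs h)) := by
    rw [eP niceG_site hl1, eP niceG_edge hl2, ← avg_const (J := 𝒦 → Fin n) (Real.log 2),
      ← avg_const (J := 𝒦 → Fin n) c, ← avg_add, ← avg_sub]
    refine avg_mono fun st => ?_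
    rw [← avg_const (J := Fin a₀) (Real.log 2), ← avg_const (J := Fin a₀) c, ← avg_add, ← avg_sub]
    refine avg_mono fun a => ?_
    have h := (Sst L pt hn.le H st).le_E 0 (fun ω => trial_bound hμ' hν' hc hL (Sst L pt hn.le H st)
      (spL L B hn.le) (Sst_pos L pt hn.le H st) (a.2.trans_le ha2) ω) (w0 B N)
    rwa [E_sub_apply, E_add_apply, E_const] at h
  rw [eS, eE]
  have f1 := hτ _ hl1 le_rfl
  have f2 := hτ _ hl2 (by nlinarith)
  have f3 := abs_le.1 cS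
  have f4 := abs_le.1 cE
  linarith [f3.1, f4.2]

end Cav
end Crest.Agent.R141
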