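import Crest.Agent.R141.CavA
import Crest.Agent.R141.CavEE

/-! Joint and product functionals; the product side is a trial functional. -/

set_option autoImplicit false
open Finset Function MeasureTheory Crest.ProbabilityR.Diluted

namespace Crest.Agent.R141
namespace Cav
open Sys

/-- contractions vanishing at `0` -/
structure Con {P : Type} (Φ : (P → ℝ) → ℝ) : Prop where
  lip : ∀ G G' (B : ℝ), 0 ≤ B → (∀ x, |G x - G' x| ≤ B) → |Φ G - Φ G'| ≤ B
  zero : Φ (fun _ => 0) = 0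

theorem Con.abs_le {P : Type} {Φ : (P → ℝ) → ℝ} (h : Con Φ) {G : P → ℝ} {B : ℝ} (hB : 0 ≤ B)
    (hG : ∀ x, |G x| ≤ B) : |Φ G| ≤ B := by
  have := h.lip G (fun _ => 0) B hB (by simpa using hG)
  rwa [h.zero, sub_zero] at this

theorem Con.continuous {P : Type} [Fintype P] {Φ : (P → ℝ) → ℝ} (h : Con Φ) : Continuous Φ :=
  Lip.continuous (K := 1) ⟨zero_le_one, fun G G' => by
    rw [one_mul]; exact h.lip G G' _ (norm_nonneg _) fun x => norm_le_pi_norm (G - G') x⟩

theorem Con.avg {P J : Type} [Fintype J] {Φ : J → (P → ℝ) → ℝ} (h : ∀ j, Con (Φ j)) :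
    Con fun G => avg fun j => Φ j G :=
  ⟨fun G G' B hB hG => abs_avg_sub_le hB fun j => (h j).lip G G' B hB hG,
    by simp [fun j => (h j).zero, Cav.avg]⟩

theorem Con.E {P Ω : Type} [Fintype Ω] {L : Lev} (S : Sys L Ω) (c : ℕ) (ω₀ : ℕ → Ω)
    {Φ : (ℕ → Ω) → (P → ℝ) → ℝ} (h : ∀ ω, Con (Φ ω)) : Con fun G => S.E c (fun ω => Φ ω G) ω₀ :=
  ⟨fun G G' B hB hG => by
    rw [← E_sub_apply]; exact S.abs_E_le_of_le c (fun ω => (h ω).lip G G' B hB hG) ω₀,
    by simp only [fun ω => (h ω).zero, E_const]⟩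

theorem con_X {P Ω : Type} [Fintype Ω] {L : Lev} (S : Sys L Ω) (a : ℕ) (y : (ℕ → Ω) → P)
    (ω : ℕ → Ω) : Con fun G : P → ℝ => S.X a (fun ω' => G (y ω')) ω :=
  ⟨fun _ _ _ _ hG => S.abs_X_sub_le a (fun _ => hG _) ω, by simp only [X_const]⟩

theorem exists_finAvg {Ω : Type} [Fintype Ω] {L : Lev} (S : Sys L Ω) (c : ℕ) (ω : ℕ → Ω) :
    ∃ (J : Type) (_ : Fintype J) (w : J → ℝ) (z : J → ℕ → Ω),
      ∀ f, S.E c f ω = ∑ j, w j * f (z j) := by
  induction c using down_ind L.T generalizing ω with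
  | h1 c hc => exact ⟨Unit, inferInstance, fun _ => 1, fun _ => ω, fun f => by simp [S.E_of_le hc]⟩
  | h2 c hc ih =>
    choose J hJ w z h using ih
    refine ⟨Σ x : Ω, J (update ω c x), inferInstance,
      fun y => S.w c (update ω c y.1) * w _ y.2, fun y => z _ y.2, fun f => ?_⟩
    rw [S.E_of_lt hc, P_apply, Fintype.sum_sigma]
    simp only [h, mul_sum, mul_assoc]

variable {p : ℕ}

/-- families of test functions depending on the data -/
structure NiceG {Lab : ℕ → Type} (G : ∀ k, (Fin k → Inter p) → ℝ → (Lab k → Bool) → ℝ) : Prop where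
  cont : ∀ k x, Continuous fun z : (Fin k → Inter p) × ℝ => G k z.1 z.2 x
  le : ∀ k θs h x, |G k θs h x| ≤ nrm θs h

theorem nrm_nonneg {k : ℕ} (θs : Fin k → Inter p) (h : ℝ) : 0 ≤ nrm θs h :=
  add_nonneg (abs_nonneg _) (sum_nonneg fun _ _ => norm_nonneg _)

theorem NiceG.nice {Lab : ℕ → Type} [∀ k, Fintype (Lab k)] [∀ k, DecidableEq (Lab k)]
    {G : ∀ k, (Fin k → Inter p) → ℝ → (Lab k → Bool) → ℝ} (hG : NiceG G)
    {Φ : ∀ k, ((Lab k → Bool) → ℝ) → ℝ} (hΦ : ∀ k, Con (Φ k)) :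
    Nice fun k θs h => Φ k (G k θs h) :=
  ⟨fun k => (hΦ k).continuous.comp (continuous_pi (hG.cont k)),
    fun k θs h => (hΦ k).abs_le (nrm_nonneg _ _) (hG.le k θs h)⟩

/-- fill the last argument -/
def snocB {α : Type} (p : ℕ) (x : Fin (p - 1) → α) (e : α) : Fin p → α :=
  fun ℓ => if h : ℓ.val < p - 1 then x ⟨ℓ.val, h⟩ else e

/-- the site test function -/
noncomputable def Gsite (k : ℕ) (θs : Fin k → Inter p) (h : ℝ) (x : Fin k × Fin (p - 1) → Bool) :
    ℝ :=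
  Real.log ((1 / 2) * ∑ ε : Bool,
    Real.exp (h * spinVal ε + ∑ j, θs j (snocB p (fun ℓ => x (j, ℓ)) ε)))

/-- the edge test function -/
noncomputable def Gedge (k : ℕ) (θs : Fin k → Inter p) (_h : ℝ) (x : Fin k × Fin p → Bool) : ℝ :=
  ∑ j, θs j (fun ℓ => x (j, ℓ))

theorem abs_spinVal (b : Bool) : |spinVal b| = 1 := by cases b <;> simp [spinVal]

theorem niceG_site : NiceG (Lab := fun k => Fin k × Fin (p - 1)) (Gsite (p := p)) := by
  refine ⟨fun k x => ?_, fun k θs h x => ?_⟩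
  · unfold Gsite
    refine Continuous.log (by fun_prop) fun z => ne_of_gt ?_
    exact mul_pos (by norm_num) (sum_pos (fun _ _ => Real.exp_pos _) univ_nonempty)
  · have hb : ∀ ε, |h * spinVal ε + ∑ j, θs j (snocB p (fun ℓ => x (j, ℓ)) ε)| ≤ nrm θs h := by
      intro ε
      refine (abs_add_le _ _).trans (add_le_add ?_ ?_)
      · rw [abs_mul, abs_spinVal, mul_one]
      · exact (abs_sum_le_sum_abs _ _).trans (sum_le_sum fun j _ => norm_le_pi_norm (θs j) _)
    unfold Gsite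
    rw [Fintype.sum_bool, abs_le]
    have h1 := Real.exp_le_exp.2 (abs_le.1 (hb true)).1
    have h2 := Real.exp_le_exp.2 (abs_le.1 (hb true)).2
    have h3 := Real.exp_le_exp.2 (abs_le.1 (hb false)).1
    have h4 := Real.exp_le_exp.2 (abs_le.1 (hb false)).2
    constructor
    · rw [Real.le_log_iff_exp_le (by positivity)]; linarith
    · rw [Real.log_le_iff_le_exp (by positivity)]; linarith

theorem niceG_edge : NiceG (Lab := fun k => Fin k × Fin p) (Gedge (p := p)) := by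
  refine ⟨fun k x => ?_, fun k θs h x => ?_⟩
  · unfold Gedge; fun_prop
  · refine le_trans ?_ (le_add_of_nonneg_left (abs_nonneg h))
    exact (abs_sum_le_sum_abs _ _).trans (sum_le_sum fun j _ => norm_le_pi_norm (θs j) _)

theorem tilt_pos (x : ℝ) (b : Bool) : 0 < tilt x b :=
  div_pos (Real.exp_pos _) (mul_pos two_pos (Real.cosh_pos x))

theorem exists_tilt {a b : ℝ} (ha : 0 < a) (hb : 0 < b) (hab : a + b = 1) :
    ∃ x, tilt x true = a ∧ tilt x false = b := by
  obtain ⟨t, ht, h⟩ : ∃ t : ℝ, 0 < t ∧ t * t * b = a :=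
    ⟨Real.sqrt (a / b), Real.sqrt_pos.2 (by positivity), by
      rw [Real.mul_self_sqrt (by positivity)]; field_simp⟩
  refine ⟨Real.log t, ?_, ?_⟩
  · simp only [ProbabilityR.Diluted.tilt, spinVal, if_true, mul_one, Real.cosh_eq, Real.exp_neg, Real.exp_log ht]
    field_simp
    have : a = 1 - b := by linarith
    nlinarith
  · simp only [ProbabilityR.Diluted.tilt, spinVal, Bool.false_eq_true, if_false, mul_neg, mul_one, Real.cosh_eq,
      Real.exp_neg, Real.exp_log ht]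
    field_simp
    nlinarith

theorem sum_exp_Gsite (k : ℕ) (θs : Fin k → Inter p) (h : ℝ) (m : Fin k × Fin (p - 1) → ℝ) :
    ∑ x : Fin k × Fin (p - 1) → Bool, Real.exp (Gsite k θs h x) * ∏ s, tilt (m s) (x s) =
      siteTerm h θs (fun j ℓ => m (j, ℓ)) := by
  have h1 : ∀ x, Real.exp (Gsite k θs h x) = (1 / 2) * ∑ ε : Bool,
      Real.exp (h * spinVal ε + ∑ j, θs j (snocB p (fun ℓ => x (j, ℓ)) ε)) := fun x =>
    Real.exp_log (mul_pos (by norm_num) (sum_pos (fun _ _ => Real.exp_pos _) univ_nonempty))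
  simp only [h1, siteTerm, mul_assoc, ← mul_sum]
  congr 1
  simp only [sum_mul]
  rw [sum_comm]
  refine sum_congr rfl fun ε _ => ?_
  simp only [Real.exp_add, mul_assoc, ← mul_sum, Real.exp_sum]
  congr 1
  have h2 : ∀ j, Real.exp (siteMessage (θs j) (fun ℓ => m (j, ℓ)) ε) =
      ∑ s' : Fin (p - 1) → Bool, Real.exp (θs j (snocB p s' ε)) * ∏ ℓ, tilt (m (j, ℓ)) (s' ℓ) :=
    fun j => Real.exp_log (sum_pos (fun _ _ => mul_pos (Real.exp_pos _)
      (prod_pos fun _ _ => tilt_pos _ _)) univ_nonempty)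
  simp only [h2]
  rw [Finset.prod_univ_sum (fun _ => univ), Fintype.piFinset_univ,
    ← Equiv.sum_comp (Equiv.curry (Fin k) (Fin (p - 1)) Bool)]
  refine sum_congr rfl fun x _ => ?_
  rw [Fintype.prod_prod_type, ← prod_mul_distrib]
  rfl

theorem siteTerm_pos {k : ℕ} (θs : Fin k → Inter p) (h : ℝ) (x : Fin k → Fin (p - 1) → ℝ) :
    0 < siteTerm h θs x :=
  mul_pos (by norm_num) (sum_pos (fun _ _ => Real.exp_pos _) univ_nonempty)

theorem edgeTerm_pos (θ : Inter p) (x : Fin p → ℝ) : 0 < edgeTerm θ x :=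
  sum_pos (fun _ _ => mul_pos (Real.exp_pos _) (prod_pos fun _ _ => tilt_pos _ _)) univ_nonempty

section JP
variable {L : Lev} {Ω I Lab : Type} [Fintype Ω] [Fintype Lab] [DecidableEq Lab]
  (S : Sys L Ω) (sp : I → (ℕ → Ω) → Bool)

/-- joint recursion -/
noncomputable def JX (a : ℕ) (i : Lab → I) (G : (Lab → Bool) → ℝ) : Fn Ω :=
  S.X a (fun ω' => G fun s => sp (i s) ω')

/-- product recursion -/
noncomputable def PX (a : ℕ) (i : Lab → I) (G : (Lab → Bool) → ℝ) : Fn Ω := fun ω =>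
  (Sys.pi fun _ : Lab => S).X a
    (fun ω' => G fun s => sp (i s) (pmap (fun _ x => x s) ω')) (fun j _ => ω j)

omit [Fintype Lab] [DecidableEq Lab] in
theorem con_JX (a : ℕ) (i : Lab → I) (ω : ℕ → Ω) : Con fun G => JX S sp a i G ω := con_X _ _ _ _

theorem con_PX (a : ℕ) (i : Lab → I) (ω : ℕ → Ω) : Con fun G => PX S sp a i G ω := con_X _ _ _ _

theorem pi_X_last (msg : I → (ℕ → Ω) → ℝ)
    (hmsg : ∀ i b ω, S.E (L.T - 1) (fun ω' => if sp i ω' = b then 1 else 0) ω = tilt (msg i ω) b)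
    (i : Lab → I) (G : (Lab → Bool) → ℝ) :
    (Sys.pi fun _ : Lab => S).X (L.T - 1)
        (fun ω' => G fun s => sp (i s) (pmap (fun _ x => x s) ω')) =
      fun ω' => Real.log (∑ x : Lab → Bool, Real.exp (G x) *
        ∏ s, tilt (msg (i s) (pmap (fun _ x => x s) ω')) (x s)) := by
  ext ω
  rw [X_last]
  congr 1
  have h1 : (fun ω' : ℕ → Lab → Ω => Real.exp (G fun s => sp (i s) (pmap (fun _ x => x s) ω'))) =
      fun ω' => ∑ x : Lab → Bool, Real.exp (G x) *
        ∏ s, (if sp (i s) (pmap (fun _ x => x s) ω') = x s then (1 : ℝ) else 0) := by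
    ext ω'
    rw [sum_eq_single (fun s => sp (i s) (pmap (fun _ x => x s) ω'))]
    · simp
    · intro x _ hx
      obtain ⟨s, hs⟩ := Function.ne_iff.1 hx
      rw [prod_eq_zero (mem_univ s) (if_neg (Ne.symm hs)), mul_zero]
    · simp
  rw [h1, E_sum_apply]
  refine sum_congr rfl fun x _ => ?_
  rw [E_const_mul]
  congr 1
  have := congrFun ((isPi_pi fun _ : Lab => S).E (L.T - 1)
    (fun s ω' => if sp (i s) ω' = x s then (1 : ℝ) else 0)) ω
  rw [this]
  simp only [hmsg]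

theorem PX_edge (a k : ℕ) (i : Fin k × Fin p → I) (θs : Fin k → Inter p) (h : ℝ) (ω : ℕ → Ω) :
    PX S sp a i (Gedge k θs h) ω = ∑ j, PX S sp a (fun ℓ => i (j, ℓ)) (θs j) ω :=
  congrFun ((isPi_pi_curry fun _ : Fin k × Fin p => S).X a
    (fun j (ω'' : ℕ → Fin p → Ω) => θs j fun ℓ =>
      sp (i (j, ℓ)) (pmap (fun _ (x : Fin p → Ω) => x ℓ) ω''))) (fun j _ => ω j)

theorem avg_PX_edge [Fintype I] [Nonempty I] (a k : ℕ) (θs : Fin k → Inter p) (h : ℝ)
    (ω : ℕ → Ω) : avg (fun i : Fin k × Fin p → I => PX S sp a i (Gedge k θs h) ω) =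
      ∑ j, avg fun i : Fin p → I => PX S sp a i (θs j) ω := by
  simp only [PX_edge]
  rw [avg_sum]
  refine sum_congr rfl fun j _ => ?_
  rw [← avg_equiv (Equiv.curry (Fin k) (Fin p) I).symm]
  exact avg_pi_eval j (fun i : Fin p → I => PX S sp a i (θs j) ω)
end JP

end Cav
end Crest.Agent.R141
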