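import Crest.Agent.R141.TreeDefs

/-! Row 141: the power means of the trial map of a finite system are the finite recursion. -/

set_option autoImplicit false
open Finset Function MeasureTheory Crest.ProbabilityR.Diluted

namespace Crest.Agent.R141
open Sys

theorem measurable_pick_fun {U Ω : Type} [MeasurableSpace U] [Fintype Ω] (f : U → Ω)
    (hf : ∀ x, MeasurableSet (f ⁻¹' {x})) (G : Ω → U → ℝ) (hG : ∀ x, Measurable (G x)) :
    Measurable fun u => G (f u) u := by
  classical
  have : (fun u => G (f u) u) = fun u => ∑ x, (f ⁻¹' {x}).indicator (G x) u := by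
    funext u
    simp [Set.indicator]
  rw [this]
  exact Finset.measurable_sum _ fun x _ => (hG x).indicator (hf x)

theorem measurable_fillPath {U Ω : Type} [MeasurableSpace U] [Fintype Ω]
    (φ : ℕ → (ℕ → Ω) → unitInterval → Ω) (h : ∀ j ω x, MeasurableSet (φ j ω ⁻¹' {x})) (a : ℕ)
    (ω : ℕ → Ω) (e : U → ℕ → unitInterval) (he : ∀ j, Measurable fun u => e u j) (d : ℕ)
    (G : (ℕ → Ω) → U → ℝ) (hG : ∀ w, Measurable (G w)) :
    Measurable fun u => G (fillPath φ a ω (e u) d) u := by
  induction d generalizing G with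
  | zero => exact hG ω
  | succ d ih =>
    exact ih (fun w u => G (update w (a + d) (φ (a + d) w (e u (d + 1)))) u) fun w =>
      measurable_pick_fun (fun u => φ (a + d) w (e u (d + 1))) (fun x => he (d + 1) (h _ w x))
        (fun x => G (update w (a + d) x)) fun _ => hG _

theorem measurable_trialOf {Ω Ω₀ : Type} [Fintype Ω] [Fintype Ω₀] (φ₀ : unitInterval → Ω₀)
    (φ : ℕ → (ℕ → Ω) → unitInterval → Ω) (h₀ : ∀ x, MeasurableSet (φ₀ ⁻¹' {x}))
    (h : ∀ j ω x, MeasurableSet (φ j ω ⁻¹' {x})) (a r : ℕ) (ω : ℕ → Ω) (msg : Ω₀ → (ℕ → Ω) → ℝ) :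
    Measurable (trialOf φ₀ φ a r ω msg) := by
  refine measurable_fillPath φ h a ω
    (fun (u : Fin (r + 1) → unitInterval) d => if h : d < r + 1 then u ⟨d, h⟩ else 0)
    (fun j => ?_) r (fun w u => msg (φ₀ (u 0)) w) fun w => ?_
  · by_cases hj : j < r + 1
    · simp only [dif_pos hj]; exact measurable_pi_apply _
    · simp only [dif_neg hj]; exact measurable_const
  · exact measurable_pick_fun (fun u : Fin (r + 1) → unitInterval => φ₀ (u 0))
      (fun x => (measurable_pi_apply (X := fun _ : Fin (r + 1) => unitInterval) 0) (h₀ x))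
      (fun x _ => msg x w) fun _ => measurable_const

theorem fillPath_congr {Ω : Type} (φ : ℕ → (ℕ → Ω) → unitInterval → Ω) (a : ℕ) (ω : ℕ → Ω)
    {u u' : ℕ → unitInterval} (d : ℕ) (h : ∀ j, j ≤ d → u j = u' j) :
    fillPath φ a ω u d = fillPath φ a ω u' d := by
  induction d with
  | zero => rfl
  | succ d ih => simp only [fillPath, ih fun j hj => h j (by omega), h (d + 1) le_rfl]

theorem glue {L : Lev} {Ω Ω₀ Lab : Type} [Fintype Ω] [Fintype Ω₀] [Fintype Lab] [DecidableEq Lab]
    (S : Sys L Ω) (a r : ℕ) (har : a + r ≤ L.T) (m : Fin r → ℝ) (hm : ∀ d, m d = L.m (a + d))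
    (φ₀ : unitInterval → Ω₀) (φ : ℕ → (ℕ → Ω) → unitInterval → Ω)
    (h₀ : ∀ x, MeasurableSet (φ₀ ⁻¹' {x})) (h : ∀ j ω x, MeasurableSet (φ j ω ⁻¹' {x}))
    (hv₀ : ∀ x, volume (φ₀ ⁻¹' {x}) = ENNReal.ofReal (Fintype.card Ω₀ : ℝ)⁻¹)
    (hv : ∀ j ω x, volume (φ j ω ⁻¹' {x}) = ENNReal.ofReal (S.w j (update ω j x)))
    (ω : ℕ → Ω) (msg : Ω₀ → (ℕ → Ω) → ℝ) (W : (Lab → ℝ) → ℝ) (hW : ∀ x, 0 < W x) :
    ∫ u, Real.log (powerMeans m (fun u' : Lab → Fin (r + 1) → unitInterval =>
        W (fun s => trialOf φ₀ φ a r ω msg (u' s))) u) ∂(uniformArrays Lab r) =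
      (Fintype.card (Lab → Ω₀) : ℝ)⁻¹ * ∑ x₀ : Lab → Ω₀, (Sys.pi fun _ : Lab => S).Xk r a
        (fun ω' => Real.log (W fun s => msg (x₀ s) (pmap (fun _ x => x s) ω'))) (fun j _ => ω j) := by
  set e : (Fin (r + 1) → unitInterval) → ℕ → unitInterval :=
    fun u d => if h : d < r + 1 then u ⟨d, h⟩ else 0 with he
  set V : (Lab → Ω₀) → Fn (Lab → Ω) :=
    fun x₀ ω' => Real.log (W fun s => msg (x₀ s) (pmap (fun _ x => x s) ω')) with hV
  have key : ∀ d, d ≤ r → ((List.finRange r).drop d).foldr (fun d acc => pmStep (m d) d.succ acc)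
      (fun u' : Lab → Fin (r + 1) → unitInterval => W (fun s => trialOf φ₀ φ a r ω msg (u' s))) =
      fun u => Real.exp ((Sys.pi fun _ : Lab => S).Xk (r - d) (a + d) (V fun s => φ₀ (u s 0))
        fun j s => fillPath φ a ω (e (u s)) d j) := by
    intro d
    induction d using down_ind r with
    | h1 d hd =>
      intro hd'
      obtain rfl : d = r := le_antisymm hd' hd
      funext u
      rw [List.drop_of_length_le (by simp), List.foldr_nil, Nat.sub_self, Xk, hV, Real.exp_log (hW _)]
      rfl
    | h2 d hd ih =>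
      intro _
      rw [List.drop_eq_getElem_cons (by simpa using hd), List.foldr_cons, ih hd]
      funext u
      simp only [List.getElem_finRange, Fin.cast_mk, pmStep]
      rw [show r - d = (r - (d + 1)) + 1 by omega, Xk, Q, mul_comm, Real.exp_mul,
        Real.exp_log (P_pos _ (fun _ => Real.exp_pos _) _), hm, P_apply]
      congr 1
      have h1 : ∀ v : Lab → unitInterval, (fun j s => fillPath φ a ω
            (e fun j => if j = (⟨d, hd⟩ : Fin r).succ then v s else u s j) (d + 1) j) =
          update (fun j s => fillPath φ a ω (e (u s)) d j) (a + d)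
            fun s => φ (a + d) (fillPath φ a ω (e (u s)) d) (v s) := by
        intro v
        have h2 : ∀ s, fillPath φ a ω
            (e fun j => if j = (⟨d, hd⟩ : Fin r).succ then v s else u s j) d =
            fillPath φ a ω (e (u s)) d := fun s => fillPath_congr φ a ω d fun j hj => by
          have hj' : j < r + 1 := by omega
          simp only [he, dif_pos hj']
          rw [if_neg]
          simp [Fin.ext_iff]; omega
        funext j s
        have h3 : (e fun j => if j = (⟨d, hd⟩ : Fin r).succ then v s else u s j) (d + 1) = v s := by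
          have hj' : d + 1 < r + 1 := by omega
          simp [he, hd]
        simp only [fillPath, h2, h3]
        by_cases hj : j = a + d
        · subst hj; simp
        · simp [update_of_ne hj]
      simp only [h1, if_neg (Fin.succ_ne_zero _).symm]
      rw [integral_pick_pi (fun s => φ (a + d) (fillPath φ a ω (e (u s)) d))
        (fun s x => S.w (a + d) (update (fillPath φ a ω (e (u s)) d) (a + d) x))
        (fun s x => (S.pos _ _).le) (fun s x => h _ _ x) (fun s x => hv _ _ x)
        (fun x => Real.exp ((Sys.pi fun _ : Lab => S).Xk (r - (d + 1)) (a + (d + 1))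
          (V fun s => φ₀ (u s 0)) (update (fun j s => fillPath φ a ω (e (u s)) d j) (a + d) x)) ^
            L.m (a + d))]
      refine Finset.sum_congr rfl fun x _ => ?_
      rw [← Real.exp_mul, mul_comm _ (L.m _)]
      congr 1
      simp only [Sys.pi, pmap_update]
      rfl
  have k0 := key 0 (Nat.zero_le _)
  rw [List.drop_zero] at k0
  simp only [powerMeans, k0, Real.log_exp, Nat.sub_zero, add_zero, fillPath]
  have hmp : MeasurePreserving (fun (u : Lab → Fin (r + 1) → unitInterval) s => u s 0)
      (uniformArrays Lab r) (Measure.pi fun _ : Lab => (volume : Measure unitInterval)) :=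
    measurePreserving_pi _ _ fun _ => measurePreserving_eval _ 0
  have hF : Measurable fun v : Lab → unitInterval =>
      (Sys.pi fun _ : Lab => S).Xk r a (V fun s => φ₀ (v s)) fun j _ => ω j := by
    refine measurable_pick_fun (fun (v : Lab → unitInterval) s => φ₀ (v s)) (fun x => ?_)
      (fun x _ => (Sys.pi fun _ : Lab => S).Xk r a (V x) fun j _ => ω j) fun _ => measurable_const
    have : (fun (v : Lab → unitInterval) s => φ₀ (v s)) ⁻¹' {x} =
        ⋂ s, (fun v => v s) ⁻¹' (φ₀ ⁻¹' {x s}) := by
      ext v; simp [funext_iff]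
    rw [this]
    exact MeasurableSet.iInter fun s => measurable_pi_apply s (h₀ _)
  rw [← integral_map hmp.measurable.aemeasurable hF.aestronglyMeasurable, hmp.map_eq,
    integral_pick_pi (fun _ => φ₀) (fun _ _ => (Fintype.card Ω₀ : ℝ)⁻¹) (fun _ _ => by positivity)
      (fun _ => h₀) (fun _ => hv₀) fun x => (Sys.pi fun _ : Lab => S).Xk r a (V x) fun j _ => ω j,
    Finset.mul_sum]
  simp [hV]

theorem trialOf_grid (n r : ℕ) [NeZero n] (g : (Fin (r + 1) → Fin n) → ℝ) (ω : ℕ → Fin n) :
    trialOf (grid n) (fun _ _ => grid n) 0 r ω (fun x₀ ω' => g (Fin.cons x₀ fun d : Fin r => ω' d)) =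
      fun u => g (fun j => grid n (u j)) := by
  have key : ∀ (u : ℕ → unitInterval) (d j : ℕ), j < d →
      fillPath (fun _ _ => grid n) 0 ω u d j = grid n (u (j + 1)) := by
    intro u d
    induction d with
    | zero => intro j hj; omega
    | succ d ih =>
      intro j hj
      simp only [fillPath, zero_add]
      by_cases h : j = d
      · subst h; simp
      · rw [update_of_ne h, ih j (by omega)]
  funext u
  simp only [trialOf]
  congr 1
  funext j
  refine Fin.cases rfl (fun d => ?_) j
  rw [Fin.cons_succ, key _ _ _ d.2, dif_pos (by omega)]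
  rfl

end Crest.Agent.R141
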