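import Crest.Agent.R141.CavP
import Crest.Agent.R141.Glue

/-! The product side of the cavity step is a trial functional; exchange lemmas. -/

set_option autoImplicit false
open Finset Function MeasureTheory Crest.ProbabilityR.Diluted

namespace Crest.Agent.R141
namespace Cav
open Sys

variable {p : ℕ} {μ : Measure (Inter p)} {ν : Measure ℝ} [IsProbabilityMeasure μ]
  [IsProbabilityMeasure ν]
  (hμ : Integrable (fun θ : Inter p => ‖θ‖) μ) (hν : Integrable (fun x : ℝ => |x|) ν)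

theorem exists_msg {L : Lev} {Ω I : Type} [Fintype Ω] (S : Sys L Ω) (sp : I → (ℕ → Ω) → Bool)
    (hpos : ∀ i b ω, 0 < S.E (L.T - 1) (fun ω' => if sp i ω' = b then 1 else 0) ω) :
    ∃ msg : I → (ℕ → Ω) → ℝ, ∀ i b ω,
      S.E (L.T - 1) (fun ω' => if sp i ω' = b then 1 else 0) ω = tilt (msg i ω) b := by
  have h : ∀ i ω, ∃ x, tilt x true = S.E (L.T - 1) (fun ω' => if sp i ω' = true then 1 else 0) ω ∧
      tilt x false = S.E (L.T - 1) (fun ω' => if sp i ω' = false then 1 else 0) ω := by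
    intro i ω
    refine exists_tilt (hpos i true ω) (hpos i false ω) ?_
    rw [← E_add_apply]
    have : (fun ω' => (if sp i ω' = true then (1 : ℝ) else 0) +
        if sp i ω' = false then 1 else 0) = fun _ => 1 := by
      ext ω'; cases sp i ω' <;> simp
    rw [this, E_const]
  choose msg h1 h2 using h
  exact ⟨msg, fun i b ω => by cases b; exacts [(h2 i ω).symm, (h1 i ω).symm]⟩

include hμ hν in
theorem EE_edge {L : Lev} {Ω I : Type} [Fintype Ω] [Fintype I] [Nonempty I] (S : Sys L Ω)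
    (sp : I → (ℕ → Ω) → Bool) (a : ℕ) (ω : ℕ → Ω) (l : ℝ) :
    EE μ ν l (fun k θs h => avg fun i : Fin k × Fin p → I => PX S sp a i (Gedge k θs h) ω) =
      l * ∫ θ, avg (fun i : Fin p → I => PX S sp a i θ ω) ∂μ := by
  have hc : Con fun θ : Inter p => avg (fun i : Fin p → I => PX S sp a i θ ω) :=
    Con.avg fun i => con_PX S sp a i ω
  have hi : Integrable (fun θ : Inter p => avg (fun i : Fin p → I => PX S sp a i θ ω)) μ :=
    hμ.mono' hc.continuous.measurable.aestronglyMeasurable (Filter.Eventually.of_forall fun θ =>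
      hc.abs_le (norm_nonneg _) fun x => norm_le_pi_norm θ x)
  have _ := hν
  unfold EE II
  simp only [avg_PX_edge, integral_const, probReal_univ, one_smul]
  rw [← ((hasSum_pw' l).mul_right _).tsum_eq]
  refine tsum_congr fun k => ?_
  rw [integral_pi_sum k hi, mul_assoc]

include hμ hν in
theorem trial_bound {α c : ℝ}
    (hc : ∀ T a r : ℕ, a + r + 1 = T → ∀ X : (Fin (r + 1) → unitInterval) → ℝ, Measurable X →
      c ≤ trialFunctional p α μ ν r (fun d => ((a + d + 1 : ℕ) : ℝ) / T) X)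
    {L : Lev} (hL : L.Unif) {Ω I : Type} [Fintype Ω] [Fintype I] [Nonempty I] (S : Sys L Ω)
    (sp : I → (ℕ → Ω) → Bool)
    (hpos : ∀ i b ω, 0 < S.E (L.T - 1) (fun ω' => if sp i ω' = b then 1 else 0) ω)
    {a : ℕ} (ha : a < L.T) (ω : ℕ → Ω) :
    c ≤ Real.log 2 + EE μ ν (α * p) (fun k θs h =>
        avg fun i : Fin k × Fin (p - 1) → I => PX S sp a i (Gsite k θs h) ω) -
      EE μ ν (α * (p - 1)) (fun k θs h =>
        avg fun i : Fin k × Fin p → I => PX S sp a i (Gedge k θs h) ω) := by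
  obtain ⟨msg, hmsg⟩ := exists_msg S sp hpos
  have hI : (Fintype.card I : ℝ) ≠ 0 := by exact_mod_cast Fintype.card_ne_zero
  obtain ⟨φ₀, h₀, hv₀⟩ := exists_pick (fun _ : I => (Fintype.card I : ℝ)⁻¹)
    (fun _ => by positivity) (by simp [hI])
  choose φ h hv using fun (j : ℕ) (ω : ℕ → Ω) => exists_pick (fun x => S.w j (update ω j x))
    (fun x => (S.pos _ _).le) (S.sum_one j ω)
  set r := L.T - 1 - a with hr
  have hm : ∀ d : Fin r, ((a + d + 1 : ℕ) : ℝ) / L.T = L.m (a + d) := fun d => by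
    rw [hL.m_eq (show a + d < L.T by have := d.2; omega)]; push_cast; rfl
  refine (hc L.T a r (by omega) _ (measurable_trialOf φ₀ φ h₀ h a r ω msg)).trans (le_of_eq ?_)
  rw [EE_edge hμ hν]
  unfold trialFunctional EE II
  have hP : ∀ (Lab : Type) [Fintype Lab] [DecidableEq Lab] (G : (Lab → Bool) → ℝ)
      (W : (Lab → ℝ) → ℝ), (∀ x, 0 < W x) →
      (∀ m : Lab → ℝ, ∑ x : Lab → Bool, Real.exp (G x) * ∏ s, tilt (m s) (x s) = W m) →
      ∫ u, Real.log (powerMeans (fun d : Fin r => ((a + d + 1 : ℕ) : ℝ) / L.T)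
        (fun u' : Lab → Fin (r + 1) → unitInterval =>
          W (fun s => trialOf φ₀ φ a r ω msg (u' s))) u) ∂(uniformArrays Lab r) =
      avg fun i : Lab → I => PX S sp a i G ω := by
    intro Lab _ _ G W hW hG
    rw [glue S a r (by omega) _ hm φ₀ φ h₀ h hv₀ hv ω msg W hW]
    unfold avg PX
    congr 1
    refine sum_congr rfl fun i _ => ?_
    beta_reduce
    rw [X_eq_Xk L _ ha, pi_X_last S sp msg hmsg]
    congr 1
    funext ω'
    rw [hG]
  congr 2
  · refine tsum_congr fun k => ?_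
    congr 1
    refine integral_congr_ae (Filter.Eventually.of_forall fun θs => ?_)
    refine integral_congr_ae (Filter.Eventually.of_forall fun x => ?_)
    exact hP (Fin k × Fin (p - 1)) (Gsite k θs x) (fun m => siteTerm x θs fun j ℓ => m (j, ℓ))
      (fun _ => siteTerm_pos _ _ _) (sum_exp_Gsite k θs x)
  · refine integral_congr_ae (Filter.Eventually.of_forall fun θ => ?_)
    exact hP (Fin p) θ (edgeTerm θ) (edgeTerm_pos θ) (fun _ => rfl)

section Exch
variable {Lab : ℕ → Type} [∀ k, Fintype (Lab k)] [∀ k, DecidableEq (Lab k)]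
  {G : ∀ k, (Fin k → Inter p) → ℝ → (Lab k → Bool) → ℝ} (hG : NiceG G) {l : ℝ} (hl : 0 ≤ l)
include hμ hν hG hl

theorem EE_avg {J : Type} [Fintype J] {Φ : J → ∀ k, ((Lab k → Bool) → ℝ) → ℝ}
    (hΦ : ∀ j k, Con (Φ j k)) :
    EE μ ν l (fun k θs h => avg fun j => Φ j k (G k θs h)) =
      avg fun j => EE μ ν l (fun k θs h => Φ j k (G k θs h)) := by
  rw [EE_sum hμ hν (fun _ : J => (Fintype.card J : ℝ)⁻¹) (fun j => hG.nice (hΦ j))
    (hG.nice (Φ := fun k G => avg fun j => Φ j k G) fun k => Con.avg fun j => hΦ j k)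
    (fun k θs x => by simp only [avg, mul_sum]) hl]
  simp only [avg, mul_sum]

theorem EE_E {L : Lev} {Ω : Type} [Fintype Ω] (S : Sys L Ω) (c : ℕ) (ω₀ : ℕ → Ω)
    {Φ : (ℕ → Ω) → ∀ k, ((Lab k → Bool) → ℝ) → ℝ} (hΦ : ∀ ω k, Con (Φ ω k)) :
    EE μ ν l (fun k θs h => S.E c (fun ω => Φ ω k (G k θs h)) ω₀) =
      S.E c (fun ω => EE μ ν l (fun k θs h => Φ ω k (G k θs h))) ω₀ := by
  obtain ⟨J, _, w, z, h⟩ := exists_finAvg S c ω₀
  rw [EE_sum hμ hν w (fun j => hG.nice (hΦ (z j)))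
    (hG.nice (Φ := fun k G => S.E c (fun ω => Φ ω k G) ω₀) fun k => Con.E S c ω₀ fun ω => hΦ ω k)
    (fun k θs x => h _) hl, h]

/-- comparison of two families of contractions that are close on bounded test functions -/
theorem EE_cmp {Φ Φ' : ∀ k, ((Lab k → Bool) → ℝ) → ℝ} (hΦ : ∀ k, Con (Φ k))
    (hΦ' : ∀ k, Con (Φ' k)) {δ b : ℝ} (hδ : 0 ≤ δ) (hb : 0 ≤ b) (k₀ : ℕ)
    (ht : Summable (fun k : ℕ => poissonWeight l k * if k ≤ k₀ then 0 else 2 * ((k + 1) * b)))
    (h : ∀ k, k ≤ k₀ → ∀ F : (Lab k → Bool) → ℝ, (∀ x, |F x| ≤ (k₀ + 1) * b) →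
      |Φ k F - Φ' k F| ≤ δ) :
    |EE μ ν l (fun k θs h => Φ k (G k θs h)) - EE μ ν l (fun k θs h => Φ' k (G k θs h))| ≤
      δ + 2 * ∫ x, max (|x| - b) 0 ∂ν + l * (2 * ∫ θ, max (‖θ‖ - b) 0 ∂μ) +
        ∑' k : ℕ, poissonWeight l k * (if k ≤ k₀ then 0 else 2 * ((k + 1) * b)) := by
  refine EE_close hμ hν (hG.nice hΦ) (hG.nice hΦ') hl δ b _ ht fun k θs x => ?_
  have h1 := nrm_le b θs x
  have h0 := nrmb_nonneg b θs x
  split_ifs with hk
  · set B : ℝ := (k₀ + 1) * b with hB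
    have hB0 : 0 ≤ B := by positivity
    have hkB : (k + 1) * b ≤ B := by
      have : (k : ℝ) ≤ k₀ := by exact_mod_cast hk
      exact mul_le_mul_of_nonneg_right (by linarith) hb
    let F : (Lab k → Bool) → ℝ := fun y => max (min (G k θs x y) B) (-B)
    have hF : ∀ y, |F y| ≤ B := fun y =>
      abs_le.2 ⟨le_max_right _ _, max_le (min_le_right _ _) (by linarith)⟩
    have hF' : ∀ y, |G k θs x y - F y| ≤ nrmb b θs x := by
      intro y
      have := abs_le.1 (hG.le k θs x y)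
      simp only [F, abs_le, max_def, min_def]
      split_ifs <;> constructor <;> linarith
    have e1 := abs_le.1 ((hΦ k).lip _ _ _ h0 hF')
    have e2 := abs_le.1 ((hΦ' k).lip _ _ _ h0 hF')
    have e3 := abs_le.1 (h k hk F hF)
    rw [abs_le]; constructor <;> linarith
  · have e1 := abs_le.1 ((hΦ k).abs_le (nrm_nonneg θs x) (hG.le k θs x))
    have e2 := abs_le.1 ((hΦ' k).abs_le (nrm_nonneg θs x) (hG.le k θs x))
    rw [abs_le]; constructor <;> linarith
end Exch

end Cav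
end Crest.Agent.R141
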