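import Crest.Agent.R141.Gam

/-! Domination of node errors by `coreErr`, and insensitivity of tree functionals to tilting. -/

set_option autoImplicit false
open Finset Function MeasureTheory Crest.ProbabilityR.Diluted
namespace Crest.Agent.R141
open Sys

/-- the birth level of a node is dominated by `n + 1` uniform levels -/
theorem avg_lev_le {L : Lev} (hL : L.Unif) {n : ℕ} (nd : Finset (Fin n)) (par : Fin n → Fin n)
    (q : Fin n) (Φ : ℕ → (Fin n → ℕ) → ℝ) (h0 : ∀ x J, 0 ≤ Φ x J)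
    (hΦ : ∀ x J u y, u ≤ q → Φ x (update J u y) = Φ x J) :
    (L.T : ℝ)⁻¹ * ∑ a ∈ range L.T, avgJ L (Fin n) (fun J => Φ (lev nd par a J q) J) ≤
      (n + 1) * ((L.T : ℝ)⁻¹ * ∑ x ∈ range L.T, avgJ L (Fin n) (Φ x)) := by
  set τ := (L.T : ℝ)⁻¹ * ∑ x ∈ range L.T, avgJ L (Fin n) (Φ x) with hτ
  have hT : (0 : ℝ) < L.T := by exact_mod_cast L.T_pos
  have hτ0 : 0 ≤ τ := mul_nonneg (by positivity) (sum_nonneg fun x _ => avgJ_nonneg fun J _ => h0 x J)
  have h1 : ∀ u, u ≤ q → avgJ L (Fin n) (fun J => Φ (J u) J) = τ := by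
    intro u hu
    rw [← avgJ_update u, hτ, ← avgJ_sum, ← avgJ_const_mul]
    refine avgJ_congr fun J _ => ?_
    rw [mul_sum]
    refine sum_congr rfl fun x hx => ?_
    rw [update_self, hΦ x J u x hu, hL x (mem_range.1 hx)]
  have h2 : ∀ a, avgJ L (Fin n) (fun J => Φ (lev nd par a J q) J) ≤
      avgJ L (Fin n) (Φ a) + n * τ := by
    intro a
    calc avgJ L (Fin n) (fun J => Φ (lev nd par a J q) J)
        ≤ avgJ L (Fin n) (fun J => Φ a J + ∑ u ∈ univ.filter (· ≤ q), Φ (J u) J) := by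
          refine avgJ_mono fun J _ => ?_
          have h3 : 0 ≤ ∑ u ∈ univ.filter (· ≤ q), Φ (J u) J := sum_nonneg fun u _ => h0 _ _
          rcases lev_eq_or (nd := nd) (par := par) a J q with h | ⟨u, -, hu, h⟩
          · rw [h]; linarith
          · rw [h]
            have := single_le_sum (f := fun u => Φ (J u) J) (fun u _ => h0 (J u) J)
              (mem_filter.2 ⟨mem_univ u, hu⟩ : u ∈ univ.filter (· ≤ q))
            linarith [h0 a J]
      _ = avgJ L (Fin n) (Φ a) + (univ.filter (· ≤ q)).card * τ := by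
          rw [avgJ_add, avgJ_sum, sum_congr rfl fun u hu => h1 u (mem_filter.1 hu).2, sum_const,
            nsmul_eq_mul]
      _ ≤ _ := by
          have : ((univ.filter (· ≤ q)).card : ℝ) ≤ n := by
            exact_mod_cast (card_filter_le _ _).trans (by simp)
          gcongr
  calc _ ≤ (L.T : ℝ)⁻¹ * ∑ a ∈ range L.T, (avgJ L (Fin n) (Φ a) + n * τ) :=
        mul_le_mul_of_nonneg_left (sum_le_sum fun a _ => h2 a) (by positivity)
    _ = (n + 1) * τ := by
        rw [sum_add_distrib, mul_add, ← hτ, sum_const, card_range, nsmul_eq_mul]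
        field_simp
        ring

section
variable {L : Lev} {Ω I : Type} [Fintype Ω] [Fintype I] (S : Sys L Ω) (ω₀ : ℕ → Ω)
  (sp : I → (ℕ → Ω) → Bool)

theorem treeErr_nonneg {n : ℕ} (r : Fin n) (nd : Finset (Fin n)) (par : Fin n → Fin n)
    (e : Fin n → Bool) : 0 ≤ S.treeErr ω₀ sp r nd par e :=
  mul_nonneg (by positivity) (sum_nonneg fun _ _ => avgJ_nonneg fun _ _ => S.N_nonneg _ _ _)

theorem coreErr_nonneg (n k : ℕ) : 0 ≤ S.coreErr ω₀ sp n k :=
  sum_nonneg fun _ _ => sum_nonneg fun _ _ => sum_nonneg fun _ _ => sum_nonneg fun _ _ => by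
    split_ifs
    exacts [treeErr_nonneg S ω₀ sp _ _ _ _, le_rfl]

theorem treeErr_le_coreErr {n k : ℕ} {r : Fin n} {nd : Finset (Fin n)} {par : Fin n → Fin n}
    (hv : Valid r nd par) (hk : nd.card < k) (e : Fin n → Bool) :
    S.treeErr ω₀ sp r nd par e ≤ S.coreErr ω₀ sp n k := by
  have h0 : ∀ (r : Fin n) nd par e,
      0 ≤ if Valid r nd par ∧ nd.card < k then S.treeErr ω₀ sp r nd par e else 0 := by
    intro r nd par e
    split_ifs
    exacts [treeErr_nonneg S ω₀ sp _ _ _ _, le_rfl]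
  unfold Sys.coreErr
  refine le_trans ?_ (single_le_sum (fun r _ => sum_nonneg fun nd _ => sum_nonneg fun par _ =>
    sum_nonneg fun e _ => h0 r nd par e) (mem_univ r))
  refine le_trans ?_ (single_le_sum (fun nd _ => sum_nonneg fun par _ =>
    sum_nonneg fun e _ => h0 r nd par e) (mem_univ nd))
  refine le_trans ?_ (single_le_sum (fun par _ => sum_nonneg fun e _ => h0 r nd par e)
    (mem_univ par))
  refine le_trans ?_ (single_le_sum (fun e _ => h0 r nd par e) (mem_univ e))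
  rw [if_pos ⟨hv, hk⟩]

theorem coreErr_mono (n : ℕ) {k k' : ℕ} (h : k ≤ k') :
    S.coreErr ω₀ sp n k ≤ S.coreErr ω₀ sp n k' := by
  refine sum_le_sum fun r _ => sum_le_sum fun nd _ => sum_le_sum fun par _ =>
    sum_le_sum fun e _ => ?_
  split_ifs with h1 h2
  · exact le_rfl
  · exact absurd ⟨h1.1, h1.2.trans_le h⟩ h2
  · exact treeErr_nonneg S ω₀ sp _ _ _ _
  · exact le_rfl

theorem abs_spinLab_le {Ω I ι : Type} (sp : I → (ℕ → Ω) → Bool) (e : ι → Bool) (i : I) (q : ι)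
    (ω : ℕ → Ω) : |spinLab sp e i q ω| ≤ 1 := by
  unfold spinLab spinVal
  split_ifs <;> simp

end

theorem dom_bound {L : Lev} (hL : L.Unif) {Ω I : Type} [Fintype Ω] [Fintype I] (S : Sys L Ω)
    (ω₀ : ℕ → Ω) (sp : I → (ℕ → Ω) → Bool) {n : ℕ} (r : Fin n) (nd : Finset (Fin n))
    (par : Fin n → Fin n) (hv : Valid r nd par) (e : Fin n → Bool) (q : Fin n) (hq : q ∈ nd) :
    (L.T : ℝ)⁻¹ * ∑ a ∈ range L.T, avgJ L (Fin n) (fun J => S.N ω₀ (lev nd par a J q) fun i =>
      S.gam nd par (lev nd par a J) (spinLab sp e i) q) ≤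
      (n + 1) * S.coreErr ω₀ sp n nd.card := by
  have h := avg_lev_le hL nd par q (fun x J => S.N ω₀ x fun i =>
    S.gam (desc nd par q) par (lev (desc nd par q) par x J) (spinLab sp e i) q)
    (fun x J => S.N_nonneg _ _ _) (fun x J u y hu => by
      rw [lev_congr (par' := par) (J' := J) (fun _ _ => rfl) fun d hd =>
        update_of_ne (hu.trans_lt (lt_of_mem_desc hd)).ne' _ _])
  simp only [← S.gam_desc hv.lt] at h
  exact h.trans (mul_le_mul_of_nonneg_left
    (treeErr_le_coreErr S ω₀ sp (valid_desc hv.lt q) (card_desc_lt hq) e) (by positivity))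

/-- pathwise comparison of the tilted and the untilted tree functional -/
theorem L1_tilt_gam_le {L : Lev} {Ω I ι : Type} [Fintype Ω] [Fintype I] [Fintype ι]
    [LinearOrder ι] (S : Sys L Ω) (ω₀ : ℕ → Ω) {V : Fn Ω} {B : ℝ} (hV : ∀ ω, |V ω| ≤ B)
    {nd : Finset ι} {par : ι → ι} (hv : ∀ d ∈ nd, par d < d) (c : ι → ℕ) (lab : I → ι → Fn Ω)
    (hlab : ∀ i q ω, |lab i q ω| ≤ 1) (r : ι) :
    S.L1 ω₀ (fun i => (S.tilt V).gam nd par c (lab i) r - S.gam nd par c (lab i) r) ≤
      (1 + Real.exp (2 * B)) ^ nd.card * Real.exp (2 * B) *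
        ∑ d ∈ nd, S.N ω₀ (c d) fun i => S.gam nd par c (lab i) d := by
  have hK := Real.exp_pos (2 * B)
  have key : ∀ i, S.E 0 (fun ω => |((S.tilt V).gam nd par c (lab i) r -
      S.gam nd par c (lab i) r) ω|) ω₀ ≤ (1 + Real.exp (2 * B)) ^ nd.card *
      ∑ d ∈ nd, S.E 0 (fun ω => |S.Cov (c d) (S.gam nd par c (lab i) d) (S.rho (c d) V) ω|) ω₀ := by
    intro i
    have h := acc_compare (MonoidHom.id (Fn Ω)) (fun f => S.E 0 (fun ω => |f ω|) ω₀)
      (fun f => S.E_nonneg 0 (fun _ => abs_nonneg _) _)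
      (fun f g => by
        rw [← E_add_apply]
        exact S.E_mono 0 (fun ω => abs_add_le _ _) ω₀)
      (fun u f hu => S.E_mono 0 (fun ω => by
        rw [Pi.mul_apply, abs_mul]
        exact mul_le_of_le_one_left (abs_nonneg _) (hu ω)) ω₀)
      hv (T := fun d f => (S.tilt V).E (c d) f) (T' := fun d f => S.E (c d) f) hK.le
      (fun d _ f g => by
        rw [← map_sub, ← congrFun (S.E_E (Nat.zero_le (c d)) fun ω => |(f - g) ω|) ω₀,
          ← E_const_mul]
        exact S.E_mono 0 (fun ω => ((S.tilt V).abs_E_le _ _ ω).trans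
          (S.tilt_E_le _ hV (fun _ => abs_nonneg _) ω)) ω₀)
      (fun d _ f hf => (S.tilt V).abs_E_le_of_le _ hf)
      (fun f => ∀ ω, |f ω| ≤ 1) (fun _ hf => hf)
      (fun f g hf hg ω => by
        rw [Pi.mul_apply, abs_mul]; exact mul_le_one₀ (hf ω) (abs_nonneg _) (hg ω))
      (fun d _ f hf => S.abs_E_le_of_le _ hf) (hlab i) (hlab i) r
    simp only [MonoidHom.id_apply, sub_self, Pi.zero_apply, abs_zero, E_const, sum_const_zero,
      zero_add] at h
    refine le_trans (le_of_eq ?_) (h.trans (le_of_eq ?_))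
    · exact congrArg (fun f => S.E 0 f ω₀) (funext fun ω => abs_sub_comm _ _)
    · congr 1
      refine sum_congr rfl fun d _ => congrArg (fun f => S.E 0 f ω₀) (funext fun ω => ?_)
      rw [← tilt_E_sub]
      exact abs_sub_comm _ _
  unfold L1
  calc _ ≤ (Fintype.card I : ℝ)⁻¹ * ∑ i, (1 + Real.exp (2 * B)) ^ nd.card *
        ∑ d ∈ nd, S.E 0 (fun ω => |S.Cov (c d) (S.gam nd par c (lab i) d) (S.rho (c d) V) ω|) ω₀ :=
        mul_le_mul_of_nonneg_left (sum_le_sum fun i _ => key i) (by positivity)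
    _ = (1 + Real.exp (2 * B)) ^ nd.card * ∑ d ∈ nd, (Fintype.card I : ℝ)⁻¹ * ∑ i,
        S.E 0 (fun ω => |S.Cov (c d) (S.gam nd par c (lab i) d) (S.rho (c d) V) ω|) ω₀ := by
        rw [← mul_sum, ← mul_sum, sum_comm, mul_left_comm]
    _ ≤ _ := by
        rw [mul_assoc, mul_sum _ _ (Real.exp (2 * B))]
        refine mul_le_mul_of_nonneg_left (sum_le_sum fun d _ => ?_) (by positivity)
        exact S.le_mul_N ω₀ (c d) (fun i => S.gam nd par c (lab i) d) hK fun ω => by
          rw [abs_of_pos (S.rho_pos _ V ω)]; exact S.rho_le _ hV ω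

theorem insens (n : ℕ) (B : ℝ) : ∃ C : ℝ, 0 ≤ C ∧ ∀ (L : Lev), L.Unif →
    ∀ (Ω I : Type) [Fintype Ω] [Fintype I] (S : Sys L Ω) (ω₀ : ℕ → Ω) (sp : I → (ℕ → Ω) → Bool)
      (V : Fn Ω), (∀ ω, |V ω| ≤ B) → ∀ (r : Fin n) (nd : Finset (Fin n)) (par : Fin n → Fin n),
      Valid r nd par → ∀ (e : Fin n → Bool),
    (L.T : ℝ)⁻¹ * ∑ a ∈ range L.T, avgJ L (Fin n) (fun J => S.L1 ω₀ fun i =>
      (S.tilt V).gam nd par (lev nd par a J) (spinLab sp e i) r -
        S.gam nd par (lev nd par a J) (spinLab sp e i) r) ≤ C * S.coreErr ω₀ sp n nd.card := by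
  have hK := Real.exp_pos (2 * B)
  refine ⟨(1 + Real.exp (2 * B)) ^ n * Real.exp (2 * B) * (n * (n + 1)), by positivity, ?_⟩
  intro L hL Ω I _ _ S ω₀ sp V hV r nd par hv e
  have hcard : nd.card ≤ n := (card_le_univ nd).trans (by simp)
  have hc0 := coreErr_nonneg S ω₀ sp n nd.card
  calc _ ≤ (L.T : ℝ)⁻¹ * ∑ a ∈ range L.T, avgJ L (Fin n) (fun J =>
        (1 + Real.exp (2 * B)) ^ n * Real.exp (2 * B) * ∑ d ∈ nd, S.N ω₀ (lev nd par a J d)
          fun i => S.gam nd par (lev nd par a J) (spinLab sp e i) d) := by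
        refine mul_le_mul_of_nonneg_left (sum_le_sum fun a _ => avgJ_mono fun J _ => ?_)
          (by positivity)
        refine (L1_tilt_gam_le S ω₀ hV hv.lt _ _ (abs_spinLab_le sp e) r).trans ?_
        refine mul_le_mul_of_nonneg_right ?_ (sum_nonneg fun _ _ => S.N_nonneg _ _ _)
        exact mul_le_mul_of_nonneg_right (pow_le_pow_right₀ (by linarith) hcard) hK.le
    _ = (1 + Real.exp (2 * B)) ^ n * Real.exp (2 * B) * ∑ d ∈ nd,
        (L.T : ℝ)⁻¹ * ∑ a ∈ range L.T, avgJ L (Fin n) (fun J => S.N ω₀ (lev nd par a J d)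
          fun i => S.gam nd par (lev nd par a J) (spinLab sp e i) d) := by
        simp only [avgJ_const_mul, avgJ_sum]
        rw [← mul_sum, ← mul_sum, sum_comm, mul_left_comm]
    _ ≤ (1 + Real.exp (2 * B)) ^ n * Real.exp (2 * B) *
        ∑ _d ∈ nd, (n + 1) * S.coreErr ω₀ sp n nd.card :=
        mul_le_mul_of_nonneg_left (sum_le_sum fun d hd => dom_bound hL S ω₀ sp r nd par hv e d hd)
          (by positivity)
    _ ≤ _ := by
        rw [sum_const, nsmul_eq_mul, mul_assoc _ (n * (n + 1) : ℝ), mul_assoc (n : ℝ)]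
        have : (nd.card : ℝ) ≤ n := by exact_mod_cast hcard
        gcongr

end Crest.Agent.R141
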