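import Crest.Agent.R141.Replica
import Crest.Agent.R141.Insens
import Crest.Agent.R141.CavA

/-! Joint versus product recursion. -/

set_option autoImplicit false
open Finset Function MeasureTheory Crest.ProbabilityR.Diluted
namespace Crest.Agent.R141
open Sys Cav

namespace Dec

theorem avg_update {K J : Type} [Fintype K] [DecidableEq K] [Fintype J] [Nonempty J] (s : K)
    (F : (K → J) → ℝ) : avg F = avg fun i => avg fun x => F (update i s x) := by
  have h : ∀ (x x' : J) (y : {j // j ≠ s} → J),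
      update ((Equiv.funSplitAt s J).symm (x', y)) s x = (Equiv.funSplitAt s J).symm (x, y) := by
    intro x x' y
    funext j
    by_cases hj : j = s
    · subst hj; simp
    · simp [hj]
  rw [← avg_equiv (Equiv.funSplitAt s J).symm F,
    ← avg_equiv (Equiv.funSplitAt s J).symm (fun i => avg fun x => F (update i s x)), avg_prod,
    avg_prod]
  simp only [h]
  rw [avg_const, avg_comm]

theorem fourier {Lab : Type} [Fintype Lab] [DecidableEq Lab] (Y : (Lab → Bool) → ℝ)
    (hY : ∀ x, |Y x| ≤ 1) : ∃ c : (Lab → Bool) → ℝ, (∀ A, |c A| ≤ 1) ∧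
      ∀ x, Y x = ∑ A, c A * ∏ s, if A s then spinVal (x s) else 1 := by
  refine ⟨fun A => ∑ z, Y z * ∏ s, (1 / 2 : ℝ) * (if A s then spinVal (z s) else 1), fun A => ?_,
    fun x => ?_⟩
  · refine (abs_sum_le_sum_abs _ _).trans ((sum_le_sum (g := fun _ => (1 / 2 : ℝ) ^ Fintype.card Lab)
      fun z _ => ?_).trans (le_of_eq ?_))
    · rw [abs_mul, abs_prod]
      refine (mul_le_of_le_one_left (prod_nonneg fun _ _ => abs_nonneg _) (hY z)).trans
        (le_of_eq ?_)
      rw [← card_univ, ← prod_const]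
      refine prod_congr rfl fun s _ => ?_
      unfold spinVal
      split_ifs <;> norm_num
    · simp
  · simp only [sum_mul]
    rw [sum_comm]
    have h : ∀ z : Lab → Bool, ∑ A : Lab → Bool, (Y z * ∏ s, (1 / 2 : ℝ) *
        (if A s then spinVal (z s) else 1)) * ∏ s, (if A s then spinVal (x s) else 1) =
        Y z * if z = x then 1 else 0 := by
      intro z
      simp only [mul_assoc, ← mul_sum, ← prod_mul_distrib]
      congr 1
      rw [← Fintype.piFinset_univ, ← Finset.prod_univ_sum (fun _ => univ) (fun s (b : Bool) =>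
        (1 / 2 : ℝ) * ((if b then spinVal (z s) else 1) * if b then spinVal (x s) else 1))]
      split_ifs with hz
      · subst hz
        refine prod_eq_one fun s _ => ?_
        cases z s <;> simp [spinVal] <;> norm_num
      · obtain ⟨s, hs⟩ := Function.ne_iff.1 hz
        refine prod_eq_zero (mem_univ s) ?_
        revert hs
        cases z s <;> cases x s <;> simp [spinVal]
    simp only [h]
    simp

variable {L : Lev} {Ω : Type} [Fintype Ω] (S : Sys L Ω)

theorem E_gam_expand {ι A : Type} [Fintype ι] [LinearOrder ι] [Fintype A] [Nonempty A] {r : ι}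
    {nd : Finset ι} {par : ι → ι} (hv : Valid r nd par) (c : ι → ℕ) (a : ℕ) (w : A → ℝ)
    (u : A → Fn Ω) (ω : ℕ → Ω) :
    S.E a (S.gam nd par c (fun _ ω' => ∑ x, w x * u x ω') r) ω =
      ∑ e : ι → A, (∏ q, if q ∈ insert r nd then w (e q) else (Fintype.card A : ℝ)⁻¹) *
        S.E a (S.gam nd par c (fun q => u (e q)) r) ω := by
  obtain ⟨Λ, -, hΛ⟩ := exists_tup S r nd par hv c a ω
  simp only [← hΛ, ← smul_eq_mul, ← map_smul, ← map_sum]
  congr 1
  funext x
  simp only [Finset.sum_apply, Pi.smul_apply, smul_eq_mul]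
  have hA : (Fintype.card A : ℝ) ≠ 0 := by exact_mod_cast Fintype.card_ne_zero
  have h1 : ∀ f : ι → ℝ, ∏ q ∈ insert r nd, f q = ∏ q, if q ∈ insert r nd then f q else 1 :=
    fun f => (Fintype.prod_ite_mem _ f).symm
  simp only [h1, ← prod_mul_distrib]
  rw [← Fintype.piFinset_univ, ← Finset.prod_univ_sum (fun _ => univ) (fun q (y : A) =>
    (if q ∈ insert r nd then w y else (Fintype.card A : ℝ)⁻¹) *
      if q ∈ insert r nd then u y (x q) else 1)]
  refine prod_congr rfl fun q _ => ?_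
  split_ifs
  · rfl
  · simp [hA]

variable {I Lab : Type} [Fintype I] [Nonempty I] [Fintype Lab] [DecidableEq Lab] (ω₀ : ℕ → Ω)

omit [Fintype Ω] in
theorem abs_prod_le_one {κ : Type} (t : Finset κ) {f : κ → Fn Ω} (h : ∀ s ω, |f s ω| ≤ 1)
    (ω : ℕ → Ω) : |(∏ s ∈ t, f s) ω| ≤ 1 := by
  rw [Finset.prod_apply, abs_prod]
  exact prod_le_one (fun _ _ => abs_nonneg _) fun s _ => h s ω

theorem node_err (c : ℕ) (γ : Lab → I → Fn Ω) (hγ : ∀ s i ω, |γ s i ω| ≤ 1) (t : Finset Lab) :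
    avg (fun i : Lab → I => S.E 0 (fun ω => |(∏ s ∈ t, S.E c (γ s (i s)) -
      S.E c (∏ s ∈ t, γ s (i s))) ω|) ω₀) ≤ ∑ s ∈ t, S.N ω₀ c (γ s) := by
  induction t using Finset.induction_on with
  | empty => simp [E_one, E_const, avg]
  | insert s t hs ih =>
    rw [sum_insert hs]
    refine le_trans ?_ (add_le_add (show avg (fun i : Lab → I => S.E 0 (fun ω =>
      |S.Cov c (γ s (i s)) (∏ s' ∈ t, γ s' (i s')) ω|) ω₀) ≤ _ from ?_) ih)
    · rw [← avg_add]
      refine avg_mono fun i => ?_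
      rw [← E_add_apply]
      refine S.E_mono 0 (fun ω => ?_) ω₀
      rw [prod_insert hs, prod_insert hs]
      have h1 : (S.E c (γ s (i s)) * ∏ s ∈ t, S.E c (γ s (i s)) -
          S.E c (γ s (i s) * ∏ s ∈ t, γ s (i s))) ω =
          -S.Cov c (γ s (i s)) (∏ s' ∈ t, γ s' (i s')) ω + S.E c (γ s (i s)) ω *
            (∏ s ∈ t, S.E c (γ s (i s)) - S.E c (∏ s ∈ t, γ s (i s))) ω := by
        simp only [Cov_apply, Pi.sub_apply, Pi.mul_apply]; ring
      rw [h1]
      refine (abs_add_le _ _).trans (add_le_add (abs_neg _).le ?_)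
      rw [abs_mul]
      exact mul_le_of_le_one_left (abs_nonneg _) (S.abs_E_le_of_le c (hγ s _) ω)
    · rw [avg_update s]
      refine avg_le (S.N_nonneg _ _ _) fun i => ?_
      have h2 : ∀ x, ∏ s' ∈ t, γ s' (update i s x s') = ∏ s' ∈ t, γ s' (i s') := fun x =>
        prod_congr rfl fun s' hs' => by rw [update_of_ne (ne_of_mem_of_not_mem hs' hs)]
      simp only [update_self, h2]
      exact S.le_N ω₀ c (γ s) (abs_prod_le_one t fun s' => hγ s' (i s'))

/-- the product over the labels as a monoid homomorphism -/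
def prodHom (Lab Ω : Type) [Fintype Lab] : (Lab → Fn Ω) →* Fn Ω where
  toFun f := ∏ s, f s
  map_one' := by simp
  map_mul' f g := by simp [prod_mul_distrib]

theorem tree_err {ι : Type} [Fintype ι] [LinearOrder ι] {nd : Finset ι} {par : ι → ι}
    (hv : ∀ d ∈ nd, par d < d) (c : ι → ℕ) (lab : Lab → I → ι → Fn Ω)
    (hlab : ∀ s i q ω, |lab s i q ω| ≤ 1) (r : ι) (a : ℕ) :
    avg (fun i : Lab → I => S.E 0 (fun ω => |S.E a (S.gam nd par c (fun q => ∏ s, lab s (i s) q) r) ω -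
      ∏ s, S.E a (S.gam nd par c (lab s (i s)) r) ω|) ω₀) ≤
      ∑ s, (S.N ω₀ a (fun x => S.gam nd par c (lab s x) r) +
        2 ^ nd.card * ∑ d ∈ nd, S.N ω₀ (c d) (fun x => S.gam nd par c (lab s x) d)) := by
  have hE : ∀ (b : ℕ) (f : Fn Ω), S.E 0 (fun ω => |S.E b f ω|) ω₀ ≤ S.E 0 (fun ω => |f ω|) ω₀ :=
    fun b f => (S.E_mono 0 (fun ω => S.abs_E_le b f ω) ω₀).trans
      (le_of_eq (congrFun (S.E_E (Nat.zero_le b) _) ω₀))
  have hadd : ∀ f g : Fn Ω, S.E 0 (fun ω => |(f + g) ω|) ω₀ ≤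
      S.E 0 (fun ω => |f ω|) ω₀ + S.E 0 (fun ω => |g ω|) ω₀ := fun f g => by
    rw [← E_add_apply]
    exact S.E_mono 0 (fun ω => abs_add_le _ _) ω₀
  have key : ∀ i : Lab → I, S.E 0 (fun ω => |(∏ s, S.gam nd par c (lab s (i s)) r -
      S.gam nd par c (fun q => ∏ s, lab s (i s) q) r) ω|) ω₀ ≤ 2 ^ nd.card *
      ∑ d ∈ nd, S.E 0 (fun ω => |(∏ s, S.E (c d) (S.gam nd par c (lab s (i s)) d) -
        S.E (c d) (∏ s, S.gam nd par c (lab s (i s)) d)) ω|) ω₀ := by
    intro i
    have h := acc_compare (prodHom Lab Ω) (fun f => S.E 0 (fun ω => |f ω|) ω₀)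
      (fun f => S.E_nonneg 0 (fun _ => abs_nonneg _) _) hadd
      (fun u f hu => S.E_mono 0 (fun ω => by
        rw [Pi.mul_apply, abs_mul]
        exact mul_le_of_le_one_left (abs_nonneg _) (hu ω)) ω₀)
      hv (T := fun d f => S.E (c d) f) (T' := fun d f s => S.E (c d) (f s)) zero_le_one
      (fun d _ f g => by rw [← map_sub, one_mul]; exact hE _ _)
      (fun d _ f hf => S.abs_E_le_of_le _ hf)
      (fun f => ∀ s ω, |f s ω| ≤ 1) (fun f hf => abs_prod_le_one univ hf)
      (fun f g hf hg s ω => by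
        rw [Pi.mul_apply, Pi.mul_apply, abs_mul]
        exact mul_le_one₀ (hf s ω) (abs_nonneg _) (hg s ω))
      (fun d _ f hf s => S.abs_E_le_of_le _ (hf s))
      (h := fun q => ∏ s, lab s (i s) q) (h' := fun q s => lab s (i s) q)
      (fun q => abs_prod_le_one univ fun s => hlab s (i s) q) (fun q s => hlab s (i s) q) r
    have h2 : ∀ q, acc nd par (fun d (f : Lab → Fn Ω) s => S.E (c d) (f s))
        (fun q s => lab s (i s) q) q = fun s => S.gam nd par c (lab s (i s)) q := fun q =>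
      funext fun s => acc_hom (Pi.evalMonoidHom (fun _ : Lab => Fn Ω) s)
        (T := fun d f => S.E (c d) f) (fun _ _ _ => rfl) _ q
    simp only [h2, prodHom, MonoidHom.coe_mk, OneHom.coe_mk, sub_self, Pi.zero_apply, abs_zero,
      E_const, sum_const_zero, zero_add, one_add_one_eq_two] at h
    exact h
  have hg : ∀ (q : ι) s x ω, |S.gam nd par c (lab s x) q ω| ≤ 1 := fun q s x =>
    S.abs_gam_le nd par c (hlab s x) q
  calc _ ≤ avg (fun i : Lab → I => S.E 0 (fun ω => |(∏ s, S.E a (S.gam nd par c (lab s (i s)) r) -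
          S.E a (∏ s, S.gam nd par c (lab s (i s)) r)) ω|) ω₀ + 2 ^ nd.card *
          ∑ d ∈ nd, S.E 0 (fun ω => |(∏ s, S.E (c d) (S.gam nd par c (lab s (i s)) d) -
            S.E (c d) (∏ s, S.gam nd par c (lab s (i s)) d)) ω|) ω₀) := by
        refine avg_mono fun i => le_trans ?_ (add_le_add le_rfl ((hE a _).trans (key i)))
        refine le_trans (le_of_eq ?_) (hadd _ _)
        refine congrArg (fun f => S.E 0 f ω₀) (funext fun ω => ?_)
        rw [abs_sub_comm, map_sub]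
        simp only [Pi.add_apply, Pi.sub_apply, Finset.prod_apply, sub_add_sub_cancel]
    _ ≤ _ := by
        rw [avg_add, avg_const_mul, avg_sum, sum_add_distrib, ← mul_sum, sum_comm]
        refine add_le_add (node_err S ω₀ a (fun s x => S.gam nd par c (lab s x) r) (hg r) univ)
          (mul_le_mul_of_nonneg_left (sum_le_sum fun d _ => ?_) (by positivity))
        exact node_err S ω₀ (c d) (fun s x => S.gam nd par c (lab s x) d) (hg d) univ

section MM
variable {K : Type} [Fintype K]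

/-- the triple average -/
noncomputable def MM (F : ℕ → K → Fn Ω) : ℝ :=
  (L.T : ℝ)⁻¹ * ∑ a ∈ range L.T, avg fun i => S.E 0 (F a i) ω₀

theorem MM_mono {F F' : ℕ → K → Fn Ω} (h : ∀ a i ω, F a i ω ≤ F' a i ω) :
    MM S ω₀ F ≤ MM S ω₀ F' :=
  mul_le_mul_of_nonneg_left (sum_le_sum fun a _ => avg_mono fun i => S.E_mono 0 (h a i) ω₀)
    (by positivity)

theorem MM_add_const [Nonempty K] (F : ℕ → K → Fn Ω) (x : ℝ) :
    MM S ω₀ (fun a i ω => F a i ω + x) = MM S ω₀ F + x := by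
  have hT : (L.T : ℝ) ≠ 0 := by exact_mod_cast L.T_pos.ne'
  simp only [MM, E_add_apply, E_const, avg_add, avg_const, sum_add_distrib, mul_add, sum_const,
    card_range, nsmul_eq_mul]
  field_simp

theorem MM_sum {κ : Type} (t : Finset κ) (F : κ → ℕ → K → Fn Ω) :
    MM S ω₀ (fun a i ω => ∑ k ∈ t, F k a i ω) = ∑ k ∈ t, MM S ω₀ (F k) := by
  simp only [MM, E_sum_apply, avg_sum, ← mul_sum]
  rw [sum_comm]

theorem MM_const_mul (x : ℝ) (F : ℕ → K → Fn Ω) :
    MM S ω₀ (fun a i ω => x * F a i ω) = x * MM S ω₀ F := by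
  simp only [MM, E_const_mul, avg_const_mul, ← mul_sum]
  ring

theorem MM_avgJ {ι : Type} [Fintype ι] [DecidableEq ι] (F : (ι → ℕ) → ℕ → K → Fn Ω) :
    MM S ω₀ (fun a i ω => avgJ L ι fun J => F J a i ω) =
      (L.T : ℝ)⁻¹ * ∑ a ∈ range L.T, avgJ L ι fun J => avg fun i => S.E 0 (F J a i) ω₀ := by
  simp only [MM, avgJ, E_sum_apply, avg_sum, E_const_mul, avg_const_mul]
end MM

theorem tree_avg (hL : L.Unif) (sp : I → (ℕ → Ω) → Bool) {n : ℕ} {r : Fin n}
    {nd : Finset (Fin n)} {par : Fin n → Fin n} (hv : Valid r nd par) (e : Fin n → Lab → Bool) :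
    MM S ω₀ (fun a (i : Lab → I) ω => avgJ L (Fin n) fun J =>
      |S.E a (S.gam nd par (lev nd par a J)
        (fun q => ∏ s, spinLab sp (fun q => e q s) (i s) q) r) ω -
      ∏ s, S.E a (S.gam nd par (lev nd par a J) (spinLab sp (fun q => e q s) (i s)) r) ω|) ≤
      Fintype.card Lab * (1 + 2 ^ n * (n * (n + 1))) * S.coreErr ω₀ sp n n := by
  have hcard : nd.card < n := by
    have := (card_le_univ (insert r nd))
    rw [card_insert_of_notMem hv.root_notMem, Fintype.card_fin] at this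
    omega
  have hc0 := coreErr_nonneg S ω₀ sp n n
  rw [MM_avgJ]
  calc _ ≤ (L.T : ℝ)⁻¹ * ∑ a ∈ range L.T, avgJ L (Fin n) fun J =>
        ∑ s, (S.N ω₀ a (fun x => S.gam nd par (lev nd par a J) (spinLab sp (fun q => e q s) x) r) +
        2 ^ nd.card * ∑ d ∈ nd, S.N ω₀ (lev nd par a J d)
          (fun x => S.gam nd par (lev nd par a J) (spinLab sp (fun q => e q s) x) d)) :=
        mul_le_mul_of_nonneg_left (sum_le_sum fun a _ => avgJ_mono fun J _ =>
          tree_err S ω₀ hv.lt _ (fun s x => spinLab sp (fun q => e q s) x)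
            (fun s => abs_spinLab_le sp _) r a) (by positivity)
    _ = ∑ s, (S.treeErr ω₀ sp r nd par (fun q => e q s) + 2 ^ nd.card * ∑ d ∈ nd,
          (L.T : ℝ)⁻¹ * ∑ a ∈ range L.T, avgJ L (Fin n) fun J => S.N ω₀ (lev nd par a J d)
          (fun x => S.gam nd par (lev nd par a J) (spinLab sp (fun q => e q s) x) d)) := by
        simp only [avgJ_sum, avgJ_add, avgJ_const_mul, Sys.treeErr]
        rw [sum_comm, mul_sum]
        refine sum_congr rfl fun s _ => ?_
        rw [sum_add_distrib, mul_add, ← mul_sum, ← mul_sum, sum_comm, mul_left_comm]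
    _ ≤ ∑ _s : Lab, (1 + 2 ^ n * (n * (n + 1))) * S.coreErr ω₀ sp n n := by
        refine sum_le_sum fun s _ => ?_
        rw [add_mul, one_mul, mul_assoc]
        refine add_le_add (treeErr_le_coreErr S ω₀ sp hv hcard _) (mul_le_mul
          (pow_le_pow_right₀ one_le_two hcard.le) ?_ (sum_nonneg fun d _ => mul_nonneg
            (by positivity) (sum_nonneg fun _ _ => avgJ_nonneg fun _ _ => S.N_nonneg _ _ _))
          (by positivity))
        refine (sum_le_sum fun d hd => (dom_bound hL S ω₀ sp r nd par hv _ d hd).trans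
          (mul_le_mul_of_nonneg_left (coreErr_mono S ω₀ sp n hcard.le) (by positivity))).trans ?_
        rw [sum_const, nsmul_eq_mul, mul_assoc]
        have : (nd.card : ℝ) ≤ n := by exact_mod_cast hcard.le
        gcongr
    _ = _ := by rw [sum_const, card_univ, nsmul_eq_mul, mul_assoc]

theorem abs_avgJ_le' {ι : Type} [Fintype ι] [DecidableEq ι] (Φ : (ι → ℕ) → ℝ) :
    |avgJ L ι Φ| ≤ avgJ L ι fun J => |Φ J| := by
  refine (abs_sum_le_sum_abs _ _).trans (le_of_eq (sum_congr rfl fun J _ => ?_))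
  rw [abs_mul, abs_of_nonneg (prod_nonneg fun _ _ => L.p_nonneg _)]

theorem rep_err (hL : L.Unif) (sp : I → (ℕ → Ω) → Bool) (Y : (Lab → Bool) → ℝ)
    (hY : ∀ x, |Y x| ≤ 1) (n₀ n : ℕ) :
    MM S ω₀ (fun a (i : Lab → I) ω => |S.rep a n₀ n (fun _ ω' => Y fun s => sp (i s) ω') ω -
      (Sys.pi fun _ : Lab => S).rep a n₀ n
        (fun _ ω' => Y fun s => sp (i s) (pmap (fun _ x => x s) ω')) (fun j _ => ω j)|) ≤
      Fintype.card (Fin (n₀ + 1) → Lab → Bool) * (Fintype.card Lab *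
        (1 + 2 ^ (n₀ + 1) * ((n₀ + 1 : ℕ) * ((n₀ + 1 : ℕ) + 1))) *
        S.coreErr ω₀ sp (n₀ + 1) (n₀ + 1)) := by
  obtain ⟨w, hw, hYw⟩ := fourier Y hY
  set nd := nodes n₀ n
  let D : (Fin (n₀ + 1) → Fin (n₀ + 1)) → (Fin (n₀ + 1) → Lab → Bool) → ℕ → (Lab → I) → Fn Ω :=
    fun par e a i ω => avgJ L (Fin (n₀ + 1)) fun J =>
      |S.E a (S.gam nd par (lev nd par a J)
        (fun q => ∏ s, spinLab sp (fun q => e q s) (i s) q) 0) ω -
      ∏ s, S.E a (S.gam nd par (lev nd par a J) (spinLab sp (fun q => e q s) (i s)) 0) ω|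
  have hk : ∀ par : Fin (n₀ + 1) → Fin (n₀ + 1), 0 ≤ ∏ d, kap d (par d) := fun par =>
    prod_nonneg fun d _ => kap_nonneg _ _
  refine (MM_mono S ω₀ (F' := fun a i ω => ∑ par : Fin (n₀ + 1) → Fin (n₀ + 1),
    (∏ d, kap d (par d)) * ∑ e, D par e a i ω) fun a i ω => ?_).trans ?_
  · unfold Sys.rep
    rw [← sum_sub_distrib]
    refine (abs_sum_le_sum_abs _ _).trans (sum_le_sum fun par _ => ?_)
    rw [← mul_sub, abs_mul, abs_of_nonneg (hk par)]
    by_cases h0 : ∏ d, kap d (par d) = 0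
    · rw [h0, zero_mul, zero_mul]
    have hv := valid_of_kap h0 n
    refine mul_le_mul_of_nonneg_left ?_ (hk par)
    rw [← avgJ_sub, ← avgJ_sum]
    refine (abs_avgJ_le' _).trans (avgJ_mono fun J _ => ?_)
    simp only [hYw]
    rw [E_gam_expand S hv _ a w (fun A ω' => ∏ s, if A s then spinVal (sp (i s) ω') else 1),
      E_gam_expand (Sys.pi fun _ : Lab => S) hv _ a w (fun A ω' => ∏ s,
        if A s then spinVal (sp (i s) (pmap (fun _ x => x s) ω')) else 1), ← sum_sub_distrib]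
    refine (abs_sum_le_sum_abs _ _).trans (sum_le_sum fun e _ => ?_)
    rw [← mul_sub, abs_mul]
    refine (mul_le_of_le_one_left (abs_nonneg _) ?_).trans (le_of_eq ?_)
    · rw [abs_prod]
      refine prod_le_one (fun _ _ => abs_nonneg _) fun q _ => ?_
      split_ifs
      · exact hw _
      · rw [abs_of_nonneg (by positivity)]
        exact inv_le_one_of_one_le₀ (by exact_mod_cast Fintype.card_pos)
    · congr 2
      · refine congrArg (fun h => S.E a (S.gam nd par (lev nd par a J) h 0) ω) ?_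
        funext q ω'
        rw [Finset.prod_apply]
        rfl
      · have h1 := (isPi_pi fun _ : Lab => S).gam nd par (lev nd par a J)
          (fun s => spinLab sp (fun q => e q s) (i s)) 0
        have h2 := (isPi_pi fun _ : Lab => S).E a
          (fun s => S.gam nd par (lev nd par a J) (spinLab sp (fun q => e q s) (i s)) 0)
        rw [← h1] at h2
        exact congrFun h2 (fun j _ => ω j)
  · rw [MM_sum]
    simp only [MM_const_mul, MM_sum]
    refine (sum_le_sum (g := fun par => (∏ d, kap d (par d)) *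
      (Fintype.card (Fin (n₀ + 1) → Lab → Bool) * (Fintype.card Lab *
        (1 + 2 ^ (n₀ + 1) * ((n₀ + 1 : ℕ) * ((n₀ + 1 : ℕ) + 1))) *
        S.coreErr ω₀ sp (n₀ + 1) (n₀ + 1)))) fun par _ => ?_).trans (le_of_eq ?_)
    · by_cases h0 : ∏ d, kap d (par d) = 0
      · rw [h0, zero_mul, zero_mul]
      refine mul_le_mul_of_nonneg_left ?_ (hk par)
      refine (sum_le_sum fun e _ => tree_avg S ω₀ hL sp (valid_of_kap h0 n) e).trans (le_of_eq ?_)
      rw [sum_const, card_univ, nsmul_eq_mul]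
    · rw [← sum_mul, sum_prod_kap, one_mul]

theorem X_G (a : ℕ) {P : Type} (G : P → ℝ) (B : ℝ) (y : (ℕ → Ω) → P) (ω : ℕ → Ω) :
    S.X a (fun ω' => G (y ω')) ω =
      S.X a (fun ω' => Real.log (1 - (1 - Real.exp (G (y ω') - B)))) ω + B := by
  rw [← congrFun (S.X_add_const a _ B) ω]
  simp

end Dec
open Dec

theorem decouple (B ε : ℝ) (hε : 0 < ε) (R : ℕ) : ∃ (n : ℕ) (C : ℝ), 0 ≤ C ∧
    ∀ (L : Lev), L.Unif → ∀ (Ω I Lab : Type) [Fintype Ω] [Fintype I] [Nonempty I] [Fintype Lab]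
      [DecidableEq Lab] (S : Sys L Ω) (ω₀ : ℕ → Ω) (sp : I → (ℕ → Ω) → Bool),
      Fintype.card Lab ≤ R → ∀ (G : (Lab → Bool) → ℝ), (∀ s, |G s| ≤ B) →
      (L.T : ℝ)⁻¹ * ∑ a ∈ range L.T, (Fintype.card (Lab → I) : ℝ)⁻¹ * ∑ i : Lab → I,
        S.E 0 (fun ω => |S.X a (fun ω' => G fun s => sp (i s) ω') ω -
          (Sys.pi fun _ : Lab => S).X a
            (fun ω' => G fun s => sp (i s) (pmap (fun _ x => x s) ω')) (fun j _ => ω j)|) ω₀
        ≤ C * S.coreErr ω₀ sp n n + ε := by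
  set y : ℝ := 1 - Real.exp (-(2 * |B|)) with hy
  have hy0 : 0 ≤ y := sub_nonneg.2 (Real.exp_le_one_iff.2 (by simp))
  have hy1 : y < 1 := sub_lt_self _ (Real.exp_pos _)
  obtain ⟨n₀, hn₀⟩ : ∃ n₀ : ℕ, y ^ (n₀ + 1) / (1 - y) ≤ ε / 2 := by
    obtain ⟨n₀, h⟩ := exists_pow_lt_of_lt_one (show 0 < ε / 2 * (1 - y) by
      have := sub_pos.2 hy1; positivity) hy1
    refine ⟨n₀, ?_⟩
    rw [div_le_iff₀ (sub_pos.2 hy1)]
    exact (pow_le_pow_of_le_one hy0 hy1.le (Nat.le_succ _)).trans h.le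
  refine ⟨n₀ + 1, n₀ * ((2 ^ R) ^ (n₀ + 1) * (R *
    (1 + 2 ^ (n₀ + 1) * ((n₀ + 1 : ℕ) * ((n₀ + 1 : ℕ) + 1))))), by positivity, ?_⟩
  intro L hL Ω I Lab _ _ _ _ _ S ω₀ sp hR G hG
  let Y : (Lab → Bool) → ℝ := fun x => 1 - Real.exp (G x - |B|)
  have hY : ∀ x, |Y x| ≤ y := fun x => by
    have h := abs_le.1 ((hG x).trans (le_abs_self B))
    have h1 : Real.exp (G x - |B|) ≤ 1 := Real.exp_le_one_iff.2 (by linarith)
    have h2 : Real.exp (-(2 * |B|)) ≤ Real.exp (G x - |B|) := Real.exp_le_exp.2 (by linarith)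
    rw [abs_of_nonneg (sub_nonneg.2 h1)]
    linarith
  have hc0 := coreErr_nonneg S ω₀ sp (n₀ + 1) (n₀ + 1)
  refine (MM_mono S ω₀ (F' := fun a (i : Lab → I) ω => ∑ k ∈ range n₀,
    |S.rep a n₀ (k + 1) (fun _ ω' => Y fun s => sp (i s) ω') ω -
      (Sys.pi fun _ : Lab => S).rep a n₀ (k + 1)
        (fun _ ω' => Y fun s => sp (i s) (pmap (fun _ x => x s) ω')) (fun j _ => ω j)| + ε)
    fun a i ω => ?_).trans ?_
  · rw [X_G S a G |B|, X_G (Sys.pi fun _ : Lab => S) a G |B|, add_sub_add_right_eq_sub]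
    have h1 := (X_expand S a (fun ω' => Y fun s => sp (i s) ω') y hy0 hy1 (fun _ => hY _) n₀
      ω).trans hn₀
    have h2 := (X_expand (Sys.pi fun _ : Lab => S) a
      (fun ω' => Y fun s => sp (i s) (pmap (fun _ x => x s) ω')) y hy0 hy1 (fun _ => hY _) n₀
      (fun j _ => ω j)).trans hn₀
    have h3 : |∑ k ∈ range n₀, (1 / (k + 1 : ℝ)) * S.rep a n₀ (k + 1)
        (fun _ ω' => Y fun s => sp (i s) ω') ω - ∑ k ∈ range n₀, (1 / (k + 1 : ℝ)) *
        (Sys.pi fun _ : Lab => S).rep a n₀ (k + 1)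
        (fun _ ω' => Y fun s => sp (i s) (pmap (fun _ x => x s) ω')) (fun j _ => ω j)| ≤
        ∑ k ∈ range n₀, |S.rep a n₀ (k + 1) (fun _ ω' => Y fun s => sp (i s) ω') ω -
        (Sys.pi fun _ : Lab => S).rep a n₀ (k + 1)
        (fun _ ω' => Y fun s => sp (i s) (pmap (fun _ x => x s) ω')) (fun j _ => ω j)| := by
      rw [← sum_sub_distrib]
      refine (abs_sum_le_sum_abs _ _).trans (sum_le_sum fun k _ => ?_)
      rw [← mul_sub, abs_mul]
      refine mul_le_of_le_one_left (abs_nonneg _) ?_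
      rw [abs_of_nonneg (by positivity), div_le_one (by positivity)]
      linarith [(Nat.cast_nonneg k : (0 : ℝ) ≤ k)]
    simp only [Y] at h1 h2 h3 ⊢
    rw [abs_le] at h1 h2 h3 ⊢
    constructor <;> linarith [h1.1, h1.2, h2.1, h2.2, h3.1, h3.2]
  · rw [MM_add_const, MM_sum]
    refine add_le_add ?_ le_rfl
    refine (sum_le_sum fun k _ => rep_err S ω₀ hL sp Y (fun x => (hY x).trans hy1.le) n₀
      (k + 1)).trans ?_
    rw [sum_const, card_range, nsmul_eq_mul, mul_assoc (n₀ : ℝ), mul_assoc ((2 ^ R : ℝ) ^ _)]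
    have h1 : (Fintype.card Lab : ℝ) ≤ R := by exact_mod_cast hR
    have h2 : (Fintype.card (Fin (n₀ + 1) → Lab → Bool) : ℝ) ≤ (2 ^ R) ^ (n₀ + 1) := by
      simp only [Fintype.card_fun, Fintype.card_bool, Fintype.card_fin]
      push_cast
      exact pow_le_pow_left₀ (by positivity) (pow_le_pow_right₀ one_le_two hR) _
    gcongr

end Crest.Agent.R141
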