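import Crest.Agent.R141.CavM
import Crest.Agent.R141.Decouple

/-! The cavity inequality from the hierarchical pinning statement. -/

set_option autoImplicit false
open Finset Function MeasureTheory Crest.ProbabilityR.Diluted
namespace Crest.Agent.R141
open Sys

theorem cavity (hcore : CoreStmt) (p : ℕ) (hp : 1 ≤ p) (α : ℝ) (hα : 0 ≤ α) (μ : Measure (Inter p))
    [IsProbabilityMeasure μ] (ν : Measure ℝ) [IsProbabilityMeasure ν]
    (hμ : Integrable (fun θ => supNorm θ) μ) (hν : Integrable (fun x : ℝ => x) ν) (c : ℝ)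
    (hc : ∀ T a r : ℕ, a + r + 1 = T → ∀ X : (Fin (r + 1) → unitInterval) → ℝ, Measurable X →
      c ≤ trialFunctional p α μ ν r (fun d => ((a + d + 1 : ℕ) : ℝ) / T) X)
    (ε : ℝ) (hε : 0 < ε) : Nonempty (CavityData p α μ hμ ν c ε) :=
  Cav.cavity_of decouple (fun S a _ _ hV ω => abs_X_zero_sub S a hV ω) hcore p hp α hα μ ν hμ hν c
    hc ε hε

end Crest.Agent.R141
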