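import Crest.Agent.R141.Insens

/-! Rounding the birth levels of a replica tree down to a grid. -/

set_option autoImplicit false
open Finset Function MeasureTheory Crest.ProbabilityR.Diluted
namespace Crest.Agent.R141
open Sys

section
variable {L : Lev} {Ω : Type} [Fintype Ω] (S : Sys L Ω) (ω₀ : ℕ → Ω)

theorem E_sq_sub {x y : ℕ} (h : y ≤ x) (g : Fn Ω) :
    S.E 0 ((S.E y g - S.E x g) * (S.E y g - S.E x g)) ω₀ =
      S.E 0 (S.E x g * S.E x g) ω₀ - S.E 0 (S.E y g * S.E y g) ω₀ := by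
  have h1 : S.E 0 (S.E y g * S.E x g) = S.E 0 (S.E y g * S.E y g) := by
    rw [← S.E_E (Nat.zero_le y) (S.E y g * S.E x g), S.E_mul (S.E_meas y g), S.E_E h]
  have h2 : (S.E y g - S.E x g) * (S.E y g - S.E x g) =
      S.E x g * S.E x g + S.E y g * S.E y g - S.E y g * S.E x g - S.E y g * S.E x g := by ring
  rw [h2, map_sub, map_sub, map_add, h1]
  simp only [Pi.sub_apply, Pi.add_apply]
  ring

/-- martingale increments over windows of length `Lb` are small on average -/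
theorem avg_E_round_le {g : Fn Ω} (hg : ∀ ω, |g ω| ≤ 1) {Lb : ℕ} (hLb : 1 ≤ Lb) :
    (L.T : ℝ)⁻¹ * ∑ x ∈ range L.T,
      S.E 0 (fun ω => |(S.E (Lb * (x / Lb)) g - S.E x g) ω|) ω₀ ≤ Real.sqrt (Lb / L.T) := by
  have hT : (0 : ℝ) < L.T := by exact_mod_cast L.T_pos
  set v : ℕ → ℝ := fun x => S.E 0 (S.E x g * S.E x g) ω₀ with hv
  have hmono : ∀ x y, y ≤ x → v y ≤ v x := fun x y h => by
    have h1 := E_sq_sub S ω₀ h g
    have h2 := S.E_nonneg 0 (f := (S.E y g - S.E x g) * (S.E y g - S.E x g))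
      (fun ω => mul_self_nonneg _) ω₀
    simp only [hv]
    linarith
  have hv0 : ∀ x, 0 ≤ v x := fun x => S.E_nonneg 0 (fun ω => mul_self_nonneg _) ω₀
  have hv1 : ∀ x, v x ≤ 1 := fun x => S.E_le 0 (fun ω =>
    abs_le_one_iff_mul_self_le_one.1 (S.abs_E_le_of_le x hg ω)) ω₀
  have h1 : ∀ x, (S.E 0 (fun ω => |(S.E (Lb * (x / Lb)) g - S.E x g) ω|) ω₀) ^ 2 ≤
      v x - v (x - Lb) := by
    intro x
    have h2 := S.E_le_sqrt 0 (f := fun ω => |(S.E (Lb * (x / Lb)) g - S.E x g) ω|)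
      (g := (S.E (Lb * (x / Lb)) g - S.E x g) * (S.E (Lb * (x / Lb)) g - S.E x g))
      (fun ω => by rw [sq_abs, sq]; exact le_rfl) ω₀
    have h3 := pow_le_pow_left₀ (S.E_nonneg 0 (fun _ => abs_nonneg _) ω₀) h2 2
    rw [Real.sq_sqrt (S.E_nonneg 0 (f := (S.E (Lb * (x / Lb)) g - S.E x g) *
        (S.E (Lb * (x / Lb)) g - S.E x g)) (fun ω => mul_self_nonneg _) ω₀),
      E_sq_sub S ω₀ (Nat.mul_div_le x Lb)] at h3
    have h4 : x - Lb ≤ Lb * (x / Lb) := by
      have := Nat.div_add_mod x Lb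
      have := Nat.mod_lt x (show 0 < Lb by omega)
      omega
    have h5 := hmono _ _ h4
    simp only [hv] at h5 ⊢
    linarith
  have h6 : ∑ x ∈ range L.T, (v x - v (x - Lb)) ≤ Lb := by
    have e1 := sum_range_add (fun x => v (x - Lb)) Lb L.T
    have e2 := sum_range_add (fun x => v (x - Lb)) L.T Lb
    simp only [Nat.add_sub_cancel_left] at e1
    have e3 : 0 ≤ ∑ x ∈ range Lb, v (x - Lb) := sum_nonneg fun _ _ => hv0 _
    have e4 : ∑ x ∈ range Lb, v (L.T + x - Lb) ≤ Lb := by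
      calc _ ≤ ∑ _x ∈ range Lb, (1 : ℝ) := sum_le_sum fun _ _ => hv1 _
        _ = Lb := by simp
    rw [add_comm Lb] at e1
    rw [sum_sub_distrib]
    linarith
  refine Real.le_sqrt_of_sq_le ?_
  have h7 := sq_sum_le_card_mul_sum_sq (s := range L.T)
    (f := fun x => S.E 0 (fun ω => |(S.E (Lb * (x / Lb)) g - S.E x g) ω|) ω₀)
  rw [card_range] at h7
  have h8 := (sum_le_sum fun x (_ : x ∈ range L.T) => h1 x).trans h6
  rw [mul_pow]
  calc _ ≤ (L.T : ℝ)⁻¹ ^ 2 * (L.T * Lb) :=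
        mul_le_mul_of_nonneg_left (h7.trans (mul_le_mul_of_nonneg_left h8 hT.le)) (by positivity)
    _ = Lb / L.T := by field_simp

variable {ι : Type} [LinearOrder ι] [WellFoundedLT ι]

/-- the part of the root functional coming from the children in `A`, born at their own levels -/
noncomputable def rootPart (r : ι) (nd : Finset ι) (par : ι → ι) (J : ι → ℕ) (h : ι → Fn Ω)
    (A : Finset ι) : Fn Ω :=
  h r * ∏ d ∈ A, S.E (J d) (S.gam (desc nd par d) par (lev (desc nd par d) par (J d) J) h d)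

omit [Fintype Ω] in
theorem abs_prod_le_one {κ : Type} (s : Finset κ) {F : κ → Fn Ω} (hF : ∀ d ω, |F d ω| ≤ 1)
    (ω : ℕ → Ω) : |(∏ d ∈ s, F d) ω| ≤ 1 := by
  rw [Finset.prod_apply, abs_prod]
  exact prod_le_one (fun _ _ => abs_nonneg _) fun d _ => hF d ω

theorem abs_rootPart_le (r : ι) (nd : Finset ι) (par : ι → ι) (J : ι → ℕ) {h : ι → Fn Ω}
    (hh : ∀ q ω, |h q ω| ≤ 1) (A : Finset ι) (ω : ℕ → Ω) : |rootPart S r nd par J h A ω| ≤ 1 := by
  unfold rootPart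
  rw [Pi.mul_apply, abs_mul]
  exact mul_le_one₀ (hh r ω) (abs_nonneg _)
    (abs_prod_le_one _ (fun d => S.abs_E_le_of_le _ (S.abs_gam_le _ _ _ hh d)) ω)

theorem root_split {r : ι} {nd : Finset ι} {par : ι → ι} (hv : Valid r nd par) (y : ℕ) (J : ι → ℕ)
    {h : ι → Fn Ω} (hh : ∀ q ω, |h q ω| ≤ 1) :
    ∃ (u : Fn Ω) (A : Finset ι), Meas L y u ∧ (∀ ω, |u ω| ≤ 1) ∧
      S.gam nd par (lev nd par y J) h r = u * rootPart S r nd par J h A := by
  have hlev : ∀ d ∈ nd.filter (fun d => par d = r), lev nd par y J d = max y (J d) := by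
    intro d hd
    obtain ⟨h1, h2⟩ := mem_filter.1 hd
    rw [lev_of_mem h1 (hv.lt d h1), h2, lev_of_notMem hv.root_notMem]
  refine ⟨∏ d ∈ (nd.filter (fun d => par d = r)).filter (fun d => J d ≤ y),
    S.E y (S.gam nd par (lev nd par y J) h d),
    (nd.filter (fun d => par d = r)).filter (fun d => ¬ J d ≤ y),
    Meas.prod _ fun d _ => S.E_meas _ _,
    abs_prod_le_one _ fun d => S.abs_E_le_of_le _ (S.abs_gam_le _ _ _ hh d), ?_⟩
  rw [S.gam_unfold hv.lt, ← prod_filter_mul_prod_filter_not _ (fun d => J d ≤ y), rootPart,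
    mul_left_comm]
  congr 1
  · refine prod_congr rfl fun d hd => ?_
    rw [hlev d (mem_filter.1 hd).1, max_eq_left (mem_filter.1 hd).2]
  · congr 1
    refine prod_congr rfl fun d hd => ?_
    rw [S.gam_desc hv.lt, hlev d (mem_filter.1 hd).1,
      max_eq_right (not_le.1 (mem_filter.1 hd).2).le]

theorem avg_root_round_le [Fintype ι] {r : ι} {nd : Finset ι} {par : ι → ι} (hv : Valid r nd par)
    (J : ι → ℕ) {h : ι → Fn Ω} (hh : ∀ q ω, |h q ω| ≤ 1) {Lb : ℕ} (hLb : 1 ≤ Lb) :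
    (L.T : ℝ)⁻¹ * ∑ x ∈ range L.T, S.E 0 (fun ω =>
      |(S.E (Lb * (x / Lb)) (S.gam nd par (lev nd par (Lb * (x / Lb)) J) h r) -
        S.E x (S.gam nd par (lev nd par (Lb * (x / Lb)) J) h r)) ω|) ω₀ ≤
      2 ^ Fintype.card ι * Real.sqrt (Lb / L.T) := by
  calc _ ≤ (L.T : ℝ)⁻¹ * ∑ x ∈ range L.T, ∑ A : Finset ι, S.E 0 (fun ω =>
        |(S.E (Lb * (x / Lb)) (rootPart S r nd par J h A) -
          S.E x (rootPart S r nd par J h A)) ω|) ω₀ := by
        refine mul_le_mul_of_nonneg_left (sum_le_sum fun x _ => ?_) (by positivity)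
        obtain ⟨u, A, hu, hu1, e⟩ := root_split S hv (Lb * (x / Lb)) J hh
        refine le_trans ?_ (single_le_sum (f := fun A => S.E 0 (fun ω =>
          |(S.E (Lb * (x / Lb)) (rootPart S r nd par J h A) -
            S.E x (rootPart S r nd par J h A)) ω|) ω₀)
          (fun _ _ => S.E_nonneg 0 (fun _ => abs_nonneg _) ω₀) (mem_univ A))
        rw [e, S.E_mul hu, S.E_mul (hu.mono (Nat.mul_div_le x Lb)), ← mul_sub]
        refine S.E_mono 0 (fun ω => ?_) ω₀
        rw [Pi.mul_apply, abs_mul]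
        exact mul_le_of_le_one_left (abs_nonneg _) (hu1 ω)
    _ ≤ ∑ _A : Finset ι, Real.sqrt (Lb / L.T) := by
        rw [sum_comm, mul_sum]
        exact sum_le_sum fun A _ => avg_E_round_le S ω₀ (abs_rootPart_le S r nd par J hh A) hLb
    _ = _ := by simp

omit [WellFoundedLT ι] in
theorem gam_levels_compare [Fintype ι] {nd : Finset ι} {par : ι → ι} (hv : ∀ d ∈ nd, par d < d)
    (c c' : ι → ℕ) {h : ι → Fn Ω} (hh : ∀ q ω, |h q ω| ≤ 1) (r : ι) :
    S.E 0 (fun ω => |(S.gam nd par c h r - S.gam nd par c' h r) ω|) ω₀ ≤ 2 ^ nd.card *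
      ∑ d ∈ nd, S.E 0 (fun ω =>
        |(S.E (c' d) (S.gam nd par c' h d) - S.E (c d) (S.gam nd par c' h d)) ω|) ω₀ := by
  have h := acc_compare (MonoidHom.id (Fn Ω)) (fun f => S.E 0 (fun ω => |f ω|) ω₀)
    (fun f => S.E_nonneg 0 (fun _ => abs_nonneg _) _)
    (fun f g => by
      rw [← E_add_apply]
      exact S.E_mono 0 (fun ω => abs_add_le _ _) ω₀)
    (fun u f hu => S.E_mono 0 (fun ω => by
      rw [Pi.mul_apply, abs_mul]
      exact mul_le_of_le_one_left (abs_nonneg _) (hu ω)) ω₀)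
    hv (T := fun d f => S.E (c d) f) (T' := fun d f => S.E (c' d) f) zero_le_one
    (fun d _ f g => by
      rw [← map_sub, ← congrFun (S.E_E (Nat.zero_le (c d)) fun ω => |(f - g) ω|) ω₀, one_mul]
      exact S.E_mono 0 (fun ω => S.abs_E_le _ _ ω) ω₀)
    (fun d _ f hf => S.abs_E_le_of_le _ hf)
    (fun f => ∀ ω, |f ω| ≤ 1) (fun _ hf => hf)
    (fun f g hf hg ω => by
      rw [Pi.mul_apply, abs_mul]; exact mul_le_one₀ (hf ω) (abs_nonneg _) (hg ω))
    (fun d _ f hf => S.abs_E_le_of_le _ hf) hh hh r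
  simp only [MonoidHom.id_apply, sub_self, Pi.zero_apply, abs_zero, E_const, sum_const_zero,
    zero_add, one_add_one_eq_two] at h
  exact le_trans (le_of_eq (congrArg (fun f => S.E 0 f ω₀)
    (funext fun ω => abs_sub_comm _ _))) h

end

theorem round_one {L : Lev} (hL : L.Unif) {Ω : Type} [Fintype Ω] (S : Sys L Ω) (ω₀ : ℕ → Ω)
    {n : ℕ} {r : Fin n} {nd : Finset (Fin n)} {par : Fin n → Fin n} (hv : Valid r nd par)
    {h : Fin n → Fn Ω} (hh : ∀ q ω, |h q ω| ≤ 1) {Lb : ℕ} (hLb : 1 ≤ Lb) :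
    (L.T : ℝ)⁻¹ * ∑ a ∈ range L.T, avgJ L (Fin n) (fun J => S.E 0 (fun ω =>
      |(S.gam nd par (lev nd par a J) h r -
        S.gam nd par (fun q => Lb * (lev nd par a J q / Lb)) h r) ω|) ω₀) ≤
      2 ^ n * (n * ((n + 1) * 2 ^ n)) * Real.sqrt (Lb / L.T) := by
  have hcard : nd.card ≤ n := (card_le_univ nd).trans (by simp)
  have hf : Monotone fun x => Lb * (x / Lb) := fun x y hxy =>
    Nat.mul_le_mul_left _ (Nat.div_le_div_right hxy)
  set Φ : Fin n → ℕ → (Fin n → ℕ) → ℝ := fun d x J => S.E 0 (fun ω =>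
    |(S.E (Lb * (x / Lb)) (S.gam (desc nd par d) par
        (lev (desc nd par d) par (Lb * (x / Lb)) fun q => Lb * (J q / Lb)) h d) -
      S.E x (S.gam (desc nd par d) par
        (lev (desc nd par d) par (Lb * (x / Lb)) fun q => Lb * (J q / Lb)) h d)) ω|) ω₀ with hΦ
  have hΦ0 : ∀ d x J, 0 ≤ Φ d x J := fun d x J => S.E_nonneg 0 (fun _ => abs_nonneg _) ω₀
  have h1 : ∀ d, (L.T : ℝ)⁻¹ * ∑ a ∈ range L.T,
      avgJ L (Fin n) (fun J => Φ d (lev nd par a J d) J) ≤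
      (n + 1) * (2 ^ n * Real.sqrt (Lb / L.T)) := by
    intro d
    refine (avg_lev_le hL nd par d (Φ d) (hΦ0 d) fun x J u y hu => ?_).trans
      (mul_le_mul_of_nonneg_left ?_ (by positivity))
    · simp only [hΦ]
      rw [lev_congr (par' := par) (J' := fun q => Lb * (J q / Lb)) (fun _ _ => rfl) fun q hq => by
        rw [update_of_ne (hu.trans_lt (lt_of_mem_desc hq)).ne']]
    · rw [← avgJ_sum, ← avgJ_const_mul]
      refine avgJ_le fun J _ => ?_
      have := avg_root_round_le S ω₀ (valid_desc hv.lt d) (fun q => Lb * (J q / Lb)) hh hLb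
      rwa [Fintype.card_fin] at this
  calc _ ≤ (L.T : ℝ)⁻¹ * ∑ a ∈ range L.T, avgJ L (Fin n)
        (fun J => 2 ^ n * ∑ d ∈ nd, Φ d (lev nd par a J d) J) := by
        refine mul_le_mul_of_nonneg_left (sum_le_sum fun a _ => avgJ_mono fun J _ => ?_)
          (by positivity)
        refine (gam_levels_compare S ω₀ hv.lt _ _ hh r).trans (mul_le_mul
          (pow_le_pow_right₀ one_le_two hcard) (le_of_eq (sum_congr rfl fun d _ => ?_))
          (sum_nonneg fun _ _ => S.E_nonneg 0 (fun _ => abs_nonneg _) ω₀) (by positivity))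
        have e : (fun q => Lb * (lev nd par a J q / Lb)) =
            lev nd par (Lb * (a / Lb)) fun q => Lb * (J q / Lb) := funext (lev_map hf a J)
        simp only [hΦ]
        rw [e, S.gam_desc hv.lt, ← e]
    _ = 2 ^ n * ∑ d ∈ nd, (L.T : ℝ)⁻¹ * ∑ a ∈ range L.T,
        avgJ L (Fin n) (fun J => Φ d (lev nd par a J d) J) := by
        simp only [avgJ_const_mul, avgJ_sum]
        rw [← mul_sum, ← mul_sum, sum_comm, mul_left_comm]
    _ ≤ 2 ^ n * ∑ _d ∈ nd, (n + 1) * (2 ^ n * Real.sqrt (Lb / L.T)) :=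
        mul_le_mul_of_nonneg_left (sum_le_sum fun d _ => h1 d) (by positivity)
    _ ≤ _ := by
        rw [sum_const, nsmul_eq_mul, mul_assoc ((2 : ℝ) ^ n), mul_assoc (n : ℝ),
          mul_assoc (n + 1 : ℝ)]
        have : (nd.card : ℝ) ≤ n := by exact_mod_cast hcard
        gcongr

theorem round_bound (n : ℕ) : ∃ C : ℝ, 0 ≤ C ∧ ∀ (L : Lev), L.Unif →
    ∀ (Ω I : Type) [Fintype Ω] [Fintype I] (S : Sys L Ω) (ω₀ : ℕ → Ω) (r : Fin n)
      (nd : Finset (Fin n)) (par : Fin n → Fin n), Valid r nd par →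
    ∀ (lab : I → Fin n → Fn Ω), (∀ i q ω, |lab i q ω| ≤ 1) → ∀ Lb : ℕ, 1 ≤ Lb →
    (L.T : ℝ)⁻¹ * ∑ a ∈ range L.T, avgJ L (Fin n) (fun J => S.L1 ω₀ fun i =>
      S.gam nd par (lev nd par a J) (lab i) r -
        S.gam nd par (fun q => Lb * (lev nd par a J q / Lb)) (lab i) r) ≤
      C * Real.sqrt (Lb / L.T) := by
  refine ⟨2 ^ n * (n * ((n + 1) * 2 ^ n)), by positivity, ?_⟩
  intro L hL Ω I _ _ S ω₀ r nd par hv lab hlab Lb hLb
  unfold L1
  simp only [avgJ_const_mul, avgJ_sum]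
  rw [← mul_sum, sum_comm, mul_left_comm, mul_sum _ _ ((L.T : ℝ)⁻¹)]
  rcases isEmpty_or_nonempty I with hI | hI
  · simp only [univ_eq_empty, sum_empty, mul_zero]
    positivity
  · have : (0 : ℝ) < Fintype.card I := by exact_mod_cast Fintype.card_pos
    rw [inv_mul_le_iff₀ this]
    calc _ ≤ ∑ _i : I, 2 ^ n * (n * ((n + 1) * 2 ^ n)) * Real.sqrt (Lb / L.T) :=
          sum_le_sum fun i _ => round_one hL S ω₀ hv (hlab i) hLb
      _ = _ := by simp

end Crest.Agent.R141
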