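import Crest.Agent.R141.Expand
import Crest.Agent.R141.Round

/-! Row 141: from the aggregated coefficient `W` to single trees. -/

set_option autoImplicit false
open Finset Function MeasureTheory Crest.ProbabilityR.Diluted
namespace Crest.Agent.R141
open Sys

namespace Class

section Rigid
variable {L : Lev} {Ω ι : Type} [Fintype Ω] [LinearOrder ι] [WellFoundedLT ι] (S : Sys L Ω)

theorem top_insert_of_lt (nd : Finset ι) {s q : ι} (hq : q < s) (par : ι → ι) (c : ι → ℕ) (b : ℕ) :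
    top (insert s nd) par c b q = top nd par c b q :=
  top_congr' q fun d hd => ⟨by simp [(hd.trans_lt hq).ne], fun _ => ⟨rfl, Iff.rfl⟩⟩

theorem le_iff_exists {r : ι} {nd : Finset ι} {par : ι → ι} (hv : Valid r nd par) {s : ι}
    (hs : s ∈ nd) (c : ι → ℕ) (b : ℕ) :
    b ≤ c s ↔ ∃ s' ∈ insert r nd, s' < s ∧ top nd par c b s = top nd par c b s' := by
  refine ⟨fun h => ⟨par s, hv.par_mem' hs, hv.lt s hs, top_of_le hs (hv.lt s hs) h⟩, ?_⟩
  rintro ⟨s', -, h1, h2⟩
  by_contra h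
  rw [top_of_lt (not_le.1 h)] at h2
  exact absurd (h2 ▸ (top_le c b s').trans_lt h1) (lt_irrefl _)

theorem mul_le_iff {Lb : ℕ} (hLb : 1 ≤ Lb) (j x : ℕ) : Lb * j ≤ x ↔ j ≤ x / Lb := by
  rw [Nat.le_div_iff_mul_le hLb, mul_comm]

/-- two trees with the same clusters at all grid levels have the same rounded functional -/
theorem rigid {r : ι} {nd : Finset ι} {par par' : ι → ι} (hv : Valid r nd par)
    (hv' : Valid r nd par') {c c' : ι → ℕ} {Lb : ℕ} (hLb : 1 ≤ Lb)
    (H : ∀ j, ∀ s ∈ insert r nd, ∀ s' ∈ insert r nd,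
      top nd par c (Lb * j) s = top nd par c (Lb * j) s' ↔
        top nd par' c' (Lb * j) s = top nd par' c' (Lb * j) s') (h : ι → Fn Ω) :
    S.gam nd par (fun q => Lb * (c q / Lb)) h r = S.gam nd par' (fun q => Lb * (c' q / Lb)) h r := by
  induction nd using Finset.induction_on_max generalizing h with
  | empty => simp
  | insert s nd hs ih =>
    have hm := mem_insert_self s nd
    have hm' : s ∈ insert r (insert s nd) := mem_insert_of_mem hm
    have hlt : ∀ q ∈ insert r nd, q < s := fun q hq => by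
      rcases mem_insert.1 hq with rfl | hq
      exacts [(hv s hm).1, hs q hq]
    have hsub : insert r nd ⊆ insert r (insert s nd) := insert_subset_insert _ (subset_insert _ _)
    have e : c s / Lb = c' s / Lb := by
      refine eq_of_forall_le_iff fun j => ?_
      rw [← mul_le_iff hLb, ← mul_le_iff hLb, le_iff_exists hv hm, le_iff_exists hv' hm]
      exact exists_congr fun s' => and_congr_right fun h1 => and_congr_right fun _ => H j s hm' s' h1
    set j := c' s / Lb with hj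
    have t1 : top (insert s nd) par c (Lb * j) s = top (insert s nd) par c (Lb * j) (par s) :=
      top_of_le hm (hv.lt s hm) ((mul_le_iff hLb _ _).2 e.ge)
    have t2 : top (insert s nd) par' c' (Lb * j) s = top (insert s nd) par' c' (Lb * j) (par' s) :=
      top_of_le hm (hv'.lt s hm) ((mul_le_iff hLb _ _).2 le_rfl)
    have t3 := t2.symm.trans ((H j s hm' _ (hsub hv.par_mem)).1 t1)
    rw [top_insert_of_lt _ (hv.lt s hm), top_insert_of_lt _ (hv'.lt s hm)] at t3
    have t4 : ∀ q, top nd par' (fun q => Lb * (c' q / Lb)) (Lb * j) q = top nd par' c' (Lb * j) q :=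
      fun q => top_congr' q fun d _ => ⟨Iff.rfl, fun _ => ⟨rfl, by
        rw [mul_le_iff hLb, mul_le_iff hLb, Nat.mul_div_cancel_left _ hLb]⟩⟩
    rw [S.gam_insert_max hs, S.gam_insert_max hs, ih (hv.of_insert hs) (hv'.of_insert hs)
      (fun j q hq q' hq' => by
        have := H j q (hsub hq) q' (hsub hq')
        simpa only [top_insert_of_lt _ (hlt q hq), top_insert_of_lt _ (hlt q' hq')] using this),
      e, S.gam_move_top (hv'.of_insert hs) _ h (Lb * j) (S.E_meas _ _) (par s),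
      S.gam_move_top (hv'.of_insert hs) _ h (Lb * j) (S.E_meas _ _) (par' s), t4, t4, t3]

/-- the tree with the subtree of `q₀` removed -/
def cut (nd : Finset ι) (par : ι → ι) (q₀ : ι) : Finset ι := nd \ insert q₀ (desc nd par q₀)

theorem cut_par {r : ι} {nd : Finset ι} {par : ι → ι} (hv : Valid r nd par) {q₀ d : ι}
    (hd : d ∈ cut nd par q₀) : par d = r ∨ par d ∈ cut nd par q₀ := by
  obtain ⟨h1, h2⟩ := mem_sdiff.1 hd
  refine (hv d h1).2.2.imp id fun h => mem_sdiff.2 ⟨h, fun h3 => h2 ?_⟩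
  exact mem_insert_of_mem ((mem_desc_iff hv.lt).2 ⟨h1, mem_insert.1 h3⟩)

theorem valid_cut {r : ι} {nd : Finset ι} {par : ι → ι} (hv : Valid r nd par) (q₀ : ι) :
    Valid r (cut nd par q₀) par := fun d hd =>
  ⟨(hv d (mem_sdiff.1 hd).1).1, (hv d (mem_sdiff.1 hd).1).2.1, cut_par hv hd⟩

theorem card_cut_lt {nd : Finset ι} {par : ι → ι} {q₀ : ι} (hq : q₀ ∈ nd) :
    (cut nd par q₀).card < nd.card :=
  card_lt_card ⟨sdiff_subset, fun h => (mem_sdiff.1 (h hq)).2 (mem_insert_self _ _)⟩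

theorem lev_cut {r : ι} {nd : Finset ι} {par : ι → ι} (hv : Valid r nd par) (q₀ : ι) (x : ℕ)
    (J : ι → ℕ) {d : ι} (hd : d ∈ insert r (cut nd par q₀)) :
    lev nd par x J d = lev (cut nd par q₀) par x J d := by
  induction d using WellFoundedLT.induction with
  | ind d ih =>
    rcases mem_insert.1 hd with rfl | hd
    · rw [lev_of_notMem hv.root_notMem, lev_of_notMem (valid_cut hv q₀).root_notMem]
    · have h1 := (mem_sdiff.1 hd).1
      rw [lev_of_mem h1 (hv.lt d h1), lev_of_mem hd (hv.lt d h1),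
        ih _ (hv.lt d h1) (mem_insert.2 (cut_par hv hd))]

theorem mem_cut_of_par {r : ι} {nd : Finset ι} {par : ι → ι} (hv : Valid r nd par) {q₀ d : ι}
    (hd : d ∈ nd) (hne : d ≠ q₀) (hp : par d ∈ insert r (cut nd par q₀)) (hq : q₀ ∈ nd) :
    d ∈ cut nd par q₀ := by
  refine mem_sdiff.2 ⟨hd, fun h => ?_⟩
  have h1 := mem_insert.2 ((mem_desc_iff hv.lt).1 ((mem_insert.1 h).resolve_left hne)).2
  rcases mem_insert.1 hp with h2 | h2
  · rw [h2] at h1
    rcases mem_insert.1 h1 with h3 | h3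
    · exact hv.root_notMem (h3 ▸ hq)
    · exact hv.root_notMem (mem_of_mem_erase (desc_subset _ h3))
  · exact (mem_sdiff.1 h2).2 h1

theorem gam_cut {r : ι} {nd : Finset ι} {par : ι → ι} (hv : Valid r nd par) {q₀ : ι}
    (hq : q₀ ∈ nd) (hp : par q₀ = r) (c : ι → ℕ) (h : ι → Fn Ω) :
    S.gam nd par c h r = S.E (c q₀) (S.gam nd par c h q₀) * S.gam (cut nd par q₀) par c h r := by
  have hv' := valid_cut hv q₀
  have hr : r ∉ cut nd par q₀ := hv'.root_notMem
  have e : (cut nd par q₀).filter (fun d => par d = r) = (nd.filter fun d => par d = r).erase q₀ := by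
    ext d
    simp only [mem_filter, mem_erase]
    constructor
    · rintro ⟨h1, h2⟩
      exact ⟨fun e => (mem_sdiff.1 h1).2 (e ▸ mem_insert_self _ _), (mem_sdiff.1 h1).1, h2⟩
    · rintro ⟨h1, h2, h3⟩
      exact ⟨mem_cut_of_par hv h2 h1 (h3 ▸ mem_insert_self _ _) hq, h3⟩
  rw [S.gam_unfold hv.lt c h r, S.gam_unfold hv'.lt c h r,
    ← mul_prod_erase _ _ (mem_filter.2 ⟨hq, hp⟩ : q₀ ∈ nd.filter fun d => par d = r), ← e,
    mul_left_comm]
  congr 2
  refine prod_congr rfl fun d hd => ?_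
  congr 1
  have key : ∀ q ∈ cut nd par q₀, ∀ d ∈ nd, par d = q → d ∈ cut nd par q₀ := fun q hq' d hd hpd =>
    mem_cut_of_par hv hd (fun e => hr (by rw [← hp, ← congrArg par e, hpd]; exact hq'))
      (hpd ▸ mem_insert_of_mem hq') hq
  refine acc_local hv.lt hv'.lt (fun q => q ∈ cut nd par q₀) (fun q hq' => ⟨?_, rfl,
    fun d hd hpd => ⟨key q hq' d hd hpd, rfl⟩⟩) d (mem_filter.1 hd).1
  ext d
  simp only [mem_filter]
  exact ⟨fun h => ⟨key q hq' d h.1 h.2, h.2⟩, fun h => ⟨(mem_sdiff.1 h.1).1, h.2⟩⟩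

theorem exists_child {r : ι} {nd : Finset ι} {par : ι → ι} (hv : Valid r nd par) (x : ℕ)
    (J : ι → ℕ) {q : ι} (hq : q ∈ nd) (h : lev nd par x J q = x) :
    ∃ q₀ ∈ nd, par q₀ = r ∧ lev nd par x J q₀ = x := by
  induction q using WellFoundedLT.induction with
  | ind q ih =>
    rcases (hv q hq).2.2 with h1 | h1
    · exact ⟨q, hq, h1, h⟩
    · refine ih _ (hv.lt q hq) h1 (le_antisymm ?_ (le_lev _ _ _))
      rw [lev_of_mem hq (hv.lt q hq)] at h
      exact (le_max_left _ _).trans h.le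

end Rigid

section Tie
variable {L : Lev} {Ω I ι : Type} [Fintype Ω] [Fintype I] [LinearOrder ι] [WellFoundedLT ι]
  (S : Sys L Ω) (ω₀ : ℕ → Ω)

/-- splitting into good, tied and near levels -/
theorem N_split [Fintype ι] {r : ι} {nd : Finset ι} {par : ι → ι} (hv : Valid r nd par) (a b Lb : ℕ)
    (hb : b ≤ a + Lb) (J : ι → ℕ) {u : I → ι → Fn Ω} (hu : ∀ i q ω, |u i q ω| ≤ 1) :
    S.N ω₀ a (fun i => S.gam nd par (lev nd par a J) (u i) r) ≤
      (if ∀ q ∈ nd, b ≤ lev nd par a J q then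
        S.N ω₀ a (fun i => S.gam nd par (lev nd par a J) (u i) r) else 0) +
      ∑ q₀ ∈ nd, S.N ω₀ a
        (fun i => S.gam (cut nd par q₀) par (lev (cut nd par q₀) par a J) (u i) r) +
      2 * ∑ d, if a < J d ∧ J d < a + Lb then (1 : ℝ) else 0 := by
  have h1 : 0 ≤ ∑ q₀ ∈ nd, S.N ω₀ a
      (fun i => S.gam (cut nd par q₀) par (lev (cut nd par q₀) par a J) (u i) r) :=
    sum_nonneg fun _ _ => S.N_nonneg _ _ _
  have h0 : ∀ d ∈ (univ : Finset ι), 0 ≤ if a < J d ∧ J d < a + Lb then (1 : ℝ) else 0 :=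
    fun d _ => by split_ifs <;> norm_num
  have h2 := sum_nonneg h0
  split_ifs with hg
  · linarith
  · simp only [not_forall, not_le] at hg
    obtain ⟨q, hq, hlt⟩ := hg
    by_cases ht : lev nd par a J q = a
    · obtain ⟨q₀, hq₀, hp, hl⟩ := exists_child hv a J hq ht
      have h3 : S.N ω₀ a (fun i => S.gam nd par (lev nd par a J) (u i) r) ≤ S.N ω₀ a
          (fun i => S.gam (cut nd par q₀) par (lev (cut nd par q₀) par a J) (u i) r) := by
        refine le_trans (le_of_eq ?_) (S.N_mul_le ω₀ a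
          (fun i => S.E a (S.gam nd par (lev nd par a J) (u i) q₀)) _ (fun i => S.E_meas _ _)
          fun i => S.abs_E_le_of_le _ (S.abs_gam_le _ _ _ (hu i) _))
        congr 1
        funext i
        rw [gam_cut S hv hq₀ hp, hl, S.gam_congr (par' := par) (fun _ _ => rfl)
          fun d hd => lev_cut hv q₀ a J (mem_insert_of_mem hd)]
        rfl
      have h4 := single_le_sum (f := fun q₀ => S.N ω₀ a
        (fun i => S.gam (cut nd par q₀) par (lev (cut nd par q₀) par a J) (u i) r))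
        (fun _ _ => S.N_nonneg _ _ _) hq₀
      linarith
    · obtain ⟨d, -, -, hd⟩ := (lev_eq_or (nd := nd) (par := par) a J q).resolve_left ht
      have h3 := le_lev (nd := nd) (par := par) a J q
      have h4 := single_le_sum h0 (mem_univ d)
      rw [if_pos ⟨by omega, by omega⟩] at h4
      have h5 := S.N_le_two_mul ω₀ a (γ := fun i => S.gam nd par (lev nd par a J) (u i) r)
        zero_le_one fun i => S.abs_gam_le _ _ _ (hu i) _
      linarith

omit [LinearOrder ι] [WellFoundedLT ι] in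
theorem avg_near [Fintype ι] [DecidableEq ι] (hL : L.Unif) (a Lb : ℕ) (d : ι) :
    avgJ L ι (fun J => if a < J d ∧ J d < a + Lb then (1 : ℝ) else 0) ≤ Lb / L.T := by
  rw [← avgJ_update d]
  refine avgJ_le fun J _ => ?_
  simp only [update_self]
  rw [sum_congr rfl fun x hx => by rw [hL x (mem_range.1 hx)], ← mul_sum, sum_boole,
    div_eq_inv_mul]
  refine mul_le_mul_of_nonneg_left ?_ (by positivity)
  have : (range L.T).filter (fun x => a < x ∧ x < a + Lb) ⊆ Ico a (a + Lb) := fun x hx => by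
    have := (mem_filter.1 hx).2
    exact mem_Ico.2 ⟨this.1.le, this.2⟩
  have := card_le_card this
  rw [Nat.card_Ico, Nat.add_sub_cancel_left] at this
  exact_mod_cast this

omit [LinearOrder ι] [WellFoundedLT ι] in
/-- within a class of nearly equal families the seminorm is nearly additive -/
theorem N_class {κ : Type} [Fintype κ] (a : ℕ) (w : κ → ℝ) (hw : ∀ k, 0 ≤ w k)
    (γ γ' : κ → I → Fn Ω) (h : ∀ k k', w k ≠ 0 → w k' ≠ 0 → γ' k = γ' k') :
    ∑ k, w k * S.N ω₀ a (γ k) ≤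
      S.N ω₀ a (∑ k, w k • γ k) + 4 * ∑ k, w k * S.L1 ω₀ (γ k - γ' k) := by
  by_cases h0 : ∀ k, w k = 0
  · simp [h0, S.N_zero]
  obtain ⟨k₀, hk₀⟩ := not_forall.1 h0
  have e1 : ∑ k, w k * S.N ω₀ a (γ' k) = S.N ω₀ a (∑ k, w k • γ' k) := by
    have a1 : ∀ k, w k * S.N ω₀ a (γ' k) = w k * S.N ω₀ a (γ' k₀) := fun k => by
      by_cases hk : w k = 0
      · simp [hk]
      · rw [h k k₀ hk hk₀]
    have a2 : ∀ k, w k • γ' k = w k • γ' k₀ := fun k => by
      by_cases hk : w k = 0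
      · simp [hk]
      · rw [h k k₀ hk hk₀]
    simp only [a1, a2]
    rw [← sum_mul, ← sum_smul, S.N_smul, abs_of_nonneg (sum_nonneg fun k _ => hw k)]
  have e2 : ∑ k, w k • γ' k = ∑ k, w k • γ k + ∑ k, -(w k • (γ k - γ' k)) := by
    rw [← sum_add_distrib]
    exact sum_congr rfl fun k _ => by rw [smul_sub]; abel
  have b1 : ∑ k, w k * S.N ω₀ a (γ k) ≤
      ∑ k, (w k * S.N ω₀ a (γ' k) + 2 * (w k * S.L1 ω₀ (γ k - γ' k))) :=
    sum_le_sum fun k _ => by
      have := mul_le_mul_of_nonneg_left (S.N_le_add_L1 ω₀ a (γ k) (γ' k)) (hw k)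
      linarith
  have b2 : S.N ω₀ a (∑ k, -(w k • (γ k - γ' k))) ≤ ∑ k, 2 * (w k * S.L1 ω₀ (γ k - γ' k)) :=
    (S.N_sum_le ω₀ a _ _).trans (sum_le_sum fun k _ => by
      rw [S.N_neg, S.N_smul, abs_of_nonneg (hw k)]
      have := mul_le_mul_of_nonneg_left (S.N_le_L1 ω₀ a (γ k - γ' k)) (hw k)
      linarith)
  have b3 := S.N_add_le ω₀ a (∑ k, w k • γ k) (∑ k, -(w k • (γ k - γ' k)))
  rw [sum_add_distrib, e1, e2, ← mul_sum] at b1
  rw [← mul_sum] at b2
  linarith

end Tie

theorem exists_lab {Ω I ι : Type} [LinearOrder ι] (sp : I → (ℕ → Ω) → Bool) (e : ι → Bool) (r : ι)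
    (nd : Finset ι) (st : St ι) :
    ∃ e' : ι → Bool, ∀ i, st.lab r nd (spinLab sp e i) = spinLab sp e' i := by
  have key : ∀ X : Finset ι, ∃ b : Bool, ∀ i ω, (∏ s ∈ X, spinLab sp e i s) ω =
      if b then spinVal (sp i ω) else 1 := by
    intro X
    induction X using Finset.induction_on with
    | empty => exact ⟨false, by simp⟩
    | insert s X hs ih =>
      obtain ⟨b, hb⟩ := ih
      refine ⟨xor (e s) b, fun i ω => ?_⟩
      rw [prod_insert hs, Pi.mul_apply, hb, spinLab]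
      cases e s <;> cases b <;> cases sp i ω <;> simp [spinVal]
  choose f hf using key
  exact ⟨fun q => f _, fun i => funext fun q => funext fun ω => hf _ i ω⟩

theorem lab_top {Ω ι : Type} [LinearOrder ι] {r : ι} {nd : Finset ι} {st : St ι}
    (h : ∀ s ∈ insert r nd, st.pl s = s) (u : ι → Fn Ω) {q : ι} (hq : q ∈ insert r nd) :
    st.lab r nd u q = u q := by
  have : (insert r nd).filter (fun s => st.pl s = q) = {q} := by
    ext s
    simp only [mem_filter, mem_singleton]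
    exact ⟨fun hs => (h s hs.1).symm.trans hs.2, fun hs => by rw [hs]; exact ⟨hq, h _ hq⟩⟩
  rw [St.lab, this, prod_singleton]

section Chi
variable {ι : Type} [LinearOrder ι] [WellFoundedLT ι] [Fintype ι] (r : ι) (nd : Finset ι)
  (T Lb : ℕ)

/-- ordered pairs of tree nodes -/
abbrev Pr : Type := {p : ι × ι // p.1 ∈ insert r nd ∧ p.2 ∈ insert r nd ∧ p.1 < p.2}

/-- grid levels -/
def gl (j : ℕ) : ℕ := min (Lb * j) T

variable {r nd}

/-- indicator that a pair is in one cluster at the grid level `j` -/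
noncomputable def ind (st : St ι) (c : ι → ℕ) (p : Pr r nd) (j : ℕ) : ℝ :=
  if top st.nd st.par c (gl T Lb j) (st.pl p.1.1) = top st.nd st.par c (gl T Lb j) (st.pl p.1.2)
  then 1 else 0

/-- indicator of the class `d` -/
noncomputable def chi (d : Pr r nd → ℕ) (st : St ι) (c : ι → ℕ) : ℝ :=
  ∏ p, (ind T Lb st c p (d p) - ind T Lb st c p (d p + 1))

/-- the array of test levels with grid indices `j` -/
def lvOf (j : Pr r nd → ℕ) (s s' : ι) : ℕ :=
  if h : s ∈ insert r nd ∧ s' ∈ insert r nd ∧ s < s' then gl T Lb (j ⟨(s, s'), h⟩) else T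

omit [Fintype ι] in
theorem eq_mono {X : Finset ι} {par : ι → ι} {c : ι → ℕ} {j j' : ℕ} (h : j ≤ j') {x y : ι}
    (e : top X par c (gl T Lb j') x = top X par c (gl T Lb j') y) :
    top X par c (gl T Lb j) x = top X par c (gl T Lb j) y := by
  have hb : gl T Lb j ≤ gl T Lb j' := min_le_min_right _ (Nat.mul_le_mul_left _ h)
  rw [← top_top hb x, e, top_top hb]

omit [Fintype ι] in
theorem ind_sub_mem (st : St ι) (c : ι → ℕ) (p : Pr r nd) {j j' : ℕ} (h : j ≤ j') :
    0 ≤ ind T Lb st c p j - ind T Lb st c p j' ∧ ind T Lb st c p j - ind T Lb st c p j' ≤ 1 := by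
  unfold ind
  split_ifs with h1 h2 h2
  · norm_num
  · norm_num
  · exact absurd (eq_mono T Lb h h2) h1
  · norm_num

theorem chi_nonneg (d : Pr r nd → ℕ) (st : St ι) (c : ι → ℕ) : 0 ≤ chi T Lb d st c :=
  prod_nonneg fun p _ => (ind_sub_mem T Lb st c p (Nat.le_succ _)).1

theorem chi_ne_zero {d : Pr r nd → ℕ} {st : St ι} {c : ι → ℕ} (h : chi T Lb d st c ≠ 0)
    (p : Pr r nd) (j : ℕ) : top st.nd st.par c (gl T Lb j) (st.pl p.1.1) =
      top st.nd st.par c (gl T Lb j) (st.pl p.1.2) ↔ j ≤ d p := by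
  have h1 := prod_ne_zero_iff.1 h p (mem_univ p)
  unfold ind at h1
  split_ifs at h1 with h2 h3 h3
  · simp at h1
  · exact ⟨fun e => not_lt.1 fun hlt => h3 (eq_mono T Lb hlt e), fun hj => eq_mono T Lb hj h2⟩
  · exact absurd (eq_mono T Lb (Nat.le_succ _) h3) h2
  · simp at h1

theorem sum_chi {j₀ j₁ : ℕ} (h : j₀ ≤ j₁) (st : St ι) (c : ι → ℕ) :
    ∑ d ∈ Fintype.piFinset (fun _ : Pr r nd => Ico j₀ j₁), chi T Lb d st c =
      ∏ p : Pr r nd, (ind T Lb st c p j₀ - ind T Lb st c p j₁) := by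
  unfold chi
  rw [← prod_univ_sum (fun _ : Pr r nd => Ico j₀ j₁)
    (fun p j => ind T Lb st c p j - ind T Lb st c p (j + 1))]
  refine prod_congr rfl fun p _ => ?_
  have := sum_Ico_sub (fun j => -ind T Lb st c p j) h
  simp only [neg_sub_neg] at this
  exact this

theorem chi_expand (d : Pr r nd → ℕ) (st : St ι) (c : ι → ℕ) :
    chi T Lb d st c = ∑ A : Pr r nd → Bool, (∏ p, if A p then (-1 : ℝ) else 1) *
      if Tests r nd (lvOf T Lb fun p => d p + if A p then 1 else 0) st c then 1 else 0 := by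
  have e : ∀ j : Pr r nd → ℕ, (if Tests r nd (lvOf T Lb j) st c then (1 : ℝ) else 0) =
      ∏ p, ind T Lb st c p (j p) := by
    intro j
    unfold ind
    rw [Fintype.prod_boole]
    refine if_congr ⟨fun h p => ?_, fun h s hs s' hs' hlt => ?_⟩ rfl rfl
    · have := h _ p.2.1 _ p.2.2.1 p.2.2.2
      rwa [lvOf, dif_pos p.2] at this
    · rw [lvOf, dif_pos ⟨hs, hs', hlt⟩]
      exact h ⟨(s, s'), hs, hs', hlt⟩
  simp only [e, ← prod_mul_distrib]
  rw [← Fintype.prod_sum (fun (p : Pr r nd) (b : Bool) => (if b then (-1 : ℝ) else 1) *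
    ind T Lb st c p (d p + if b then 1 else 0))]
  refine prod_congr rfl fun p _ => ?_
  simp [sub_eq_neg_add]

variable {T Lb}

theorem gam_eq_of_chi {L : Lev} {Ω : Type} [Fintype Ω] (S : Sys L Ω) (hLb : 1 ≤ Lb)
    {d : Pr r nd → ℕ} {st st' : St ι} {c c' : ι → ℕ} (h : chi T Lb d st c ≠ 0)
    (h' : chi T Lb d st' c' ≠ 0) (e : st.nd = nd) (e' : st'.nd = nd) (hv : Valid r st.nd st.par)
    (hv' : Valid r st'.nd st'.par) (hp : ∀ s ∈ insert r nd, st.pl s = s)
    (hp' : ∀ s ∈ insert r nd, st'.pl s = s) (hc : ∀ q, c q < T) (hc' : ∀ q, c' q < T)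
    (u : ι → Fn Ω) :
    S.gam st.nd st.par (fun q => Lb * (c q / Lb)) (st.lab r nd u) r =
      S.gam st'.nd st'.par (fun q => Lb * (c' q / Lb)) (st'.lab r nd u) r := by
  have k := chi_ne_zero T Lb h
  have k' := chi_ne_zero T Lb h'
  rw [e] at hv k ⊢
  rw [e'] at hv' k' ⊢
  have t : ∀ (par : ι → ι) (c : ι → ℕ), (∀ q, c q < T) → ∀ j q,
      top nd par c (Lb * j) q = top nd par c (gl T Lb j) q := fun par c hc j q =>
    top_congr' q fun x _ => ⟨Iff.rfl, fun _ => ⟨rfl, by have := hc x; unfold gl; omega⟩⟩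
  have H : ∀ j, ∀ s ∈ insert r nd, ∀ s' ∈ insert r nd, s < s' →
      (top nd st.par c (Lb * j) s = top nd st.par c (Lb * j) s' ↔
        top nd st'.par c' (Lb * j) s = top nd st'.par c' (Lb * j) s') := by
    intro j s hs s' hs' hlt
    have a := k ⟨(s, s'), hs, hs', hlt⟩ j
    have a' := k' ⟨(s, s'), hs, hs', hlt⟩ j
    simp only [hp s hs, hp s' hs', hp' s hs, hp' s' hs'] at a a'
    rw [t _ c hc, t _ c hc, t _ c' hc', t _ c' hc', a, a']
  rw [S.gam_congr_lab hv _ (fun q hq => lab_top hp u hq) (mem_insert_self _ _),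
    S.gam_congr_lab hv' _ (fun q hq => lab_top hp' u hq) (mem_insert_self _ _)]
  refine rigid S hv hv' hLb (fun j s hs s' hs' => ?_) u
  rcases lt_trichotomy s s' with hlt | rfl | hlt
  · exact H j s hs s' hs' hlt
  · simp
  · rw [eq_comm, H j s' hs' s hs hlt, eq_comm]

omit [WellFoundedLT ι] [Fintype ι] in
theorem lvOf_injOn (hLb : 1 ≤ Lb) (hT : 0 < T) {j j' : Pr r nd → ℕ}
    (h : ∀ p, j p ≤ (T - 1) / Lb + 1) (h' : ∀ p, j' p ≤ (T - 1) / Lb + 1)
    (e : lvOf T Lb j = lvOf T Lb j') : j = j' := by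
  have mono : ∀ x y, x < y → y ≤ (T - 1) / Lb + 1 → gl T Lb x < gl T Lb y := by
    intro x y h1 h2
    have a : Lb * x ≤ T - 1 := (mul_le_iff hLb _ _).2 (by omega)
    have b : Lb * x < Lb * y := Nat.mul_lt_mul_of_pos_left h1 hLb
    unfold gl
    omega
  funext p
  have := congrFun (congrFun e p.1.1) p.1.2
  rw [lvOf, lvOf, dif_pos p.2, dif_pos p.2] at this
  rcases lt_trichotomy (j p) (j' p) with hlt | hlt | hlt
  · exact absurd this (mono _ _ hlt (h' p)).ne
  · exact hlt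
  · exact absurd this (mono _ _ hlt (h p)).ne'

end Chi

theorem lvOf_mem {n T Lb : ℕ} (hLb : 1 ≤ Lb) {r : Fin n} {nd : Finset (Fin n)} {j : Pr r nd → ℕ}
    (h : ∀ p, j p ≤ (T - 1) / Lb + 1) : lvOf T Lb j ∈ gridArr n T Lb := by
  have h1 : (T - 1) / Lb ≤ T / Lb := Nat.div_le_div_right (Nat.sub_le _ _)
  refine Fintype.mem_piFinset.2 fun s => Fintype.mem_piFinset.2 fun s' => ?_
  unfold lvOf
  split_ifs with hp
  · exact mem_image.2 ⟨_, mem_range.2 (by have := h ⟨(s, s'), hp⟩; omega), rfl⟩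
  · exact mem_image.2 ⟨T / Lb + 1, mem_range.2 (by omega),
      min_eq_right (Nat.lt_mul_div_succ T hLb).le⟩

section Main
variable {L : Lev} {Ω I : Type} [Fintype Ω] [Fintype I] (S : Sys L Ω) (ω₀ : ℕ → Ω) {n : ℕ}
  (a : ℕ) (r : Fin n) (nd : Finset (Fin n)) (u : I → Fin n → Fn Ω)

/-- the functional of a state -/
noncomputable def gs (st : St (Fin n)) (J : Fin n → ℕ) (i : I) : Fn Ω :=
  S.gam st.nd st.par (lev st.nd st.par a J) (st.lab r nd (u i)) r

/-- the rounded functional of a state -/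
noncomputable def gr (Lb : ℕ) (st : St (Fin n)) (J : Fin n → ℕ) (i : I) : Fn Ω :=
  S.gam st.nd st.par (fun q => Lb * (lev st.nd st.par a J q / Lb)) (st.lab r nd (u i)) r

/-- the part of `W` coming from the states using all nodes -/
noncomputable def Wtop (lv : Fin n → Fin n → ℕ) : I → Fn Ω :=
  ∑ k : Fin (states r nd).length, if (states r nd)[k.1].nd = nd then
    (fun i => S.Wst a r nd lv (u i) (states r nd)[k.1]) else 0

theorem N_Wst_le (lv : Fin n → Fin n → ℕ) (st : St (Fin n)) :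
    S.N ω₀ a (fun i => S.Wst a r nd lv (u i) st) ≤
      avgJ L (Fin n) fun J => S.N ω₀ a (gs S a r nd u st J) := by
  refine le_trans (le_of_eq ?_) ((S.N_avgJ_le ω₀ a fun J =>
    if Tests r nd lv st (lev st.nd st.par a J) then gs S a r nd u st J else 0).trans
    (avgJ_mono fun J _ => ?_))
  · congr 1
    funext i ω
    refine avgJ_congr fun J _ => ?_
    split_ifs <;> rfl
  · split_ifs
    · exact le_rfl
    · rw [S.N_zero]; exact S.N_nonneg _ _ _

theorem N_Wtop_le (lv : Fin n → Fin n → ℕ) :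
    S.N ω₀ a (Wtop S a r nd u lv) ≤ S.N ω₀ a (fun i => S.W a r nd lv (u i)) +
      ∑ k : Fin (states r nd).length, if (states r nd)[k.1].nd = nd then 0 else
        avgJ L (Fin n) fun J => S.N ω₀ a (gs S a r nd u (states r nd)[k.1] J) := by
  have e : ((-1 : ℝ) ^ nd.card) • Wtop S a r nd u lv = (fun i => S.W a r nd lv (u i)) +
      ∑ k : Fin (states r nd).length, if (states r nd)[k.1].nd = nd then 0 else
        -(((-1 : ℝ) ^ (states r nd)[k.1].nd.card) •
          fun i => S.Wst a r nd lv (u i) (states r nd)[k.1]) := by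
    funext i
    rw [Pi.add_apply, Sys.W, ← Fin.sum_univ_fun_getElem, Wtop, smul_sum, Finset.sum_apply,
      Finset.sum_apply, ← sum_add_distrib]
    refine sum_congr rfl fun k _ => ?_
    split_ifs with h
    · simp [h]
    · simp
  have e2 := S.N_smul ω₀ a ((-1 : ℝ) ^ nd.card) (Wtop S a r nd u lv)
  rw [abs_pow, abs_neg, abs_one, one_pow, one_mul, e] at e2
  rw [← e2]
  refine (S.N_add_le ω₀ a _ _).trans (add_le_add le_rfl
    ((S.N_sum_le ω₀ a _ _).trans (sum_le_sum fun k _ => ?_)))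
  split_ifs
  · exact (S.N_zero ω₀ a).le
  · rw [S.N_neg, S.N_smul, abs_pow, abs_neg, abs_one, one_pow, one_mul]
    exact N_Wst_le S ω₀ a r nd u lv _

/-- the weights of a class -/
noncomputable def wt (Lb : ℕ) (d : Pr r nd → ℕ)
    (k : Fin (states r nd).length × (Fin n → Fin L.T)) : ℝ :=
  if (states r nd)[k.1.1].nd = nd then (∏ x, L.p (k.2 x)) * chi L.T Lb d (states r nd)[k.1.1]
    (lev (states r nd)[k.1.1].nd (states r nd)[k.1.1].par a fun x => k.2 x) else 0

theorem wt_nonneg (Lb : ℕ) (d : Pr r nd → ℕ) (k : Fin (states r nd).length × (Fin n → Fin L.T)) :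
    0 ≤ wt a r nd Lb d k := by
  unfold wt
  split_ifs
  · exact mul_nonneg (prod_nonneg fun _ _ => L.p_nonneg _) (chi_nonneg _ _ _ _ _)
  · exact le_rfl

theorem sum_wt_smul (Lb : ℕ) (d : Pr r nd → ℕ) :
    ∑ k : Fin (states r nd).length × (Fin n → Fin L.T),
      wt a r nd Lb d k • gs S a r nd u (states r nd)[k.1.1] (fun x => k.2 x) =
    ∑ A : Pr r nd → Bool, (∏ p, if A p then (-1 : ℝ) else 1) •
      Wtop S a r nd u (lvOf L.T Lb fun p => d p + if A p then 1 else 0) := by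
  funext i ω
  simp only [Wtop, Finset.sum_apply, Pi.smul_apply, smul_eq_mul, Fintype.sum_prod_type, mul_sum]
  rw [sum_comm (s := univ (α := Pr r nd → Bool))]
  refine sum_congr rfl fun k _ => ?_
  unfold wt
  split_ifs with h
  · simp only [Sys.Wst, avgJ, mul_sum, chi_expand, sum_mul]
    rw [sum_comm]
    refine sum_congr rfl fun A _ => sum_congr rfl fun J _ => ?_
    split_ifs
    · simp only [gs]; ring
    · simp
  · simp

/-- the total weight of all classes -/
noncomputable def ws (Lb j₀ j₁ : ℕ) (st : St (Fin n)) (J : Fin n → Fin L.T) : ℝ :=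
  if st.nd = nd then (∏ x, L.p (J x)) * ∏ p : Pr r nd,
    (ind L.T Lb st (lev st.nd st.par a fun x => J x) p j₀ -
      ind L.T Lb st (lev st.nd st.par a fun x => J x) p j₁) else 0

theorem sum_wt (Lb : ℕ) {j₀ j₁ : ℕ} (hj : j₀ ≤ j₁)
    (k : Fin (states r nd).length × (Fin n → Fin L.T)) :
    ∑ d ∈ Fintype.piFinset (fun _ : Pr r nd => Ico j₀ j₁), wt a r nd Lb d k =
      ws a r nd Lb j₀ j₁ (states r nd)[k.1.1] k.2 := by
  unfold wt ws
  split_ifs
  · rw [← mul_sum, sum_chi _ _ hj]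
  · simp

theorem ws_nonneg (Lb : ℕ) {j₀ j₁ : ℕ} (hj : j₀ ≤ j₁) (st : St (Fin n)) (J : Fin n → Fin L.T) :
    0 ≤ ws a r nd Lb j₀ j₁ st J := by
  unfold ws
  split_ifs
  · exact mul_nonneg (prod_nonneg fun _ _ => L.p_nonneg _)
      (prod_nonneg fun p _ => (ind_sub_mem _ _ _ _ p hj).1)
  · exact le_rfl

theorem ws_le (Lb : ℕ) {j₀ j₁ : ℕ} (hj : j₀ ≤ j₁) (st : St (Fin n)) (J : Fin n → Fin L.T) :
    ws a r nd Lb j₀ j₁ st J ≤ ∏ x, L.p (J x) := by
  unfold ws
  split_ifs
  · exact mul_le_of_le_one_right (prod_nonneg fun _ _ => L.p_nonneg _) (prod_le_one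
      (fun p _ => (ind_sub_mem _ _ _ _ p hj).1) fun p _ => (ind_sub_mem _ _ _ _ p hj).2)
  · exact prod_nonneg fun _ _ => L.p_nonneg _

theorem good_le_ws {par : Fin n → Fin n} {Lb : ℕ} (hLb : 1 ≤ Lb) (ha : a < L.T) {st : St (Fin n)}
    (h1 : st.nd = nd) (h2 : ∀ d ∈ nd, st.par d = par d) (hv : Valid r st.nd st.par)
    (hp : ∀ s ∈ insert r nd, st.pl s = s) :
    avgJ L (Fin n) (fun J => if ∀ q ∈ nd, gl L.T Lb (a / Lb + 1) ≤ lev nd par a J q then
        S.N ω₀ a (fun i => S.gam nd par (lev nd par a J) (u i) r) else 0) ≤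
      ∑ J : Fin n → Fin L.T, ws a r nd Lb (a / Lb + 1) ((L.T - 1) / Lb + 1) st J *
        S.N ω₀ a (gs S a r nd u st fun x => J x) := by
  have hj : a / Lb + 1 ≤ (L.T - 1) / Lb + 1 := Nat.succ_le_succ (Nat.div_le_div_right (by omega))
  refine sum_le_sum fun J _ => ?_
  have el : lev st.nd st.par a (fun x => (J x : ℕ)) = lev nd par a (fun x => (J x : ℕ)) := by
    rw [h1]; exact lev_congr h2 fun _ _ => rfl
  rw [h1] at hv
  beta_reduce
  split_ifs with hg
  · have hT : gl L.T Lb ((L.T - 1) / Lb + 1) = L.T := by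
      have := Nat.lt_mul_div_succ (L.T - 1) hLb
      exact min_eq_right (by omega)
    have hc := lev_lt (nd := nd) (par := par) ha fun x => (J x).2
    rw [ws, if_pos h1, prod_eq_one (s := univ (α := Pr r nd)) fun p _ => ?_, mul_one]
    · refine le_of_eq ?_
      congr 2
      funext i
      rw [gs, el, h1, S.gam_congr_lab hv _ (fun q hq => lab_top hp (u i) hq)
        (mem_insert_self _ _), S.gam_congr h2 fun _ _ => rfl]
    · unfold ind
      rw [el, h1, hp _ p.2.1, hp _ p.2.2.1, hT, top_eq_root hv hg p.2.1,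
        top_eq_root hv hg p.2.2.1, top_of_lt (hc _), top_of_lt (hc _), if_pos rfl,
        if_neg p.2.2.2.ne, sub_zero]
  · rw [mul_zero]
    exact mul_nonneg (ws_nonneg a r nd Lb hj st J) (S.N_nonneg _ _ _)

theorem sum_N_class_le {Lb : ℕ} (hLb : 1 ≤ Lb) (ha : a < L.T) (F : (Fin n → Fin n → ℕ) → ℝ)
    (hF0 : ∀ lv, 0 ≤ F lv) (hF : ∀ lv, (∀ s s', a < lv s s') → S.N ω₀ a (Wtop S a r nd u lv) ≤ F lv) :
    ∑ d ∈ Fintype.piFinset (fun _ : Pr r nd => Ico (a / Lb + 1) ((L.T - 1) / Lb + 1)),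
      S.N ω₀ a (∑ k : Fin (states r nd).length × (Fin n → Fin L.T),
        wt a r nd Lb d k • gs S a r nd u (states r nd)[k.1.1] (fun x => k.2 x)) ≤
      2 ^ (n * n) * ∑ lv ∈ gridArr n L.T Lb, F lv := by
  set Dd := Fintype.piFinset (fun _ : Pr r nd => Ico (a / Lb + 1) ((L.T - 1) / Lb + 1)) with hDd
  have hmem : ∀ d ∈ Dd, ∀ (A : Pr r nd → Bool) p, a / Lb + 1 ≤ (d p + if A p then 1 else 0) ∧
      (d p + if A p then 1 else 0) ≤ (L.T - 1) / Lb + 1 := by
    intro d hd A p
    have := mem_Ico.1 (Fintype.mem_piFinset.1 hd p)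
    split_ifs <;> omega
  calc _ ≤ ∑ d ∈ Dd, ∑ A : Pr r nd → Bool,
        F (lvOf L.T Lb fun p => d p + if A p then 1 else 0) := by
        refine sum_le_sum fun d hd => ?_
        rw [sum_wt_smul]
        refine (S.N_sum_le ω₀ a _ _).trans (sum_le_sum fun A _ => ?_)
        rw [S.N_smul, abs_prod, prod_eq_one fun p _ => by split_ifs <;> simp, one_mul]
        refine hF _ fun s s' => ?_
        by_cases h : s ∈ insert r nd ∧ s' ∈ insert r nd ∧ s < s'
        · rw [lvOf, dif_pos h]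
          exact lt_min ((Nat.lt_mul_div_succ a hLb).trans_le
            (Nat.mul_le_mul_left _ (hmem d hd A _).1)) ha
        · rw [lvOf, dif_neg h]
          exact ha
    _ ≤ ∑ _A : Pr r nd → Bool, ∑ lv ∈ gridArr n L.T Lb, F lv := by
        rw [sum_comm]
        refine sum_le_sum fun A _ => ?_
        rw [← sum_image (g := fun d : Pr r nd → ℕ =>
          lvOf L.T Lb fun p => d p + if A p then 1 else 0) fun d hd d' hd' e => ?_]
        · refine sum_le_sum_of_subset_of_nonneg (fun lv hlv => ?_) fun _ _ _ => hF0 _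
          obtain ⟨d, hd, rfl⟩ := mem_image.1 hlv
          exact lvOf_mem hLb fun p => (hmem d hd A p).2
        · have := lvOf_injOn hLb L.T_pos (fun p => (hmem d hd A p).2)
            (fun p => (hmem d' hd' A p).2) e
          exact funext fun p => Nat.add_right_cancel (congrFun this p)
    _ ≤ _ := by
        rw [sum_const, nsmul_eq_mul]
        refine mul_le_mul_of_nonneg_right ?_ (sum_nonneg fun _ _ => hF0 _)
        have : Fintype.card (Pr r nd) ≤ n * n := (Fintype.card_subtype_le _).trans (by simp)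
        rw [card_univ, Fintype.card_fun, Fintype.card_bool]
        exact_mod_cast Nat.pow_le_pow_right (by norm_num) this

theorem good_le {par : Fin n → Fin n} (hv : Valid r nd par) {Lb : ℕ} (hLb : 1 ≤ Lb) (ha : a < L.T) :
    avgJ L (Fin n) (fun J => if ∀ q ∈ nd, gl L.T Lb (a / Lb + 1) ≤ lev nd par a J q then
        S.N ω₀ a (fun i => S.gam nd par (lev nd par a J) (u i) r) else 0) ≤
      2 ^ (n * n) * ∑ lv ∈ gridArr n L.T Lb,
        ((if ∀ s s', a < lv s s' then S.N ω₀ a (fun i => S.W a r nd lv (u i)) else 0) +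
          ∑ k : Fin (states r nd).length, if (states r nd)[k.1].nd = nd then 0 else
            avgJ L (Fin n) fun J => S.N ω₀ a (gs S a r nd u (states r nd)[k.1] J)) +
      4 * ∑ k : Fin (states r nd).length, avgJ L (Fin n) fun J =>
        S.L1 ω₀ (gs S a r nd u (states r nd)[k.1] J - gr S a r nd u Lb (states r nd)[k.1] J) := by
  have hS : ∀ s ∈ nd, r < s := fun s hs => (hv s hs).1
  have spec := fun k : Fin (states r nd).length =>
    states_spec r nd hS (states r nd)[k.1] (List.getElem_mem _)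
  have hpl : ∀ k : Fin (states r nd).length, (states r nd)[k.1].nd = nd →
      ∀ s ∈ insert r nd, (states r nd)[k.1].pl s = s := fun k hk s hs => by
    rcases mem_insert.1 hs with rfl | hs
    · exact (spec k).2.2.1
    · exact (spec k).2.2.2.2 s (hk.symm ▸ hs)
  have hj : a / Lb + 1 ≤ (L.T - 1) / Lb + 1 := Nat.succ_le_succ (Nat.div_le_div_right (by omega))
  let G : Fin (states r nd).length × (Fin n → Fin L.T) → I → Fn Ω :=
    fun k => gs S a r nd u (states r nd)[k.1.1] fun x => k.2 x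
  let G' : Fin (states r nd).length × (Fin n → Fin L.T) → I → Fn Ω :=
    fun k => gr S a r nd u Lb (states r nd)[k.1.1] fun x => k.2 x
  have cls := fun d : Pr r nd → ℕ => N_class S ω₀ a (wt a r nd Lb d) (wt_nonneg a r nd Lb d)
    G G' fun k k' hk hk' => by
      unfold wt at hk hk'
      have e := (ite_ne_right_iff.1 hk).1
      have e' := (ite_ne_right_iff.1 hk').1
      rw [if_pos e] at hk
      rw [if_pos e'] at hk'
      exact funext fun i => gam_eq_of_chi S hLb (right_ne_zero_of_mul hk) (right_ne_zero_of_mul hk')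
        e e' (spec _).2.1 (spec _).2.1 (hpl _ e) (hpl _ e') (lev_lt ha fun x => (k.2 x).2)
        (lev_lt ha fun x => (k'.2 x).2) (u i)
  have tot := sum_le_sum fun d (_ : d ∈ Fintype.piFinset
    (fun _ : Pr r nd => Ico (a / Lb + 1) ((L.T - 1) / Lb + 1))) => cls d
  rw [sum_comm, sum_add_distrib, ← mul_sum, sum_comm (s := Fintype.piFinset _)] at tot
  simp only [← sum_mul, sum_wt a r nd Lb hj] at tot
  refine le_trans ?_ (tot.trans (add_le_add ?_ (mul_le_mul_of_nonneg_left ?_ (by norm_num))))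
  · obtain ⟨st, hst, h1, h2⟩ := states_complete r nd par hv
    obtain ⟨k₀, hk₀, rfl⟩ := List.getElem_of_mem hst
    rw [Fintype.sum_prod_type]
    exact (good_le_ws S ω₀ a r nd u hLb ha h1 h2 (spec ⟨k₀, hk₀⟩).2.1 (hpl ⟨k₀, hk₀⟩ h1)).trans
      (single_le_sum (f := fun k : Fin (states r nd).length => ∑ J : Fin n → Fin L.T,
        ws a r nd Lb (a / Lb + 1) ((L.T - 1) / Lb + 1) (states r nd)[k.1] J *
          S.N ω₀ a (gs S a r nd u (states r nd)[k.1] fun x => J x))
        (fun k _ => sum_nonneg fun J _ => mul_nonneg (ws_nonneg a r nd Lb hj _ J) (S.N_nonneg _ _ _))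
        (mem_univ ⟨k₀, hk₀⟩))
  · refine sum_N_class_le S ω₀ a r nd u hLb ha _ (fun lv => add_nonneg ?_
      (sum_nonneg fun k _ => ?_)) fun lv hlv => ?_
    · split_ifs
      exacts [S.N_nonneg _ _ _, le_rfl]
    · split_ifs
      exacts [le_rfl, avgJ_nonneg fun _ _ => S.N_nonneg _ _ _]
    · rw [if_pos hlv]
      exact N_Wtop_le S ω₀ a r nd u lv
  · rw [Fintype.sum_prod_type]
    exact sum_le_sum fun k _ => sum_le_sum fun J _ =>
      mul_le_mul_of_nonneg_right (ws_le a r nd Lb hj _ J) (S.L1_nonneg _ _)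

end Main

end Class

open Class in
theorem class_bound (n : ℕ) : ∃ C : ℝ, 0 ≤ C ∧ ∀ (L : Lev), L.Unif →
    ∀ (Ω I : Type) [Fintype Ω] [Fintype I] (S : Sys L Ω) (ω₀ : ℕ → Ω) (sp : I → (ℕ → Ω) → Bool)
      (r : Fin n) (nd : Finset (Fin n)) (par : Fin n → Fin n), Valid r nd par →
      ∀ (e : Fin n → Bool) (Lb : ℕ), 1 ≤ Lb → Lb ≤ L.T →
    S.treeErr ω₀ sp r nd par e ≤ C * Real.sqrt (Lb / L.T) +
      C * ∑ lv ∈ gridArr n L.T Lb, (S.coreErr ω₀ sp n nd.card + (L.T : ℝ)⁻¹ * ∑ a ∈ range L.T,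
        if ∀ s s', a < lv s s' then S.N ω₀ a (fun i => S.W a r nd lv (spinLab sp e i)) else 0) := by
  obtain ⟨Cr, hCr, hround⟩ := round_bound n
  set M : ℝ := ∑ x : Fin n × Finset (Fin n), ((states x.1 x.2).length : ℝ) with hM
  have hM0 : 0 ≤ M := by positivity
  refine ⟨2 ^ (n * n) * (1 + M) + n + 4 * M * Cr + 2 * n, by positivity, ?_⟩
  intro L hL Ω I _ _ S ω₀ sp r nd par hv e Lb hLb hLT
  have hT : (0 : ℝ) < L.T := by exact_mod_cast L.T_pos
  have hlen : ((states r nd).length : ℝ) ≤ M :=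
    single_le_sum (f := fun x : Fin n × Finset (Fin n) => ((states x.1 x.2).length : ℝ))
      (fun _ _ => by positivity) (mem_univ (r, nd))
  have spec := fun k : Fin (states r nd).length =>
    states_spec r nd (fun s hs => (hv s hs).1) (states r nd)[k.1] (List.getElem_mem _)
  set K := S.coreErr ω₀ sp n nd.card with hK
  have hK0 : 0 ≤ K := coreErr_nonneg S ω₀ sp n _
  set q := Real.sqrt (Lb / L.T) with hq
  have hq0 : 0 ≤ q := Real.sqrt_nonneg _
  have hq1 : (Lb : ℝ) / L.T ≤ q := by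
    refine Real.le_sqrt_of_sq_le ?_
    have : (Lb : ℝ) / L.T ≤ 1 := by rw [div_le_one hT]; exact_mod_cast hLT
    have h0 : 0 ≤ (Lb : ℝ) / L.T := by positivity
    nlinarith
  let F : (Fin n → Fin n → ℕ) → ℕ → ℝ := fun lv a =>
    if ∀ s s', a < lv s s' then S.N ω₀ a (fun i => S.W a r nd lv (spinLab sp e i)) else 0
  have hF0 : ∀ lv, 0 ≤ (L.T : ℝ)⁻¹ * ∑ a ∈ range L.T, F lv a := fun lv =>
    mul_nonneg (by positivity) (sum_nonneg fun a _ => by
      simp only [F]
      split_ifs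
      exacts [S.N_nonneg _ _ _, le_rfl])
  let t : Fin (states r nd).length → ℕ → ℝ := fun k a => if (states r nd)[k.1].nd = nd then 0 else
    avgJ L (Fin n) fun J => S.N ω₀ a (gs S a r nd (spinLab sp e) (states r nd)[k.1] J)
  let v : Fin (states r nd).length → ℕ → ℝ := fun k a => avgJ L (Fin n) fun J =>
    S.L1 ω₀ (gs S a r nd (spinLab sp e) (states r nd)[k.1] J -
      gr S a r nd (spinLab sp e) Lb (states r nd)[k.1] J)
  let z : Fin n → ℕ → ℝ := fun q₀ a => avgJ L (Fin n) fun J => S.N ω₀ a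
    (fun i => S.gam (cut nd par q₀) par (lev (cut nd par q₀) par a J) (spinLab sp e i) r)
  have ht : ∀ k, (L.T : ℝ)⁻¹ * ∑ a ∈ range L.T, t k a ≤ K := by
    intro k
    simp only [t]
    split_ifs with h
    · simpa using hK0
    · obtain ⟨e', he'⟩ := exists_lab sp e r nd (states r nd)[k.1]
      refine le_trans (le_of_eq ?_) (treeErr_le_coreErr S ω₀ sp (spec k).2.1
        (card_lt_card (lt_of_le_of_ne (spec k).1 h)) e')
      unfold Sys.treeErr gs
      simp only [he']
  have hv' : ∀ k, (L.T : ℝ)⁻¹ * ∑ a ∈ range L.T, v k a ≤ Cr * q := fun k =>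
    hround L hL Ω I S ω₀ r _ _ (spec k).2.1 (fun i => (states r nd)[k.1].lab r nd (spinLab sp e i))
      (fun i => Expand.abs_lab_le r nd _ (abs_spinLab_le sp e i)) Lb hLb
  have hz : ∀ q₀ ∈ nd, (L.T : ℝ)⁻¹ * ∑ a ∈ range L.T, z q₀ a ≤ K := fun q₀ hq₀ =>
    treeErr_le_coreErr S ω₀ sp (valid_cut hv q₀) (card_cut_lt hq₀) e
  have step : ∀ a ∈ range L.T, avgJ L (Fin n) (fun J => S.N ω₀ a fun i =>
      S.gam nd par (lev nd par a J) (spinLab sp e i) r) ≤
      2 ^ (n * n) * ∑ lv ∈ gridArr n L.T Lb, (F lv a + ∑ k, t k a) + 4 * ∑ k, v k a +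
        ∑ q₀ ∈ nd, z q₀ a + 2 * (n * q) := by
    intro a ha
    refine (avgJ_mono fun J _ => N_split S ω₀ hv a (gl L.T Lb (a / Lb + 1)) Lb
      ((min_le_left _ _).trans (by rw [Nat.mul_succ]; exact Nat.add_le_add_right (Nat.mul_div_le a Lb) _))
      J (abs_spinLab_le sp e)).trans ?_
    rw [avgJ_add, avgJ_add, avgJ_const_mul]
    have g := good_le S ω₀ a r nd (spinLab sp e) hv hLb (mem_range.1 ha)
    refine add_le_add (add_le_add ((avgJ_congr fun J _ => by congr).trans_le g)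
      (avgJ_sum nd _).le) (mul_le_mul_of_nonneg_left ((avgJ_sum univ _).trans_le ?_) (by norm_num))
    refine (sum_le_card_nsmul _ _ q fun d _ => (avg_near hL a Lb d).trans hq1).trans ?_
    simp
  set G := ∑ lv ∈ gridArr n L.T Lb, (K + (L.T : ℝ)⁻¹ * ∑ a ∈ range L.T, F lv a) with hG
  have hKG : K ≤ G := by
    have hm := lvOf_mem (T := L.T) hLb (r := r) (nd := nd) (j := fun _ => 0) fun _ => Nat.zero_le _
    have := single_le_sum (f := fun lv => K + (L.T : ℝ)⁻¹ * ∑ a ∈ range L.T, F lv a)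
      (fun lv _ => add_nonneg hK0 (hF0 lv)) hm
    linarith [hF0 (lvOf L.T Lb fun _ : Pr r nd => 0)]
  have b1 : (L.T : ℝ)⁻¹ * ∑ a ∈ range L.T, ∑ lv ∈ gridArr n L.T Lb, (F lv a + ∑ k, t k a) ≤
      (1 + M) * G := by
    rw [sum_comm, mul_sum, hG, mul_sum]
    refine sum_le_sum fun lv _ => ?_
    rw [sum_add_distrib, mul_add, sum_comm, mul_sum univ _ (L.T : ℝ)⁻¹]
    have := sum_le_card_nsmul univ _ K fun k _ => ht k
    rw [card_univ, Fintype.card_fin, nsmul_eq_mul] at this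
    nlinarith [hF0 lv, mul_le_mul_of_nonneg_right hlen hK0, mul_nonneg hM0 (hF0 lv)]
  have b2 : (L.T : ℝ)⁻¹ * ∑ a ∈ range L.T, ∑ k, v k a ≤ M * (Cr * q) := by
    rw [sum_comm, mul_sum]
    have := sum_le_card_nsmul univ _ _ fun k _ => hv' k
    rw [card_univ, Fintype.card_fin, nsmul_eq_mul] at this
    exact this.trans (mul_le_mul_of_nonneg_right hlen (by positivity))
  have b3 : (L.T : ℝ)⁻¹ * ∑ a ∈ range L.T, ∑ q₀ ∈ nd, z q₀ a ≤ n * G := by
    rw [sum_comm, mul_sum]
    have := sum_le_card_nsmul nd _ _ hz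
    rw [nsmul_eq_mul] at this
    have hc : (nd.card : ℝ) ≤ n := by exact_mod_cast (card_le_univ nd).trans (by simp)
    exact this.trans (mul_le_mul hc hKG hK0 (by positivity))
  have fin := mul_le_mul_of_nonneg_left (sum_le_sum step) (inv_nonneg.2 hT.le)
  rw [sum_add_distrib, sum_add_distrib, sum_add_distrib, ← mul_sum, ← mul_sum, sum_const,
    card_range, nsmul_eq_mul, mul_add, mul_add, mul_add, ← mul_assoc _ (L.T : ℝ),
    inv_mul_cancel₀ hT.ne', one_mul, mul_left_comm, mul_left_comm _ (4 : ℝ)] at fin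
  have hG0 := hK0.trans hKG
  have b1' := mul_le_mul_of_nonneg_left b1 (by positivity : (0 : ℝ) ≤ 2 ^ (n * n))
  have p1 : 0 ≤ (2 ^ (n * n) * (1 + M) + n) * q := by positivity
  have p2 : 0 ≤ (4 * M * Cr + 2 * n) * G := by positivity
  refine fin.trans ?_
  linarith

end Crest.Agent.R141
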