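import Mathlib
import Crest.Prelude.Def_DilutedSpinGlass

/-! Row 141: convolution calculus on Lipschitz functionals of a Hamiltonian. -/

set_option autoImplicit false
set_option linter.unusedSectionVars false

open MeasureTheory Crest.ProbabilityR.Diluted
namespace Crest.Agent.R141

/-- a family of random terms: `U x d : P → ℝ` for a discrete choice `x` and a random datum `d ~ ν` -/
structure Terms (P ι D : Type) [Fintype P] [MeasurableSpace D] where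
  ν : Measure D
  [hν : IsProbabilityMeasure ν]
  U : ι → D → P → ℝ
  nrm : D → ℝ
  mU : ∀ x, Measurable (U x)
  int : Integrable nrm ν
  le : ∀ x d, ‖U x d‖ ≤ nrm d

attribute [instance] Terms.hν

variable {P ι D : Type} [Fintype P] [Fintype ι] [DecidableEq ι] [MeasurableSpace D]

/-- unnormalised convolution with intensity `κ` -/
noncomputable def Terms.T (𝒯 : Terms P ι D) (κ : ι → ℝ) (Φ : (P → ℝ) → ℝ) : (P → ℝ) → ℝ :=
  fun H => ∫ d, ∑ x, κ x * Φ (H + 𝒯.U x d) ∂𝒯.ν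

/-- add a Poisson family of terms with intensity `κ` -/
noncomputable def Terms.Poi (𝒯 : Terms P ι D) (κ : ι → ℝ) (Φ : (P → ℝ) → ℝ) : (P → ℝ) → ℝ :=
  fun H => ∑' k : ℕ, Real.exp (-∑ x, κ x) / (k.factorial : ℝ) * (𝒯.T κ)^[k] Φ H

/-- translation equivariance -/
def Equi (Φ : (P → ℝ) → ℝ) : Prop := ∀ H (c : ℝ), Φ (fun y => H y + c) = Φ H + c

/-- `K`-Lipschitz, with a real constant. -/
def Lip (K : ℝ) (Φ : (P → ℝ) → ℝ) : Prop := 0 ≤ K ∧ ∀ H H', |Φ H - Φ H'| ≤ K * ‖H - H'‖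

lemma lip_one_iff {Φ : (P → ℝ) → ℝ} : Lip 1 Φ ↔ LipschitzWith 1 Φ := by
  simp only [Lip, zero_le_one, true_and, lipschitzWith_iff_dist_le_mul, dist_eq_norm,
    Real.norm_eq_abs, NNReal.coe_one]

lemma Lip.continuous {K : ℝ} {Φ : (P → ℝ) → ℝ} (h : Lip K Φ) : Continuous Φ :=
  (LipschitzWith.of_dist_le' (K := K) fun H H' => by
    simpa only [dist_eq_norm, Real.norm_eq_abs] using h.2 H H').continuous

lemma Lip.abs_shift_le {K : ℝ} {Φ : (P → ℝ) → ℝ} (h : Lip K Φ) (H V : P → ℝ) :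
    |Φ (H + V)| ≤ |Φ H| + K * ‖V‖ := by
  have h1 := h.2 (H + V) H
  rw [add_sub_cancel_left] at h1
  have := abs_sub_abs_le_abs_sub (Φ (H + V)) (Φ H)
  linarith

lemma Lip.add {K K' : ℝ} {Φ Ψ : (P → ℝ) → ℝ} (h : Lip K Φ) (h' : Lip K' Ψ) :
    Lip (K + K') (Φ + Ψ) := by
  refine ⟨add_nonneg h.1 h'.1, fun H H' => ?_⟩
  have h1 := h.2 H H'
  have h2 := h'.2 H H'
  have : (Φ + Ψ) H - (Φ + Ψ) H' = (Φ H - Φ H') + (Ψ H - Ψ H') := by simp; ring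
  rw [this, add_mul]
  exact (abs_add_le _ _).trans (add_le_add h1 h2)

lemma Lip.smul {K : ℝ} {Φ : (P → ℝ) → ℝ} (h : Lip K Φ) (c : ℝ) : Lip (|c| * K) (c • Φ) := by
  refine ⟨mul_nonneg (abs_nonneg _) h.1, fun H H' => ?_⟩
  have : (c • Φ) H - (c • Φ) H' = c * (Φ H - Φ H') := by simp; ring
  rw [this, abs_mul, mul_assoc]
  exact mul_le_mul_of_nonneg_left (h.2 H H') (abs_nonneg _)

lemma lip_const (c : ℝ) : Lip 0 (fun _ : P → ℝ => c) := ⟨le_rfl, fun _ _ => by simp⟩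

lemma hasSum_poi (l : ℝ) : HasSum (fun k : ℕ => Real.exp (-l) / (k.factorial : ℝ) * l ^ k) 1 := by
  convert! (NormedSpace.expSeries_div_hasSum_exp l).mul_left (Real.exp (-l)) using 1
  · funext k; ring
  · simp [← Real.exp_eq_exp_ℝ, ← Real.exp_add]

lemma hasSum_poi' (l : ℝ) :
    HasSum (fun k : ℕ => Real.exp (-l) / (k.factorial : ℝ) * (k * l ^ k)) l := by
  rw [← hasSum_nat_add_iff' 1]
  convert! (hasSum_poi l).mul_left l using 1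
  · funext k
    rw [Nat.factorial_succ]
    push_cast
    field_simp
    ring
  · simp

namespace Terms
variable (𝒯 : Terms P ι D)

/-- Mean size of a term. -/
noncomputable def m : ℝ := ∫ d, 𝒯.nrm d ∂𝒯.ν

lemma integrable_term {K : ℝ} {Φ : (P → ℝ) → ℝ} (h : Lip K Φ) (H : P → ℝ) (x : ι) :
    Integrable (fun d => Φ (H + 𝒯.U x d)) 𝒯.ν := by
  refine Integrable.mono' ((integrable_const |Φ H|).add (𝒯.int.const_mul K))
    (h.continuous.measurable.comp ((𝒯.mU x).const_add H)).aestronglyMeasurable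
    (Filter.Eventually.of_forall fun d => ?_)
  exact (h.abs_shift_le _ _).trans (by
    have := mul_le_mul_of_nonneg_left (𝒯.le x d) h.1
    simp only [Pi.add_apply]; linarith)

lemma T_eq (κ : ι → ℝ) {K : ℝ} {Φ : (P → ℝ) → ℝ} (h : Lip K Φ) (H : P → ℝ) :
    𝒯.T κ Φ H = ∑ x, κ x * ∫ d, Φ (H + 𝒯.U x d) ∂𝒯.ν := by
  unfold T
  rw [integral_finsetSum _ fun x _ => (𝒯.integrable_term h H x).const_mul _]
  simp only [integral_const_mul]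

lemma abs_sum_le {κ : ι → ℝ} (hκ : ∀ x, 0 ≤ κ x) {a : ι → ℝ} {c : ℝ} (h : ∀ x, |a x| ≤ c) :
    |∑ x, κ x * a x| ≤ (∑ x, κ x) * c := by
  rw [Finset.sum_mul]
  refine (Finset.abs_sum_le_sum_abs _ _).trans (Finset.sum_le_sum fun x _ => ?_)
  rw [abs_mul, abs_of_nonneg (hκ x)]
  exact mul_le_mul_of_nonneg_left (h x) (hκ x)

lemma lip_T {κ : ι → ℝ} (hκ : ∀ x, 0 ≤ κ x) {K : ℝ} {Φ : (P → ℝ) → ℝ} (h : Lip K Φ) :
    Lip ((∑ x, κ x) * K) (𝒯.T κ Φ) := by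
  refine ⟨mul_nonneg (Finset.sum_nonneg fun x _ => hκ x) h.1, fun H H' => ?_⟩
  rw [𝒯.T_eq κ h, 𝒯.T_eq κ h, ← Finset.sum_sub_distrib, mul_assoc]
  simp only [← mul_sub]
  refine abs_sum_le hκ fun x => ?_
  rw [← integral_sub (𝒯.integrable_term h H x) (𝒯.integrable_term h H' x)]
  have := norm_integral_le_of_norm_le_const (μ := 𝒯.ν)
    (f := fun d => Φ (H + 𝒯.U x d) - Φ (H' + 𝒯.U x d)) (C := K * ‖H - H'‖)
    (Filter.Eventually.of_forall fun d => by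
      simpa only [add_sub_add_right_eq_sub, Real.norm_eq_abs] using
        h.2 (H + 𝒯.U x d) (H' + 𝒯.U x d))
  simpa using this

lemma abs_integral_sub_le {K : ℝ} {Φ : (P → ℝ) → ℝ} (h : Lip K Φ) (H : P → ℝ) (x : ι) :
    |∫ d, Φ (H + 𝒯.U x d) ∂𝒯.ν - Φ H| ≤ K * 𝒯.m := by
  have h1 : ∫ d, Φ (H + 𝒯.U x d) ∂𝒯.ν - Φ H = ∫ d, (Φ (H + 𝒯.U x d) - Φ H) ∂𝒯.ν := by
    rw [integral_sub (𝒯.integrable_term h H x) (integrable_const _)]
    simp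
  rw [h1, m, ← integral_const_mul, ← Real.norm_eq_abs]
  refine norm_integral_le_of_norm_le (𝒯.int.const_mul K) (Filter.Eventually.of_forall fun d => ?_)
  have h2 := h.2 (H + 𝒯.U x d) H
  rw [add_sub_cancel_left] at h2
  exact h2.trans (mul_le_mul_of_nonneg_left (𝒯.le x d) h.1)

lemma abs_T_sub_le {κ : ι → ℝ} (hκ : ∀ x, 0 ≤ κ x) {K : ℝ} {Φ : (P → ℝ) → ℝ} (h : Lip K Φ)
    (H : P → ℝ) : |𝒯.T κ Φ H - (∑ x, κ x) * Φ H| ≤ (∑ x, κ x) * (K * 𝒯.m) := by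
  rw [𝒯.T_eq κ h, Finset.sum_mul, ← Finset.sum_sub_distrib]
  simp only [← mul_sub]
  exact abs_sum_le hκ fun x => 𝒯.abs_integral_sub_le h H x

lemma T_add_fun (κ : ι → ℝ) {K K' : ℝ} {Φ Ψ : (P → ℝ) → ℝ} (h : Lip K Φ) (h' : Lip K' Ψ) :
    𝒯.T κ (Φ + Ψ) = 𝒯.T κ Φ + 𝒯.T κ Ψ := by
  funext H
  rw [Pi.add_apply, 𝒯.T_eq κ h, 𝒯.T_eq κ h', 𝒯.T_eq κ (h.add h'), ← Finset.sum_add_distrib]
  refine Finset.sum_congr rfl fun x _ => ?_
  rw [← mul_add, ← integral_add (𝒯.integrable_term h H x) (𝒯.integrable_term h' H x)]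
  rfl

lemma T_smul_fun (κ : ι → ℝ) (c : ℝ) (Φ : (P → ℝ) → ℝ) : 𝒯.T κ (c • Φ) = c • 𝒯.T κ Φ := by
  funext H
  simp only [T, Pi.smul_apply, smul_eq_mul, ← integral_const_mul, Finset.mul_sum, mul_left_comm]

lemma T_smul (κ : ι → ℝ) (c : ℝ) (Φ : (P → ℝ) → ℝ) :
    𝒯.T (fun x => c * κ x) Φ = c • 𝒯.T κ Φ := by
  funext H
  simp only [T, Pi.smul_apply, smul_eq_mul, ← integral_const_mul, Finset.mul_sum, mul_assoc]

lemma T_add (κ κ' : ι → ℝ) {K : ℝ} {Φ : (P → ℝ) → ℝ} (h : Lip K Φ) :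
    𝒯.T (κ + κ') Φ = 𝒯.T κ Φ + 𝒯.T κ' Φ := by
  funext H
  simp only [Pi.add_apply, 𝒯.T_eq _ h, add_mul, Finset.sum_add_distrib]

lemma T_mono {κ : ι → ℝ} (hκ : ∀ x, 0 ≤ κ x) {K K' : ℝ} {Φ Ψ : (P → ℝ) → ℝ} (hΦ : Lip K Φ)
    (hΨ : Lip K' Ψ) (c : ℝ) (H : P → ℝ)
    (h : ∀ x d, κ x ≠ 0 → Φ (H + 𝒯.U x d) + c ≤ Ψ (H + 𝒯.U x d)) :
    𝒯.T κ Φ H + (∑ x, κ x) * c ≤ 𝒯.T κ Ψ H := by
  rw [𝒯.T_eq κ hΦ, 𝒯.T_eq κ hΨ, Finset.sum_mul, ← Finset.sum_add_distrib]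
  refine Finset.sum_le_sum fun x _ => ?_
  by_cases hx : κ x = 0
  · simp [hx]
  · rw [← mul_add]
    refine mul_le_mul_of_nonneg_left ?_ (hκ x)
    have := integral_mono ((𝒯.integrable_term hΦ H x).add (integrable_const c))
      (𝒯.integrable_term hΨ H x) fun d => h x d hx
    rw [integral_add' (𝒯.integrable_term hΦ H x) (integrable_const c)] at this
    simpa using this

lemma T_equi (κ : ι → ℝ) {K : ℝ} {Φ : (P → ℝ) → ℝ} (hΦ : Lip K Φ) {a : ℝ}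
    (h : ∀ H (c : ℝ), Φ (fun y => H y + c) = Φ H + a * c) (H : P → ℝ) (c : ℝ) :
    𝒯.T κ Φ (fun y => H y + c) = 𝒯.T κ Φ H + (∑ x, κ x) * a * c := by
  rw [𝒯.T_eq κ hΦ, 𝒯.T_eq κ hΦ, mul_assoc, Finset.sum_mul, ← Finset.sum_add_distrib]
  refine Finset.sum_congr rfl fun x _ => ?_
  have : ∀ d, Φ ((fun y => H y + c) + 𝒯.U x d) = Φ (H + 𝒯.U x d) + a * c := by
    intro d
    rw [← h]
    congr 1
    funext y
    simp only [Pi.add_apply]; ring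
  simp only [this]
  rw [integral_add (𝒯.integrable_term hΦ H x) (integrable_const _), mul_add]
  simp

lemma T_comm {κ κ' : ι → ℝ} (hκ : ∀ x, 0 ≤ κ x) (hκ' : ∀ x, 0 ≤ κ' x) {K : ℝ}
    {Φ : (P → ℝ) → ℝ} (h : Lip K Φ) : 𝒯.T κ (𝒯.T κ' Φ) = 𝒯.T κ' (𝒯.T κ Φ) := by
  funext H
  have hint : ∀ x y, Integrable (fun z : D × D => Φ (H + 𝒯.U x z.1 + 𝒯.U y z.2))
      (𝒯.ν.prod 𝒯.ν) := by
    intro x y
    refine Integrable.mono' ((integrable_const |Φ H|).add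
      (((𝒯.int.comp_fst 𝒯.ν).add (𝒯.int.comp_snd 𝒯.ν)).const_mul K))
      (h.continuous.measurable.comp ((((𝒯.mU x).comp measurable_fst).const_add H).add
        ((𝒯.mU y).comp measurable_snd))).aestronglyMeasurable
      (Filter.Eventually.of_forall fun z => ?_)
    rw [add_assoc]
    refine (h.abs_shift_le _ _).trans ?_
    have := mul_le_mul_of_nonneg_left ((norm_add_le _ _).trans
      (add_le_add (𝒯.le x z.1) (𝒯.le y z.2))) h.1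
    simp only [Pi.add_apply]; linarith
  have key : ∀ {κ κ' : ι → ℝ}, (∀ x, 0 ≤ κ' x) → 𝒯.T κ (𝒯.T κ' Φ) H =
      ∑ x, ∑ y, κ x * κ' y * ∫ d, ∫ d', Φ (H + 𝒯.U x d + 𝒯.U y d') ∂𝒯.ν ∂𝒯.ν := by
    intro κ κ' hκ'
    rw [𝒯.T_eq κ (𝒯.lip_T hκ' h)]
    refine Finset.sum_congr rfl fun x _ => ?_
    simp only [𝒯.T_eq κ' h]
    rw [integral_finsetSum _ fun y _ => ((hint x y).integral_prod_left).const_mul _,
      Finset.mul_sum]
    simp only [integral_const_mul, mul_assoc]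
  rw [key hκ', key hκ, Finset.sum_comm]
  refine Finset.sum_congr rfl fun y _ => Finset.sum_congr rfl fun x _ => ?_
  rw [mul_comm (κ x), integral_integral_swap (hint x y)]
  simp only [add_right_comm H]

lemma lip_iter {κ : ι → ℝ} (hκ : ∀ x, 0 ≤ κ x) {K : ℝ} {Φ : (P → ℝ) → ℝ} (h : Lip K Φ) (k : ℕ) :
    Lip ((∑ x, κ x) ^ k * K) ((𝒯.T κ)^[k] Φ) := by
  induction k with
  | zero => simpa using h
  | succ k ih =>
    rw [Function.iterate_succ_apply', pow_succ', mul_assoc]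
    exact 𝒯.lip_T hκ ih

lemma abs_iter_sub_le {κ : ι → ℝ} (hκ : ∀ x, 0 ≤ κ x) {K : ℝ} {Φ : (P → ℝ) → ℝ} (h : Lip K Φ)
    (k : ℕ) (H : P → ℝ) :
    |(𝒯.T κ)^[k] Φ H - (∑ x, κ x) ^ k * Φ H| ≤ k * (∑ x, κ x) ^ k * (K * 𝒯.m) := by
  induction k with
  | zero => simp
  | succ k ih =>
    have hl : 0 ≤ ∑ x, κ x := Finset.sum_nonneg fun x _ => hκ x
    have h1 := 𝒯.abs_T_sub_le hκ (𝒯.lip_iter hκ h k) H
    rw [Function.iterate_succ_apply']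
    set l := ∑ x, κ x
    have h2 : 𝒯.T κ ((𝒯.T κ)^[k] Φ) H - l ^ (k + 1) * Φ H =
        (𝒯.T κ ((𝒯.T κ)^[k] Φ) H - l * (𝒯.T κ)^[k] Φ H) +
          l * ((𝒯.T κ)^[k] Φ H - l ^ k * Φ H) := by ring
    rw [h2]
    refine (abs_add_le _ _).trans ?_
    rw [abs_mul, abs_of_nonneg hl]
    refine (add_le_add h1 (mul_le_mul_of_nonneg_left ih hl)).trans (le_of_eq ?_)
    push_cast; ring

lemma abs_iter_le {κ : ι → ℝ} (hκ : ∀ x, 0 ≤ κ x) {K : ℝ} {Φ : (P → ℝ) → ℝ} (h : Lip K Φ)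
    (k : ℕ) (H : P → ℝ) :
    |(𝒯.T κ)^[k] Φ H| ≤ (∑ x, κ x) ^ k * |Φ H| + k * (∑ x, κ x) ^ k * (K * 𝒯.m) := by
  have hl : 0 ≤ ∑ x, κ x := Finset.sum_nonneg fun x _ => hκ x
  have h1 := 𝒯.abs_iter_sub_le hκ h k H
  have h2 := abs_sub_abs_le_abs_sub ((𝒯.T κ)^[k] Φ H) ((∑ x, κ x) ^ k * Φ H)
  rw [abs_mul, abs_of_nonneg (pow_nonneg hl k)] at h2
  linarith

lemma summable_Poi {κ : ι → ℝ} (hκ : ∀ x, 0 ≤ κ x) {K : ℝ} {Φ : (P → ℝ) → ℝ} (h : Lip K Φ)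
    (H : P → ℝ) :
    Summable fun k : ℕ => Real.exp (-∑ x, κ x) / (k.factorial : ℝ) * (𝒯.T κ)^[k] Φ H := by
  refine Summable.of_norm_bounded (((hasSum_poi (∑ x, κ x)).mul_right |Φ H|).add
    ((hasSum_poi' (∑ x, κ x)).mul_right (K * 𝒯.m))).summable fun k => ?_
  rw [Real.norm_eq_abs, abs_mul, abs_of_nonneg (by positivity)]
  refine (mul_le_mul_of_nonneg_left (𝒯.abs_iter_le hκ h k H) (by positivity)).trans (le_of_eq ?_)
  ring

lemma lip_Poi' {κ : ι → ℝ} (hκ : ∀ x, 0 ≤ κ x) {K : ℝ} {Φ : (P → ℝ) → ℝ} (h : Lip K Φ) :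
    Lip K (𝒯.Poi κ Φ) := by
  refine ⟨h.1, fun H H' => ?_⟩
  unfold Poi
  rw [← (𝒯.summable_Poi hκ h H).tsum_sub (𝒯.summable_Poi hκ h H')]
  have := (hasSum_poi (∑ x, κ x)).mul_right (K * ‖H - H'‖)
  rw [one_mul] at this
  rw [← Real.norm_eq_abs]
  refine tsum_of_norm_bounded this fun k => ?_
  rw [← mul_sub, Real.norm_eq_abs, abs_mul, abs_of_nonneg (by positivity), mul_assoc, ← mul_assoc _ K]
  exact mul_le_mul_of_nonneg_left ((𝒯.lip_iter hκ h k).2 H H') (by positivity)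

lemma abs_Poi_sub_le {κ : ι → ℝ} (hκ : ∀ x, 0 ≤ κ x) {K : ℝ} {Φ : (P → ℝ) → ℝ} (h : Lip K Φ)
    (H : P → ℝ) : |𝒯.Poi κ Φ H - Φ H| ≤ (∑ x, κ x) * (K * 𝒯.m) := by
  have h1 := (hasSum_poi (∑ x, κ x)).mul_right (Φ H)
  rw [one_mul] at h1
  have h2 := ((𝒯.summable_Poi hκ h H).hasSum.sub h1).tsum_eq
  unfold Poi
  rw [← h2, ← Real.norm_eq_abs]
  refine tsum_of_norm_bounded ((hasSum_poi' (∑ x, κ x)).mul_right (K * 𝒯.m)) fun k => ?_
  rw [mul_assoc, ← mul_sub, Real.norm_eq_abs, abs_mul, abs_of_nonneg (by positivity), mul_assoc]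
  exact mul_le_mul_of_nonneg_left (𝒯.abs_iter_sub_le hκ h k H) (by positivity)

/-- Exchange of `T` with a series of Lipschitz functionals. -/
lemma T_tsum {κ : ι → ℝ} {Ψ : ℕ → (P → ℝ) → ℝ} {K : ℕ → ℝ} (h : ∀ j, Lip (K j) (Ψ j))
    (hK : Summable K) (hs : ∀ H, Summable fun j => Ψ j H) (H : P → ℝ) :
    HasSum (fun j => 𝒯.T κ (Ψ j) H) (𝒯.T κ (fun H => ∑' j, Ψ j H) H) := by
  have hl : Lip (∑' j, K j) fun H => ∑' j, Ψ j H := by
    refine ⟨tsum_nonneg fun j => (h j).1, fun H H' => ?_⟩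
    rw [← (hs H).tsum_sub (hs H'), ← Real.norm_eq_abs]
    exact tsum_of_norm_bounded (hK.hasSum.mul_right _) fun j => (h j).2 H H'
  rw [𝒯.T_eq κ hl]
  simp only [fun j => 𝒯.T_eq κ (h j)]
  refine hasSum_sum fun x _ => HasSum.mul_left _ ?_
  refine hasSum_integral_of_summable_integral_norm (fun j => 𝒯.integrable_term (h j) H x) ?_
  refine Summable.of_nonneg_of_le (fun j => integral_nonneg fun d => norm_nonneg _) (fun j => ?_)
    ((hs H).abs.add (hK.mul_right 𝒯.m))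
  have := integral_mono (𝒯.integrable_term (h j) H x).norm
    ((integrable_const |Ψ j H|).add (𝒯.int.const_mul (K j))) fun d =>
      ((h j).abs_shift_le _ _).trans (by
        have := mul_le_mul_of_nonneg_left (𝒯.le x d) (h j).1
        simp only [Pi.add_apply]; linarith)
  rw [integral_add' (integrable_const _) (𝒯.int.const_mul _), integral_const_mul] at this
  simpa [m] using this

lemma iter_tsum {κ : ι → ℝ} (hκ : ∀ x, 0 ≤ κ x) {Ψ : ℕ → (P → ℝ) → ℝ} {K : ℕ → ℝ}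
    (h : ∀ j, Lip (K j) (Ψ j)) (hK : Summable K) (hs : ∀ H, Summable fun j => Ψ j H) (k : ℕ)
    (H : P → ℝ) :
    HasSum (fun j => (𝒯.T κ)^[k] (Ψ j) H) ((𝒯.T κ)^[k] (fun H => ∑' j, Ψ j H) H) := by
  induction k generalizing H with
  | zero => exact (hs H).hasSum
  | succ k ih =>
    simp only [Function.iterate_succ_apply']
    have h1 : (𝒯.T κ)^[k] (fun H => ∑' j, Ψ j H) = fun H => ∑' j, (𝒯.T κ)^[k] (Ψ j) H :=
      funext fun H => (ih H).tsum_eq.symm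
    rw [h1]
    exact 𝒯.T_tsum (fun j => 𝒯.lip_iter hκ (h j) k) (hK.mul_left _) (fun H => (ih H).summable) H

lemma iter_smul_fun (κ : ι → ℝ) (c : ℝ) (Φ : (P → ℝ) → ℝ) (k : ℕ) :
    (𝒯.T κ)^[k] (c • Φ) = c • (𝒯.T κ)^[k] Φ := by
  induction k with
  | zero => rfl
  | succ k ih => rw [Function.iterate_succ_apply', Function.iterate_succ_apply', ih, T_smul_fun]

lemma iter_smul (κ : ι → ℝ) (c : ℝ) (Φ : (P → ℝ) → ℝ) (k : ℕ) :
    (𝒯.T fun x => c * κ x)^[k] Φ = c ^ k • (𝒯.T κ)^[k] Φ := by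
  induction k with
  | zero => simp
  | succ k ih =>
    rw [Function.iterate_succ_apply', Function.iterate_succ_apply', ih, T_smul, T_smul_fun,
      smul_smul, pow_succ']

/-- The space of Lipschitz functionals. -/
def LipS (P : Type) [Fintype P] : Submodule ℝ ((P → ℝ) → ℝ) where
  carrier := {Φ | ∃ K, Lip K Φ}
  add_mem' := fun ⟨_, h⟩ ⟨_, h'⟩ => ⟨_, h.add h'⟩
  zero_mem' := ⟨0, lip_const 0⟩
  smul_mem' := fun c _ ⟨_, h⟩ => ⟨_, h.smul c⟩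

/-- `T` as an endomorphism of the space of Lipschitz functionals. -/
noncomputable def TL {κ : ι → ℝ} (hκ : ∀ x, 0 ≤ κ x) : Module.End ℝ (LipS P) where
  toFun Φ := ⟨𝒯.T κ Φ.1, Φ.2.elim fun _ h => ⟨_, 𝒯.lip_T hκ h⟩⟩
  map_add' Φ Ψ := Subtype.ext (Φ.2.elim fun _ h => Ψ.2.elim fun _ h' => 𝒯.T_add_fun κ h h')
  map_smul' c Φ := Subtype.ext (𝒯.T_smul_fun κ c Φ.1)

lemma TL_pow {κ : ι → ℝ} (hκ : ∀ x, 0 ≤ κ x) (k : ℕ) (Φ : LipS P) :
    ((𝒯.TL hκ ^ k) Φ).1 = (𝒯.T κ)^[k] Φ.1 := by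
  induction k with
  | zero => rfl
  | succ k ih =>
    rw [pow_succ', Function.iterate_succ_apply', ← ih]
    rfl

lemma iter_add {κ κ' : ι → ℝ} (hκ : ∀ x, 0 ≤ κ x) (hκ' : ∀ x, 0 ≤ κ' x) {K : ℝ}
    {Φ : (P → ℝ) → ℝ} (h : Lip K Φ) (n : ℕ) (H : P → ℝ) :
    (𝒯.T (κ + κ'))^[n] Φ H = ∑ z ∈ Finset.HasAntidiagonal.antidiagonal n,
      (n.choose z.1 : ℝ) * (𝒯.T κ)^[z.1] ((𝒯.T κ')^[z.2] Φ) H := by
  have hs : ∀ x, 0 ≤ (κ + κ') x := fun x => add_nonneg (hκ x) (hκ' x)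
  have h1 : 𝒯.TL hs = 𝒯.TL hκ + 𝒯.TL hκ' :=
    LinearMap.ext fun Ψ => Subtype.ext (Ψ.2.elim fun _ h => 𝒯.T_add κ κ' h)
  have h2 : Commute (𝒯.TL hκ) (𝒯.TL hκ') :=
    LinearMap.ext fun Ψ => Subtype.ext (Ψ.2.elim fun _ h => 𝒯.T_comm hκ hκ' h)
  have h3 := 𝒯.TL_pow hs n ⟨Φ, K, h⟩
  rw [h1, h2.add_pow'] at h3
  simp only at h3
  rw [← h3, LinearMap.sum_apply, Submodule.coe_sum, Finset.sum_apply]
  refine Finset.sum_congr rfl fun z _ => ?_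
  rw [LinearMap.smul_apply, Module.End.mul_apply, Submodule.coe_smul_of_tower, TL_pow, TL_pow]
  simp

/-- Iterated convolution with a list of intensities. -/
noncomputable def F (k : ℕ) (κ : Fin k → ι → ℝ) (Φ : (P → ℝ) → ℝ) : (P → ℝ) → ℝ :=
  (List.ofFn fun j => 𝒯.T (κ j)).foldr (fun A B => A B) Φ

lemma F_zero (κ : Fin 0 → ι → ℝ) (Φ : (P → ℝ) → ℝ) : 𝒯.F 0 κ Φ = Φ := by simp [F]

lemma F_succ (k : ℕ) (κ : Fin (k + 1) → ι → ℝ) (Φ : (P → ℝ) → ℝ) :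
    𝒯.F (k + 1) κ Φ = 𝒯.T (κ 0) (𝒯.F k (fun j => κ j.succ) Φ) := by
  simp [F, List.ofFn_succ]

lemma F_const (k : ℕ) (κ : ι → ℝ) (Φ : (P → ℝ) → ℝ) :
    𝒯.F k (fun _ => κ) Φ = (𝒯.T κ)^[k] Φ := by
  induction k with
  | zero => rfl
  | succ k ih => rw [F_succ, Function.iterate_succ_apply', ih]

lemma lip_F (k : ℕ) {κ : Fin k → ι → ℝ} (hκ : ∀ j x, 0 ≤ κ j x) {K : ℝ} {Φ : (P → ℝ) → ℝ}
    (h : Lip K Φ) : Lip ((∏ j, ∑ x, κ j x) * K) (𝒯.F k κ Φ) := by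
  induction k with
  | zero => simpa [F_zero] using h
  | succ k ih =>
    rw [F_succ, Fin.prod_univ_succ, mul_assoc]
    exact 𝒯.lip_T (hκ 0) (ih fun j => hκ j.succ)

lemma T_F_comm (k : ℕ) {κ : Fin k → ι → ℝ} (hκ : ∀ j x, 0 ≤ κ j x) {κ' : ι → ℝ}
    (hκ' : ∀ x, 0 ≤ κ' x) {K : ℝ} {Φ : (P → ℝ) → ℝ} (h : Lip K Φ) :
    𝒯.T κ' (𝒯.F k κ Φ) = 𝒯.F k κ (𝒯.T κ' Φ) := by
  induction k with
  | zero => rw [F_zero, F_zero]
  | succ k ih =>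
    rw [F_succ, F_succ, 𝒯.T_comm hκ' (hκ 0) (𝒯.lip_F k (fun j => hκ j.succ) h),
      ih fun j => hκ j.succ]

lemma F_mono (k : ℕ) {κ : Fin k → ι → ℝ} (hκ : ∀ j x, 0 ≤ κ j x) {K K' : ℝ}
    {Φ Ψ : (P → ℝ) → ℝ} (hΦ : Lip K Φ) (hΨ : Lip K' Ψ) (c : ℝ) (I : Set (P → ℝ))
    (hI : ∀ j, ∀ H ∈ I, ∀ x d, κ j x ≠ 0 → H + 𝒯.U x d ∈ I) (h : ∀ H ∈ I, Φ H + c ≤ Ψ H) :
    ∀ H ∈ I, 𝒯.F k κ Φ H + (∏ j, ∑ x, κ j x) * c ≤ 𝒯.F k κ Ψ H := by
  induction k with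
  | zero => simpa [F_zero] using h
  | succ k ih =>
    intro H hH
    rw [F_succ, F_succ, Fin.prod_univ_succ, mul_assoc]
    exact 𝒯.T_mono (hκ 0) (𝒯.lip_F k (fun j => hκ j.succ) hΦ) (𝒯.lip_F k (fun j => hκ j.succ) hΨ)
      _ H fun x d hx => ih (fun j => hκ j.succ) (fun j => hI j.succ) _ (hI 0 H hH x d hx)

lemma integrable_pi (k : ℕ) (κ : Fin k → ι → ℝ) {K : ℝ} {Φ : (P → ℝ) → ℝ} (h : Lip K Φ)
    (H : P → ℝ) :
    Integrable (fun ds : Fin k → D =>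
      ∑ xs : Fin k → ι, (∏ j, κ j (xs j)) * Φ (H + ∑ j, 𝒯.U (xs j) (ds j)))
      (Measure.pi fun _ : Fin k => 𝒯.ν) := by
  refine integrable_finsetSum _ fun xs _ => Integrable.const_mul ?_ _
  refine Integrable.mono' ((integrable_const |Φ H|).add
    ((integrable_finsetSum Finset.univ fun j _ =>
      integrable_comp_eval (μ := fun _ : Fin k => 𝒯.ν) (i := j) 𝒯.int).const_mul K))
    (h.continuous.measurable.comp (Measurable.const_add (Finset.measurable_sum _ fun j _ =>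
      (𝒯.mU (xs j)).comp (measurable_pi_apply j)) H)).aestronglyMeasurable
    (Filter.Eventually.of_forall fun ds => ?_)
  refine (h.abs_shift_le _ _).trans ?_
  have := mul_le_mul_of_nonneg_left ((norm_sum_le _ _).trans
    (Finset.sum_le_sum fun j (_ : j ∈ Finset.univ) => 𝒯.le (xs j) (ds j))) h.1
  simp only [Pi.add_apply]; linarith

lemma F_eq (k : ℕ) (κ : Fin k → ι → ℝ) {K : ℝ} {Φ : (P → ℝ) → ℝ} (h : Lip K Φ) (H : P → ℝ) :
    𝒯.F k κ Φ H =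
      ∫ ds : Fin k → D, ∑ xs : Fin k → ι, (∏ j, κ j (xs j)) * Φ (H + ∑ j, 𝒯.U (xs j) (ds j))
        ∂(Measure.pi fun _ : Fin k => 𝒯.ν) := by
  induction k generalizing H with
  | zero => simp [F_zero]
  | succ k ih =>
    have hm := (measurePreserving_piFinSuccAbove (fun _ : Fin (k + 1) => 𝒯.ν) 0).symm
    have hi := (hm.integrable_comp_emb (MeasurableEquiv.measurableEmbedding _)).mpr
      (𝒯.integrable_pi (k + 1) κ h H)
    simp only [Function.comp_def] at hi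
    rw [← hm.integral_comp', integral_prod _ hi, F_succ, T]
    refine integral_congr_ae (Filter.Eventually.of_forall fun d => ?_)
    simp only [ih, ← integral_const_mul]
    rw [← integral_finsetSum _ fun x _ =>
      (𝒯.integrable_pi k (fun j => κ j.succ) h (H + 𝒯.U x d)).const_mul _]
    refine integral_congr_ae (Filter.Eventually.of_forall fun ds => ?_)
    simp only [MeasurableEquiv.piFinSuccAbove_symm_apply, Fin.insertNthEquiv, Fin.insertNth_zero',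
      Equiv.coe_fn_mk]
    rw [← (Fin.consEquiv fun _ : Fin (k + 1) => ι).sum_comp, Fintype.sum_prod_type]
    simp only [Fin.consEquiv, Equiv.coe_fn_mk, Fin.prod_univ_succ, Fin.sum_univ_succ, Fin.cons_zero,
      Fin.cons_succ, Finset.mul_sum, mul_assoc, add_assoc]

theorem iter_eq (k : ℕ) (κ : Fin k → ι → ℝ) (hκ : ∀ j x, 0 ≤ κ j x) (Φ : (P → ℝ) → ℝ) (hΦ : LipschitzWith 1 Φ) (H : P → ℝ) :
    (List.ofFn fun j => 𝒯.T (κ j)).foldr (fun A B => A B) Φ H =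
      ∫ ds : Fin k → D, ∑ xs : Fin k → ι, (∏ j, κ j (xs j)) * Φ (H + ∑ j, 𝒯.U (xs j) (ds j))
        ∂(@Measure.pi _ _ _ _ fun _ : Fin k => 𝒯.ν) :=
  have _ := hκ
  𝒯.F_eq k κ (lip_one_iff.mpr hΦ) H

theorem Poi_eq (κ : ι → ℝ) (hκ : ∀ x, 0 ≤ κ x) (hs : ∑ x, κ x = 1) (lam : ℝ) (hl : 0 ≤ lam) (Φ : (P → ℝ) → ℝ) (hΦ : LipschitzWith 1 Φ) (H : P → ℝ) :
    Summable (fun k : ℕ => poissonWeight lam k * ∫ ds : Fin k → D, ∑ xs : Fin k → ι, (∏ j, κ (xs j)) * Φ (H + ∑ j, 𝒯.U (xs j) (ds j))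
        ∂(@Measure.pi _ _ _ _ fun _ : Fin k => 𝒯.ν)) ∧
    𝒯.Poi (fun x => lam * κ x) Φ H = ∑' k : ℕ, poissonWeight lam k *
      ∫ ds : Fin k → D, ∑ xs : Fin k → ι, (∏ j, κ (xs j)) * Φ (H + ∑ j, 𝒯.U (xs j) (ds j))
        ∂(@Measure.pi _ _ _ _ fun _ : Fin k => 𝒯.ν) := by
  have h := lip_one_iff.mpr hΦ
  have h1 : (fun k : ℕ => poissonWeight lam k * ∫ ds : Fin k → D, ∑ xs : Fin k → ι,
      (∏ j, κ (xs j)) * Φ (H + ∑ j, 𝒯.U (xs j) (ds j)) ∂(Measure.pi fun _ : Fin k => 𝒯.ν)) =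
      fun k : ℕ => Real.exp (-∑ x, lam * κ x) / (k.factorial : ℝ) *
        (𝒯.T fun x => lam * κ x)^[k] Φ H := by
    funext k
    rw [← 𝒯.F_eq k (fun _ => κ) h, F_const, iter_smul, ← Finset.mul_sum, hs, mul_one,
      poissonWeight, Pi.smul_apply, smul_eq_mul]
    ring
  rw [h1]
  exact ⟨𝒯.summable_Poi (fun x => mul_nonneg hl (hκ x)) h H, rfl⟩

theorem lip_Poi (κ : ι → ℝ) (hκ : ∀ x, 0 ≤ κ x) {Φ : (P → ℝ) → ℝ} (hΦ : LipschitzWith 1 Φ) :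
    LipschitzWith 1 (𝒯.Poi κ Φ) :=
  lip_one_iff.mp (𝒯.lip_Poi' hκ (lip_one_iff.mpr hΦ))

lemma iter_equi {κ : ι → ℝ} (hκ : ∀ x, 0 ≤ κ x) {K : ℝ} {Φ : (P → ℝ) → ℝ} (hΦ : Lip K Φ)
    (h : Equi Φ) (k : ℕ) (H : P → ℝ) (c : ℝ) :
    (𝒯.T κ)^[k] Φ (fun y => H y + c) = (𝒯.T κ)^[k] Φ H + (∑ x, κ x) ^ k * c := by
  induction k generalizing H c with
  | zero => simpa using h H c
  | succ k ih =>
    rw [Function.iterate_succ_apply', 𝒯.T_equi κ (𝒯.lip_iter hκ hΦ k) ih, pow_succ']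

theorem equi_Poi (κ : ι → ℝ) (hκ : ∀ x, 0 ≤ κ x) {Φ : (P → ℝ) → ℝ} (hΦ : LipschitzWith 1 Φ) (h : Equi Φ) :
    Equi (𝒯.Poi κ Φ) := by
  intro H c
  have hl := lip_one_iff.mpr hΦ
  have h1 := (𝒯.summable_Poi hκ hl H).hasSum.add ((hasSum_poi (∑ x, κ x)).mul_right c)
  rw [one_mul] at h1
  refine Eq.trans (tsum_congr fun k => ?_) h1.tsum_eq
  rw [𝒯.iter_equi hκ hl h]
  ring

/-- monotonicity on a class `I` of Hamiltonians stable under adding the charged terms -/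
theorem Poi_mono (κ : ι → ℝ) (hκ : ∀ x, 0 ≤ κ x) {Φ Ψ : (P → ℝ) → ℝ} (hΦ : LipschitzWith 1 Φ) (hΨ : LipschitzWith 1 Ψ)
    (c : ℝ) (I : Set (P → ℝ)) (hI : ∀ H ∈ I, ∀ x d, κ x ≠ 0 → H + 𝒯.U x d ∈ I)
    (h : ∀ H ∈ I, Φ H + c ≤ Ψ H) : ∀ H ∈ I, 𝒯.Poi κ Φ H + c ≤ 𝒯.Poi κ Ψ H := by
  intro H hH
  have hl := lip_one_iff.mpr hΦ
  have hl' := lip_one_iff.mpr hΨ
  have h1 := (𝒯.summable_Poi hκ hl H).hasSum.add ((hasSum_poi (∑ x, κ x)).mul_right c)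
  rw [one_mul] at h1
  refine hasSum_le (fun k => ?_) h1 (𝒯.summable_Poi hκ hl' H).hasSum
  have h2 := 𝒯.F_mono k (κ := fun _ => κ) (fun _ => hκ) hl hl' c I (fun _ => hI) h H hH
  rw [F_const, F_const, Finset.prod_const, Finset.card_univ, Fintype.card_fin] at h2
  rw [mul_assoc, ← mul_add]
  exact mul_le_mul_of_nonneg_left h2 (by positivity)

theorem Poi_add (κ κ' : ι → ℝ) (hκ : ∀ x, 0 ≤ κ x) (hκ' : ∀ x, 0 ≤ κ' x) {Φ : (P → ℝ) → ℝ} (hΦ : LipschitzWith 1 Φ) :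
    𝒯.Poi (κ + κ') Φ = 𝒯.Poi κ (𝒯.Poi κ' Φ) := by
  funext H
  have h := lip_one_iff.mpr hΦ
  have hl : 0 ≤ ∑ x, κ x := Finset.sum_nonneg fun x _ => hκ x
  have hl' : 0 ≤ ∑ x, κ' x := Finset.sum_nonneg fun x _ => hκ' x
  set l := ∑ x, κ x with hldef
  set l' := ∑ x, κ' x with hl'def
  let w : ℕ → ℝ := fun k => Real.exp (-l) / (k.factorial : ℝ)
  let w' : ℕ → ℝ := fun k => Real.exp (-l') / (k.factorial : ℝ)
  have hw : ∀ k, 0 ≤ w k := fun k => by positivity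
  have hw' : ∀ k, 0 ≤ w' k := fun k => by positivity
  let f : ℕ × ℕ → ℝ := fun z => w z.1 * (w' z.2 * (𝒯.T κ)^[z.1] ((𝒯.T κ')^[z.2] Φ) H)
  have hf : Summable f := by
    have s1 := (hasSum_poi l).summable
    have s2 := (hasSum_poi' l).summable
    have s3 := (hasSum_poi l').summable
    have s4 := (hasSum_poi' l').summable
    have p1 := (s1.mul_of_nonneg s3 (fun k => by positivity) fun k => by positivity).mul_right |Φ H|
    have p2 := (s1.mul_of_nonneg s4 (fun k => by positivity) fun k => by positivity).mul_right 𝒯.m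
    have p3 := (s2.mul_of_nonneg s3 (fun k => by positivity) fun k => by positivity).mul_right 𝒯.m
    refine Summable.of_norm_bounded ((p1.add p2).add p3) fun z => ?_
    have a1 := 𝒯.abs_iter_le hκ (𝒯.lip_iter hκ' h z.2) z.1 H
    have a2 := mul_le_mul_of_nonneg_left (𝒯.abs_iter_le hκ' h z.2 H) (pow_nonneg hl z.1)
    rw [Real.norm_eq_abs, abs_mul, abs_mul, abs_of_nonneg (hw _), abs_of_nonneg (hw' _)]
    refine (mul_le_mul_of_nonneg_left (mul_le_mul_of_nonneg_left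
      (a1.trans (add_le_add a2 le_rfl)) (hw' _)) (hw _)).trans (le_of_eq ?_)
    simp only [w, w', ← hldef, ← hl'def]
    ring
  have e1 : 𝒯.Poi κ (𝒯.Poi κ' Φ) H = ∑' z, f z := by
    rw [hf.tsum_prod]
    refine tsum_congr fun i => ?_
    simp only [f]
    rw [tsum_mul_left]
    congr 1
    have := 𝒯.iter_tsum hκ (Ψ := fun j => w' j • (𝒯.T κ')^[j] Φ)
      (K := fun j => |w' j| * (l' ^ j * 1)) (fun j => (𝒯.lip_iter hκ' h j).smul _)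
      ((hasSum_poi l').summable.congr fun j => by rw [abs_of_nonneg (hw' j), mul_one])
      (fun H => 𝒯.summable_Poi hκ' h H) i H
    simp only [iter_smul_fun] at this
    exact this.tsum_eq.symm
  have e2 : ∑' z, f z = ∑' n, ∑ z ∈ Finset.HasAntidiagonal.antidiagonal n, f z := by
    conv_rhs => congr; ext; rw [← Finset.sum_finset_coe, ← tsum_fintype (L := .unconditional _)]
    rw [← Finset.HasAntidiagonal.sigmaAntidiagonalEquivProd.tsum_eq f]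
    exact (Finset.HasAntidiagonal.sigmaAntidiagonalEquivProd.summable_iff.mpr hf).tsum_sigma'
      fun n => (hasSum_fintype _).summable
  rw [e1, e2]
  refine tsum_congr fun n => ?_
  rw [𝒯.iter_add hκ hκ' h, Finset.mul_sum]
  refine Finset.sum_congr rfl fun z hz => ?_
  have hz' : z.1 + z.2 = n := Finset.HasAntidiagonal.mem_antidiagonal.mp hz
  have hc : (n.choose z.1 : ℝ) * z.1.factorial * z.2.factorial = n.factorial := by
    rw [← hz']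
    exact_mod_cast by rw [Nat.choose_symm_add]; exact Nat.add_choose_mul_factorial_mul_factorial _ _
  simp only [f, w, w', Pi.add_apply, Finset.sum_add_distrib, ← hldef, ← hl'def, neg_add,
    Real.exp_add, ← hc]
  have : (n.choose z.1 : ℝ) ≠ 0 := by
    exact_mod_cast (Nat.choose_pos (by omega)).ne'
  field_simp

theorem Poi_close (κ κ' : ι → ℝ) (hκ : ∀ x, 0 ≤ κ x) (hκ' : ∀ x, 0 ≤ κ' x) {Φ : (P → ℝ) → ℝ} (hΦ : LipschitzWith 1 Φ) (H : P → ℝ) :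
    |𝒯.Poi κ Φ H - 𝒯.Poi κ' Φ H| ≤ (∑ x, |κ x - κ' x|) * ∫ d, 𝒯.nrm d ∂𝒯.ν := by
  have h := lip_one_iff.mpr hΦ
  let μ : ι → ℝ := fun x => min (κ x) (κ' x)
  let a : ι → ℝ := fun x => κ x - μ x
  let b : ι → ℝ := fun x => κ' x - μ x
  have hμ : ∀ x, 0 ≤ μ x := fun x => le_min (hκ x) (hκ' x)
  have ha : ∀ x, 0 ≤ a x := fun x => sub_nonneg.mpr (min_le_left _ _)
  have hb : ∀ x, 0 ≤ b x := fun x => sub_nonneg.mpr (min_le_right _ _)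
  have e1 : κ = μ + a := by funext x; simp [a]
  have e2 : κ' = μ + b := by funext x; simp [b]
  have e3 : ∑ x, |κ x - κ' x| = ∑ x, a x + ∑ x, b x := by
    rw [← Finset.sum_add_distrib]
    refine Finset.sum_congr rfl fun x _ => ?_
    simp only [a, b, μ]
    rcases le_total (κ x) (κ' x) with h | h
    · rw [min_eq_left h, abs_of_nonpos (by linarith)]; ring
    · rw [min_eq_right h, abs_of_nonneg (by linarith)]; ring
  have key : ∀ H, |𝒯.Poi a Φ H - 𝒯.Poi b Φ H| ≤ (∑ x, a x + ∑ x, b x) * 𝒯.m := by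
    intro H
    have h1 := abs_le.mp (𝒯.abs_Poi_sub_le ha h H)
    have h2 := abs_le.mp (𝒯.abs_Poi_sub_le hb h H)
    rw [abs_le]
    constructor <;> linarith [h1.1, h1.2, h2.1, h2.2]
  have m1 := 𝒯.Poi_mono μ hμ (𝒯.lip_Poi a ha hΦ) (𝒯.lip_Poi b hb hΦ)
    (-((∑ x, a x + ∑ x, b x) * 𝒯.m)) Set.univ (fun _ _ _ _ _ => trivial)
    (fun H _ => by linarith [(abs_le.mp (key H)).2]) H trivial
  have m2 := 𝒯.Poi_mono μ hμ (𝒯.lip_Poi b hb hΦ) (𝒯.lip_Poi a ha hΦ)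
    (-((∑ x, a x + ∑ x, b x) * 𝒯.m)) Set.univ (fun _ _ _ _ _ => trivial)
    (fun H _ => by linarith [(abs_le.mp (key H)).1]) H trivial
  rw [← 𝒯.Poi_add μ a hμ ha hΦ, ← 𝒯.Poi_add μ b hμ hb hΦ, ← e1, ← e2] at m1 m2
  rw [e3, abs_le]
  change -(_ * 𝒯.m) ≤ _ ∧ _ ≤ _ * 𝒯.m
  constructor <;> linarith

theorem Poi_congr (κ κ' : ι → ℝ) (hκ : ∀ x, 0 ≤ κ x) (hκ' : ∀ x, 0 ≤ κ' x) (hs : ∑ x, κ x = ∑ x, κ' x)
    (hT : ∀ Φ : (P → ℝ) → ℝ, LipschitzWith 1 Φ → Equi Φ → 𝒯.T κ Φ = 𝒯.T κ' Φ)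
    {Φ : (P → ℝ) → ℝ} (hΦ : LipschitzWith 1 Φ) (h : Equi Φ) : 𝒯.Poi κ Φ = 𝒯.Poi κ' Φ := by
  have hl := lip_one_iff.mpr hΦ
  rcases (Finset.sum_nonneg fun x (_ : x ∈ Finset.univ) => hκ x).eq_or_lt with h0 | h0
  · have e1 : κ = 0 := funext fun x =>
      (Finset.sum_eq_zero_iff_of_nonneg fun x _ => hκ x).mp h0.symm x (Finset.mem_univ x)
    have e2 : κ' = 0 := funext fun x =>
      (Finset.sum_eq_zero_iff_of_nonneg fun x _ => hκ' x).mp (hs.symm.trans h0.symm) x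
        (Finset.mem_univ x)
    rw [e1, e2]
  · have key : ∀ k, (𝒯.T κ)^[k] Φ = (𝒯.T κ')^[k] Φ := by
      intro k
      induction k with
      | zero => rfl
      | succ k ih =>
        rw [Function.iterate_succ_apply', Function.iterate_succ_apply', ← ih]
        have hc : 0 < (∑ x, κ x) ^ k := pow_pos h0 k
        have a1 := (𝒯.lip_iter hκ hl k).smul ((∑ x, κ x) ^ k)⁻¹
        rw [abs_of_pos (inv_pos.mpr hc), mul_one, inv_mul_cancel₀ hc.ne'] at a1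
        have a2 := hT _ (lip_one_iff.mp a1) (by
          intro H c
          simp only [Pi.smul_apply, smul_eq_mul, 𝒯.iter_equi hκ hl h]
          field_simp)
        rw [T_smul_fun, T_smul_fun] at a2
        exact smul_right_injective _ (inv_pos.mpr hc).ne' a2
    funext H
    simp only [Poi, key, hs]

lemma F_lindeberg (k : ℕ) (A B : Fin k → ι → ℝ) (hA : ∀ j x, 0 ≤ A j x) (hB : ∀ j x, 0 ≤ B j x)
    {K : ℝ} {Φ : (P → ℝ) → ℝ} (hΦ : Lip K Φ) (I : Fin k → Set (P → ℝ))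
    (hI : ∀ j j', j ≠ j' → ∀ H ∈ I j, ∀ x d, (A j' x ≠ 0 ∨ B j' x ≠ 0) → H + 𝒯.U x d ∈ I j)
    (h : ∀ j, ∀ H ∈ I j, 𝒯.T (B j) Φ H ≤ 𝒯.T (A j) Φ H) (H : P → ℝ) (hH : ∀ j, H ∈ I j) :
    𝒯.F k B Φ H ≤ 𝒯.F k A Φ H := by
  induction k generalizing H with
  | zero => rw [F_zero, F_zero]
  | succ k ih =>
    rw [F_succ, F_succ]
    have s1 := 𝒯.F_mono k (fun j => hB j.succ) (𝒯.lip_T (hB 0) hΦ) (𝒯.lip_T (hA 0) hΦ) 0 (I 0)
      (fun j H hH x d hx => hI 0 j.succ (Fin.succ_ne_zero j).symm H hH x d (Or.inr hx))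
      (fun H hH => by simpa using h 0 H hH) H (hH 0)
    rw [mul_zero, add_zero, ← 𝒯.T_F_comm k (fun j => hB j.succ) (hB 0) hΦ,
      ← 𝒯.T_F_comm k (fun j => hB j.succ) (hA 0) hΦ] at s1
    refine s1.trans ?_
    have s2 := 𝒯.T_mono (hA 0) (𝒯.lip_F k (fun j => hB j.succ) hΦ)
      (𝒯.lip_F k (fun j => hA j.succ) hΦ) 0 H fun x d hx => by
        rw [add_zero]
        exact ih (fun j => A j.succ) (fun j => B j.succ) (fun j => hA j.succ) (fun j => hB j.succ)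
          (fun j => I j.succ)
          (fun j j' hj => hI j.succ j'.succ fun e => hj (Fin.succ_injective _ e))
          (fun j => h j.succ) _
          fun j => hI j.succ 0 (Fin.succ_ne_zero j) H (hH _) x d (Or.inl hx)
    simpa using s2

/-- Lindeberg replacement -/
theorem lindeberg (k : ℕ) (A B : Fin k → ι → ℝ) (hA : ∀ j x, 0 ≤ A j x) (hB : ∀ j x, 0 ≤ B j x)
    (hA1 : ∀ j, ∑ x, A j x = 1) (hB1 : ∀ j, ∑ x, B j x = 1)
    {Φ : (P → ℝ) → ℝ} (hΦ : LipschitzWith 1 Φ) (I : Fin k → Set (P → ℝ))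
    (hI : ∀ j j', j ≠ j' → ∀ H ∈ I j, ∀ x d, (A j' x ≠ 0 ∨ B j' x ≠ 0) → H + 𝒯.U x d ∈ I j)
    (h : ∀ j, ∀ H ∈ I j, 𝒯.T (B j) Φ H ≤ 𝒯.T (A j) Φ H) (H : P → ℝ) (hH : ∀ j, H ∈ I j) :
    (List.ofFn fun j => 𝒯.T (B j)).foldr (fun A B => A B) Φ H ≤
      (List.ofFn fun j => 𝒯.T (A j)).foldr (fun A B => A B) Φ H :=
  have _ := hA1
  have _ := hB1
  𝒯.F_lindeberg k A B hA hB (lip_one_iff.mpr hΦ) I hI h H hH

end Terms
end Crest.Agent.R141
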