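import Crest.Agent.R141.CoreD
import Crest.Agent.R141.Class

/-! The hierarchical pinning theorem. -/

set_option autoImplicit false
open Finset Function Crest.ProbabilityR.Diluted

namespace Crest.Agent.R141
open Sys

theorem exists_small {A ε : ℝ} (hA : 0 ≤ A) (hε : 0 < ε) : ∃ x : ℝ, 0 < x ∧ x ≤ 1 ∧ A * x ≤ ε := by
  refine ⟨min 1 (ε / (A + 1)), lt_min one_pos (by positivity), min_le_left _ _, ?_⟩
  refine (mul_le_mul_of_nonneg_left (min_le_right _ _) hA).trans ?_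
  rw [mul_div_assoc', div_le_iff₀ (by positivity)]
  nlinarith

theorem card_gridArr_le (n : ℕ) {T K : ℕ} (hK : 0 < K) :
    (gridArr n T (T / K + 1)).card ≤ ((K + 2) ^ n) ^ n := by
  have h1 : (gridLv T (T / K + 1)).card ≤ K + 2 := by
    refine card_image_le.trans ?_
    rw [card_range]
    have : T / (T / K + 1) < K := by
      rw [Nat.div_lt_iff_lt_mul (Nat.succ_pos _)]
      exact Nat.lt_mul_div_succ T hK
    omega
  simp only [gridArr, Fintype.card_piFinset, prod_const, card_univ, Fintype.card_fin]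
  gcongr

theorem le_of_mem_gridArr {n T Lb : ℕ} {lv : Fin n → Fin n → ℕ} (h : lv ∈ gridArr n T Lb)
    (s s' : Fin n) : lv s s' ≤ T := by
  have := Fintype.mem_piFinset.1 (Fintype.mem_piFinset.1 h s) s'
  obtain ⟨j, -, hj⟩ := mem_image.1 this
  rw [← hj]; exact min_le_right _ _

theorem Sys.coreErr_succ {L : Lev} {Ω I : Type} [Fintype Ω] [Fintype I] (S : Sys L Ω) (ω₀ : ℕ → Ω)
    (sp : I → (ℕ → Ω) → Bool) (n k : ℕ) : S.coreErr ω₀ sp n (k + 1) = S.coreErr ω₀ sp n k +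
      ∑ z : Fin n × Finset (Fin n) × (Fin n → Fin n) × (Fin n → Bool),
        if Valid z.1 z.2.1 z.2.2.1 ∧ z.2.1.card = k then S.treeErr ω₀ sp z.1 z.2.1 z.2.2.1 z.2.2.2
        else 0 := by
  simp only [Sys.coreErr, Fintype.sum_prod_type, ← sum_add_distrib]
  refine sum_congr rfl fun r _ => sum_congr rfl fun nd _ => sum_congr rfl fun par _ =>
    sum_congr rfl fun e _ => ?_
  by_cases hv : Valid r nd par
  · rcases lt_trichotomy nd.card k with h | h | h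
    · rw [if_pos ⟨hv, by omega⟩, if_pos ⟨hv, h⟩, if_neg (fun h' => by omega), add_zero]
    · rw [if_pos ⟨hv, by omega⟩, if_neg (fun h' => by omega), if_pos ⟨hv, h⟩, zero_add]
    · rw [if_neg (fun h' => by omega), if_neg (fun h' => by omega), if_neg (fun h' => by omega),
        add_zero]
  · simp [hv]

/-- the averaged error of one tree shape -/
theorem tree_avg (n : ℕ) : ∃ C : ℝ, 0 ≤ C ∧ ∀ (L : Lev), L.Unif → ∀ (M : ℕ) (β : ℕ → ℝ) (η : ℝ),
    0 < M → (∀ j, 0 < β j ∧ β j ≤ 1) → 0 ≤ η → L.T * η ≤ 1 →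
    ∀ (Sg I : Type) [Fintype Sg] [Nonempty Sg] [Fintype I] [Nonempty I] (spin : I → Sg → Bool)
      (H : Sg → ℝ) (ω₀ : ℕ → Sg × (Kx L n M → Zb n)) (r : Fin n) (nd : Finset (Fin n))
      (par : Fin n → Fin n) (e : Fin n → Bool), Valid r nd par →
    ∀ (K : ℕ) (δ x lam : ℝ), 2 ≤ K → K ≤ L.T → 0 < lam → 0 ≤ δ →
      (∀ (t : Ty n L.T) (st : Kx L n M → I), (L.T : ℝ)⁻¹ * ∑ a ∈ range L.T,
        (sysB L n M β η spin H st).N ω₀ a
        (fun m : Fin M => tauB L n M spin (t, m) (st (t, m))) ≤ δ) →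
      (Fintype.card (Kx L n M → I) : ℝ)⁻¹ * ∑ st : Kx L n M → I,
        (sysB L n M β η spin H st).coreErr ω₀ (spB L n M spin) n nd.card ≤ x →
      (Fintype.card (Kx L n M → I) : ℝ)⁻¹ * ∑ st : Kx L n M → I,
        (sysB L n M β η spin H st).treeErr ω₀ (spB L n M spin) r nd par e ≤
        C * Real.sqrt (2 / K) + C * (((K + 2) ^ n) ^ n : ℕ) *
          (x + lam + lam⁻¹ * ((δ + x + L.T * η) / β nd.card ^ nd.card + β nd.card)) := by
  obtain ⟨C₁, hC₁, h₁⟩ := class_bound n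
  obtain ⟨C₂, hC₂, h₂⟩ := W_avg n
  refine ⟨C₁ * (1 + C₂), by positivity, ?_⟩
  intro L hL M β η hM hβ hη hη1 Sg I _ _ _ _ spin H ω₀ r nd par e hv K δ x lam hK hKT hlam hδ
    hpin hx
  have hT : (0 : ℝ) < L.T := by exact_mod_cast L.T_pos
  have hK0 : (0 : ℝ) < K := by exact_mod_cast (by omega : 0 < K)
  have hLb : L.T / K + 1 ≤ L.T := by
    have : L.T / K ≤ L.T / 2 := Nat.div_le_div_left hK two_pos
    omega
  have hsq : Real.sqrt (((L.T / K + 1 : ℕ) : ℝ) / L.T) ≤ Real.sqrt (2 / K) := by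
    refine Real.sqrt_le_sqrt ?_
    have h1 : ((L.T / K : ℕ) : ℝ) ≤ L.T / K := Nat.cast_div_le
    have h2 : (1 : ℝ) ≤ L.T / K := by
      rw [le_div_iff₀ hK0, one_mul]; exact_mod_cast hKT
    rw [div_le_iff₀ hT]
    push_cast
    have : (2 : ℝ) / K * L.T = 2 * (L.T / K) := by ring
    linarith
  set cS : ℝ := (Fintype.card (Kx L n M → I) : ℝ)⁻¹ with hcS
  have hcS0 : 0 ≤ cS := by positivity
  have hcS1 : cS * Fintype.card (Kx L n M → I) = 1 :=
    inv_mul_cancel₀ (by exact_mod_cast Fintype.card_ne_zero)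
  have hx0 : 0 ≤ x := le_trans (mul_nonneg hcS0 (sum_nonneg fun _ _ =>
    Sys.coreErr_nonneg _ _ _ _ _)) hx
  have hb := (hβ nd.card).1
  set Q := x + lam + lam⁻¹ * ((δ + x + L.T * η) / β nd.card ^ nd.card + β nd.card) with hQ
  have hxQ : x ≤ Q := by
    have : 0 ≤ lam⁻¹ * ((δ + x + L.T * η) / β nd.card ^ nd.card + β nd.card) := by positivity
    linarith
  have hW : ∀ lv ∈ gridArr n L.T (L.T / K + 1), cS * ∑ st : Kx L n M → I,
      (L.T : ℝ)⁻¹ * ∑ a ∈ range L.T, (if ∀ s s', a < lv s s' then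
        (sysB L n M β η spin H st).N ω₀ a (fun i => (sysB L n M β η spin H st).W a r nd lv
          (spinLab (spB L n M spin) e i)) else 0) ≤ C₂ * Q := by
    intro lv hlv
    by_cases h0 : ∀ s s', 0 < lv s s'
    · have hle := le_of_mem_gridArr hlv
      let t : Ty n L.T := (r, nd, e, fun s s' => ⟨lv s s' - 1, by
        have := hle s s'; have := h0 s s'; omega⟩)
      have ht : t.lv = lv := by
        funext s s'
        have := h0 s s'
        simp only [t, Ty.lv]; omega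
      have := h₂ L hL M β η hM hβ hη hη1 Sg I spin H ω₀ t (fun s hs => (hv s hs).1) δ x lam hlam
        (hpin t) hx
      unfold WB at this
      rw [ht] at this
      exact this
    · have : ∀ a : ℕ, ¬ ∀ s s', a < lv s s' := fun a h =>
        h0 fun s s' => lt_of_le_of_lt (Nat.zero_le _) (h s s')
      simp only [this, if_false, sum_const_zero, mul_zero]
      exact mul_nonneg hC₂ (hx0.trans hxQ)
  refine (mul_le_mul_of_nonneg_left (sum_le_sum fun st _ =>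
    h₁ L hL _ I (sysB L n M β η spin H st) ω₀ (spB L n M spin) r nd par hv e (L.T / K + 1)
      (Nat.le_add_left _ _) hLb) hcS0).trans ?_
  rw [sum_add_distrib, sum_const, card_univ, nsmul_eq_mul, mul_add, ← mul_assoc, hcS1, one_mul,
    ← mul_sum, mul_left_comm, sum_comm, mul_sum _ _ cS]
  have h3 : ∑ lv ∈ gridArr n L.T (L.T / K + 1), cS * ∑ st : Kx L n M → I,
      ((sysB L n M β η spin H st).coreErr ω₀ (spB L n M spin) n nd.card +
      (L.T : ℝ)⁻¹ * ∑ a ∈ range L.T, (if ∀ s s', a < lv s s' then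
        (sysB L n M β η spin H st).N ω₀ a (fun i => (sysB L n M β η spin H st).W a r nd lv
          (spinLab (spB L n M spin) e i)) else 0)) ≤ (((K + 2) ^ n) ^ n : ℕ) * ((1 + C₂) * Q) := by
    refine (sum_le_sum (g := fun _ => (1 + C₂) * Q) fun lv hlv => ?_).trans ?_
    · rw [sum_add_distrib, mul_add]
      have := hW lv hlv
      linarith
    · rw [sum_const, nsmul_eq_mul]
      refine mul_le_mul_of_nonneg_right ?_ (mul_nonneg (by positivity) (hx0.trans hxQ))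
      exact_mod_cast card_gridArr_le n (by omega)
  have h4 := mul_le_mul_of_nonneg_left h3 hC₁
  have h5 := mul_le_mul_of_nonneg_left hsq hC₁
  have h6 : 0 ≤ C₁ * C₂ * Real.sqrt (2 / K) := by positivity
  nlinarith

theorem core_ind (n k : ℕ) : ∀ ε : ℝ, 0 < ε → ∃ δ : ℝ, 0 < δ ∧ ∃ β : ℕ → ℝ,
    (∀ j, 0 < β j ∧ β j ≤ 1) ∧ ∀ β' : ℕ → ℝ, (∀ j, 0 < β' j ∧ β' j ≤ 1) → (∀ j < k, β' j = β j) →
    ∀ (L : Lev), L.Unif → (L.T : ℝ)⁻¹ ≤ δ → ∀ (M : ℕ) (η : ℝ), 0 < M → 0 ≤ η → L.T * η ≤ δ →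
    L.T * η ≤ 1 →
    ∀ (Sg I : Type) [Fintype Sg] [Nonempty Sg] [Fintype I] [Nonempty I] (spin : I → Sg → Bool)
      (H : Sg → ℝ) (ω₀ : ℕ → Sg × (Kx L n M → Zb n)),
      (∀ (t : Ty n L.T) (st : Kx L n M → I), (L.T : ℝ)⁻¹ * ∑ a ∈ range L.T,
        (sysB L n M β' η spin H st).N ω₀ a
        (fun m : Fin M => tauB L n M spin (t, m) (st (t, m))) ≤ δ) →
      (Fintype.card (Kx L n M → I) : ℝ)⁻¹ * ∑ st : Kx L n M → I,
        (sysB L n M β' η spin H st).coreErr ω₀ (spB L n M spin) n k ≤ ε := by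
  induction k with
  | zero =>
    intro ε hε
    refine ⟨1, one_pos, fun _ => 1, fun _ => ⟨one_pos, le_rfl⟩, ?_⟩
    intro β' _ _ L _ _ M η _ _ _ _ Sg I _ _ _ _ spin H ω₀ _
    simp only [Sys.coreErr_zero, sum_const_zero, mul_zero]
    exact hε.le
  | succ k ih =>
    intro ε hε
    obtain ⟨C, hC, hc⟩ := tree_avg n
    obtain ⟨Nt, hNt⟩ : ∃ Nt : ℝ, Nt = Fintype.card
      (Fin n × Finset (Fin n) × (Fin n → Fin n) × (Fin n → Bool)) := ⟨_, rfl⟩
    have hNt0 : 0 ≤ Nt := hNt ▸ Nat.cast_nonneg _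
    have hε4 : 0 < ε / 4 := by positivity
    obtain ⟨s, hs0, -, hs⟩ := exists_small (A := Nt * C) (by positivity) hε4
    obtain ⟨K₁, hK₁⟩ := exists_nat_ge (2 / s ^ 2)
    obtain ⟨K, hK2, hK⟩ : ∃ K : ℕ, 2 ≤ K ∧ 2 / s ^ 2 ≤ K :=
      ⟨K₁ + 2, by omega, hK₁.trans (by push_cast; linarith)⟩
    have hK0 : (0 : ℝ) < K := by exact_mod_cast (by omega : 0 < K)
    have hsq : Real.sqrt (2 / K) ≤ s := by
      rw [Real.sqrt_le_left hs0.le, div_le_iff₀ hK0]
      rw [div_le_iff₀ (by positivity)] at hK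
      linarith
    obtain ⟨G, hG⟩ : ∃ G : ℝ, G = (((K + 2) ^ n) ^ n : ℕ) := ⟨_, rfl⟩
    have hG0 : 0 ≤ G := hG ▸ Nat.cast_nonneg _
    obtain ⟨lam, hl0, -, hl⟩ := exists_small (A := Nt * (C * G)) (by positivity) hε4
    obtain ⟨b, hb0, hb1, hb⟩ := exists_small (A := Nt * (C * G) * lam⁻¹) (by positivity) hε4
    obtain ⟨x, hx0, -, hx⟩ := exists_small
      (A := 1 + Nt * (C * G) * (1 + lam⁻¹ * (3 / b ^ k))) (by positivity) hε4
    obtain ⟨δ₀, hδ₀, β₀, hβ₀, h₀⟩ := ih x hx0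
    refine ⟨min δ₀ (min x (K : ℝ)⁻¹), lt_min hδ₀ (lt_min hx0 (by positivity)), update β₀ k b,
      fun j => ?_, ?_⟩
    · by_cases hj : j = k
      · subst hj; rw [update_self]; exact ⟨hb0, hb1⟩
      · rw [update_of_ne hj]; exact hβ₀ j
    intro β' hβ' hββ L hL hT M η hM hη hTη hTη1 Sg I _ _ _ _ spin H ω₀ hpin
    have hβk : β' k = b := by rw [hββ k (Nat.lt_succ_self k), update_self]
    have hT0 : (0 : ℝ) < L.T := by exact_mod_cast L.T_pos
    have hKT : K ≤ L.T := by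
      have := hT.trans ((min_le_right _ _).trans (min_le_right _ _))
      rw [inv_le_inv₀ hT0 hK0] at this
      exact_mod_cast this
    have h1 := h₀ β' hβ' (fun j hj => by
      rw [hββ j (by omega), update_of_ne hj.ne]) L hL (hT.trans (min_le_left _ _)) M η hM hη
      (hTη.trans (min_le_left _ _)) hTη1 Sg I spin H ω₀
      (fun t st => (hpin t st).trans (min_le_left _ _))
    have hTx : L.T * η ≤ x := hTη.trans ((min_le_right _ _).trans (min_le_left _ _))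
    set cS : ℝ := (Fintype.card (Kx L n M → I) : ℝ)⁻¹ with hcS
    have hcS0 : 0 ≤ cS := by positivity
    have h2 : ∀ z : Fin n × Finset (Fin n) × (Fin n → Fin n) × (Fin n → Bool),
        cS * ∑ st : Kx L n M → I, (if Valid z.1 z.2.1 z.2.2.1 ∧ z.2.1.card = k then
          (sysB L n M β' η spin H st).treeErr ω₀ (spB L n M spin) z.1 z.2.1 z.2.2.1 z.2.2.2
          else 0) ≤ C * s + C * G * (x + lam + lam⁻¹ * (3 / b ^ k * x + b)) := by
      intro z
      by_cases hz : Valid z.1 z.2.1 z.2.2.1 ∧ z.2.1.card = k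
      · simp only [if_pos hz]
        have := hc L hL M β' η hM hβ' hη hTη1 Sg I spin H ω₀ z.1 z.2.1 z.2.2.1 z.2.2.2 hz.1 K x x
          lam hK2 hKT hl0 hx0.le
          (fun t st => (hpin t st).trans ((min_le_right _ _).trans (min_le_left _ _)))
          (hz.2 ▸ h1)
        refine this.trans ?_
        rw [hz.2, hβk, ← hG]
        have h3 : (x + x + L.T * η) / b ^ k ≤ 3 / b ^ k * x := by
          rw [div_mul_eq_mul_div]
          exact div_le_div_of_nonneg_right (by linarith) (by positivity)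
        gcongr
      · simp only [if_neg hz, sum_const_zero, mul_zero]
        positivity
    simp only [Sys.coreErr_succ]
    rw [sum_add_distrib, mul_add, sum_comm, mul_sum _ _ cS]
    have h4 := sum_le_sum fun z (_ : z ∈ univ) => h2 z
    rw [sum_const, card_univ, nsmul_eq_mul, ← hNt] at h4
    rw [mul_sum] at h1 ⊢
    nlinarith

theorem core : CoreStmt := by
  intro n ε hε
  obtain ⟨δ, hδ, β, hβ, h⟩ := core_ind n n ε hε
  obtain ⟨T₀, M₀, hp⟩ := pin_concrete hδ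
  obtain ⟨d, hd0, hd1, hdδ, hdε⟩ : ∃ d : ℝ, 0 < d ∧ d ≤ 1 ∧ d ≤ δ ∧ d ≤ ε :=
    ⟨min 1 (min δ ε), lt_min one_pos (lt_min hδ hε), min_le_left _ _,
      (min_le_right _ _).trans (min_le_left _ _), (min_le_right _ _).trans (min_le_right _ _)⟩
  obtain ⟨T₁, hT₁⟩ := exists_nat_ge d⁻¹
  obtain ⟨T, hT0, hTT₀, hTd⟩ : ∃ T : ℕ, 0 < T ∧ T₀ ≤ T ∧ (T : ℝ)⁻¹ ≤ d := by
    refine ⟨T₀ + T₁ + 1, by omega, by omega, ?_⟩
    rw [inv_le_comm₀ (by positivity) hd0]
    push_cast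
    have : (0 : ℝ) ≤ T₀ := Nat.cast_nonneg _
    linarith
  obtain ⟨M₁, hM₁⟩ := exists_nat_ge ((T / d) ^ 2)
  obtain ⟨M, hM0, hMM₀, hMd⟩ : ∃ M : ℕ, 0 < M ∧ M₀ ≤ M ∧ (T / d) ^ 2 ≤ (M : ℝ) := by
    refine ⟨M₀ + M₁ + 1, by omega, by omega, ?_⟩
    push_cast
    have : (0 : ℝ) ≤ M₀ := Nat.cast_nonneg _
    linarith
  have hM' : (0 : ℝ) < M := by exact_mod_cast hM0
  have hs : 0 < Real.sqrt M := Real.sqrt_pos.2 hM'
  have hη2 : (Real.sqrt M)⁻¹ ^ 2 * M = 1 := by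
    rw [inv_pow, Real.sq_sqrt hM'.le, inv_mul_cancel₀ hM'.ne']
  have hTη : (T : ℝ) * (Real.sqrt M)⁻¹ ≤ d := by
    rw [← div_eq_mul_inv, div_le_iff₀ hs, mul_comm, ← div_le_iff₀ hd0]
    exact Real.le_sqrt_of_sq_le hMd
  have hη : 0 < (Real.sqrt M)⁻¹ := inv_pos.2 hs
  refine ⟨ulev T hT0, Kx (ulev T hT0) n M, Kx (ulev T hT0) n M → Zb n, inferInstance,
    inferInstance, inferInstance, inferInstance, ptB (ulev T hT0) n M β (Real.sqrt M)⁻¹, n + 1,
    ulev_unif T hT0, hTd.trans hdε, fun k b y => abs_loc_le (fun j => ⟨(hβ j).1.le, (hβ j).2⟩) hη.le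
      (hTη.trans hd1) _ _ _, ?_⟩
  intro Sg I _ _ _ _ spin H ω₀
  exact h β hβ (fun _ _ => rfl) (ulev T hT0) (ulev_unif T hT0) (hTd.trans hdδ) M _ hM0 hη.le
    (hTη.trans hdδ) (hTη.trans hd1) Sg I spin H ω₀ fun t st =>
      hp (ulev T hT0) (ulev_unif T hT0) hTT₀ n M β _ hMM₀ hη hη2 Sg I spin H st t ω₀

end Crest.Agent.R141
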