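import Crest.Agent.R141.Gam

/-! Row 141: the multi-parameter expansion of a tilted expectation in sign gadgets. -/

set_option autoImplicit false
open Finset Function MeasureTheory Crest.ProbabilityR.Diluted
namespace Crest.Agent.R141
open Sys

namespace Expand

theorem states_empty {ι : Type} [LinearOrder ι] (r : ι) :
    states r ∅ = [⟨∅, fun _ => r, fun _ => r⟩] := by simp [states, statesL]

theorem states_insert {ι : Type} [LinearOrder ι] (r : ι) {S : Finset ι} {s : ι}
    (hs : ∀ d ∈ S, d < s) :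
    states r (insert s S) = (states r S).flatMap fun st => (insert r st.nd).toList.flatMap fun q =>
      [⟨st.nd, st.par, update st.pl s q⟩, ⟨insert s st.nd, update st.par s q, update st.pl s s⟩] := by
  unfold states
  rw [Finset.sort_insert (r := (· ≥ ·)) (h₁ := fun b hb => (hs b hb).le)
    (h₂ := fun hb => lt_irrefl _ (hs s hb)), statesL]

theorem mem_states_insert {ι : Type} [LinearOrder ι] (r : ι) {S : Finset ι} {s : ι}
    (hs : ∀ d ∈ S, d < s) {st' : St ι} :
    st' ∈ states r (insert s S) ↔ ∃ st ∈ states r S, ∃ q ∈ insert r st.nd,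
      st' = ⟨st.nd, st.par, update st.pl s q⟩ ∨
        st' = ⟨insert s st.nd, update st.par s q, update st.pl s s⟩ := by
  simp only [states_insert r hs, List.mem_flatMap, Finset.mem_toList, List.mem_cons,
    List.not_mem_nil, or_false]

theorem sum_map_flatMap {α β : Type} (l : List α) (g : α → List β) (f : β → ℝ) :
    ((l.flatMap g).map f).sum = (l.map fun a => ((g a).map f).sum).sum := by
  induction l with
  | nil => simp
  | cons a l ih => simp [ih]

theorem sum_states_insert {ι : Type} [LinearOrder ι] (r : ι) {S : Finset ι} {s : ι}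
    (hs : ∀ d ∈ S, d < s) (f : St ι → ℝ) :
    ((states r (insert s S)).map f).sum = ((states r S).map fun st => ∑ q ∈ insert r st.nd,
      (f ⟨st.nd, st.par, update st.pl s q⟩ +
        f ⟨insert s st.nd, update st.par s q, update st.pl s s⟩)).sum := by
  rw [states_insert r hs, sum_map_flatMap]
  simp only [sum_map_flatMap, Finset.sum_map_toList]
  simp

theorem hasDerivAt_list {α : Type} (l : List α) {f : α → ℝ → ℝ} {f' : α → ℝ} {t : ℝ}
    (h : ∀ a ∈ l, HasDerivAt (f a) (f' a) t) :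
    HasDerivAt (fun x => (l.map fun a => f a x).sum) (l.map f').sum t := by
  induction l with
  | nil => simpa using hasDerivAt_const t (0 : ℝ)
  | cons a l ih =>
    simp only [List.map_cons, List.sum_cons]
    exact (h a List.mem_cons_self).add (ih fun b hb => h b (List.mem_cons_of_mem _ hb))

theorem abs_list_sub_le {α : Type} (l : List α) {f g : α → ℝ} {C : ℝ}
    (h : ∀ a ∈ l, |f a - g a| ≤ C) : |(l.map f).sum - (l.map g).sum| ≤ l.length * C := by
  induction l with
  | nil => simp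
  | cons a l ih =>
    have h1 := h a List.mem_cons_self
    have h2 := ih fun b hb => h b (List.mem_cons_of_mem _ hb)
    simp only [List.map_cons, List.sum_cons, List.length_cons]
    have := abs_add_le (f a - g a) ((l.map f).sum - (l.map g).sum)
    push_cast
    rw [show f a + (l.map f).sum - (g a + (l.map g).sum) =
      f a - g a + ((l.map f).sum - (l.map g).sum) by ring]
    linarith

end Expand

open Expand

theorem states_spec {ι : Type} [LinearOrder ι] (r : ι) (S : Finset ι) (hS : ∀ s ∈ S, r < s) :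
    ∀ st ∈ states r S, st.nd ⊆ S ∧ Valid r st.nd st.par ∧ st.pl r = r ∧
      (∀ s ∈ S, st.pl s ∈ insert r st.nd) ∧ (∀ s ∈ st.nd, st.pl s = s) := by
  induction S using Finset.induction_on_max with
  | empty =>
    intro st hst
    rw [states_empty, List.mem_singleton] at hst
    subst hst
    simp [Valid]
  | insert s S hs ih =>
    intro st' hst'
    obtain ⟨st, hst, q, hq, h⟩ := (mem_states_insert r hs).1 hst'
    obtain ⟨h1, h2, h3, h4, h5⟩ := ih (fun d hd => hS d (mem_insert_of_mem hd)) st hst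
    have hrs : r < s := hS s (mem_insert_self _ _)
    rcases h with rfl | rfl
    · refine ⟨h1.trans (subset_insert _ _), h2, (update_of_ne hrs.ne _ _).trans h3,
        fun d hd => ?_, fun d hd => (update_of_ne (hs d (h1 hd)).ne _ _).trans (h5 d hd)⟩
      rcases mem_insert.1 hd with rfl | hd
      · simpa using hq
      · simpa [update_of_ne (hs d hd).ne] using h4 d hd
    · refine ⟨insert_subset_insert _ h1, h2.insert_leaf (fun d hd => ?_) hq,
        (update_of_ne hrs.ne _ _).trans h3, fun d hd => ?_, fun d hd => ?_⟩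
      · rcases mem_insert.1 hd with rfl | hd
        exacts [hrs, hs d (h1 hd)]
      · rcases mem_insert.1 hd with rfl | hd
        · simp
        · simp only [update_of_ne (hs d hd).ne]
          exact insert_subset_insert _ (subset_insert _ _) (h4 d hd)
      · rcases mem_insert.1 hd with rfl | hd
        · simp
        · exact (update_of_ne (hs d (h1 hd)).ne _ _).trans (h5 d hd)

theorem states_complete {ι : Type} [LinearOrder ι] (r : ι) (S : Finset ι) (par : ι → ι)
    (hv : Valid r S par) : ∃ st ∈ states r S, st.nd = S ∧ ∀ d ∈ S, st.par d = par d := by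
  induction S using Finset.induction_on_max with
  | empty => exact ⟨_, by rw [states_empty]; exact List.mem_singleton_self _, rfl, by simp⟩
  | insert s S hs ih =>
    obtain ⟨st, hst, h1, h2⟩ := ih (hv.of_insert hs)
    refine ⟨_, (mem_states_insert r hs).2 ⟨st, hst, par s, h1 ▸ hv.par_mem, Or.inr rfl⟩,
      by simp [h1], fun d hd => ?_⟩
    rcases mem_insert.1 hd with rfl | hd
    · simp
    · exact (update_of_ne (hs d hd).ne _ _).trans (h2 d hd)

namespace Expand

section Lab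
variable {Ω ι : Type} [LinearOrder ι]

theorem update_eq_mul (h : ι → Fn Ω) (q : ι) (φ : Fn Ω) :
    update h q (h q * φ) = h * Pi.mulSingle q φ := by
  funext q'
  by_cases hq : q' = q
  · subst hq; simp
  · simp [hq]

theorem lab_eq (r : ι) (R : Finset ι) (st : St ι) (ψ : ι → Fn Ω) :
    st.lab r R ψ = ∏ s ∈ insert r R, Pi.mulSingle (st.pl s) (ψ s) := by
  funext q
  rw [St.lab, Finset.prod_apply, prod_filter]
  refine prod_congr rfl fun s _ => ?_
  simp only [Pi.mulSingle_apply, eq_comm]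

theorem lab_insert {r s : ι} {R : Finset ι} (hs : s ∉ insert r R) (nd nd' : Finset ι)
    (par par' pl : ι → ι) (q : ι) (ψ : ι → Fn Ω) :
    St.lab r (insert s R) ⟨nd', par', update pl s q⟩ ψ =
      St.lab r R ⟨nd, par, pl⟩ ψ * Pi.mulSingle q (ψ s) := by
  rw [lab_eq, lab_eq, Finset.insert_comm, prod_insert hs, mul_comm]
  simp only [update_self]
  congr 1
  exact prod_congr rfl fun d hd => by rw [update_of_ne (ne_of_mem_of_not_mem hd hs)]

theorem abs_lab_le (r : ι) (R : Finset ι) (st : St ι) {ψ : ι → Fn Ω} (hψ : ∀ s ω, |ψ s ω| ≤ 1)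
    (q : ι) (ω : ℕ → Ω) : |st.lab r R ψ q ω| ≤ 1 := by
  rw [St.lab, Finset.prod_apply, abs_prod]
  exact prod_le_one (fun _ _ => abs_nonneg _) fun s _ => hψ s ω

end Lab

section Tree
variable {L : Lev} {Ω ι : Type} [Fintype Ω] [LinearOrder ι] [Fintype ι] [WellFoundedLT ι]
  (S : Sys L Ω) (a : ℕ) (r : ι)

/-- the value of one state at given branching levels -/
noncomputable def tv (R : Finset ι) (ψ : ι → Fn Ω) (ω : ℕ → Ω) (st : St ι) (J : ι → ℕ) : ℝ :=
  S.E a (S.gam st.nd st.par (lev st.nd st.par a J) (st.lab r R ψ) r) ω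

/-- the mixed derivative of order `R` -/
noncomputable def D (R : Finset ι) (ψ : ι → Fn Ω) (ω : ℕ → Ω) : ℝ :=
  ((states r R).map fun st => (-1 : ℝ) ^ st.nd.card * avgJ L ι (tv S a r R ψ ω st)).sum

variable {r}

omit [Fintype ι] in
theorem hasDerivAt_tv {R : Finset ι} {s : ι} (hs : ∀ d ∈ insert r R, d < s) (hR : ∀ d ∈ R, r < d)
    {st : St ι} (hst : st ∈ states r R) (ψ : ι → Fn Ω) (ω : ℕ → Ω) (J : ι → ℕ) {H : ℝ → Fn Ω}
    {t : ℝ} (hH : ∀ ω, HasDerivAt (fun x => H x ω) (ψ s ω) t) :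
    HasDerivAt (fun x => tv (S.tilt (H x)) a r R ψ ω st J)
      (∑ q ∈ insert r st.nd,
        (tv (S.tilt (H t)) a r (insert s R) ψ ω ⟨st.nd, st.par, update st.pl s q⟩ J -
          ∑ x ∈ range L.T, L.p x * tv (S.tilt (H t)) a r (insert s R) ψ ω
            ⟨insert s st.nd, update st.par s q, update st.pl s s⟩ (update J s x))) t := by
  obtain ⟨h1, hv, h3, h4, -⟩ := states_spec r R hR st hst
  have hs' : s ∉ insert r R := fun h => lt_irrefl _ (hs s h)
  have hsn : ∀ d ∈ insert r st.nd, d < s := fun d hd => hs d (insert_subset_insert _ h1 hd)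
  have hr : lev st.nd st.par a J r = a := lev_of_notMem hv.root_notMem a J
  have := S.hasDerivAt_E_gam hv (lev st.nd st.par a J) hH (h := fun _ => st.lab r R ψ) (h' := 0)
    (fun q ω => hasDerivAt_const _ _) ω
  rw [hr] at this
  refine this.congr_deriv (sum_congr rfl fun q hq => ?_)
  set T := S.tilt (H t)
  set c := lev st.nd st.par a J
  set h := st.lab r R ψ with hh
  obtain ⟨Λ, hΛ⟩ := T.exists_gam_linear hv c h hq
  have e1 : tv T a r (insert s R) ψ ω ⟨st.nd, st.par, update st.pl s q⟩ J =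
      T.E a (Λ (h q * ψ s)) ω := by
    rw [tv, lab_insert hs' st.nd _ st.par, ← update_eq_mul, ← hΛ]
  have e2 : ∀ x, tv T a r (insert s R) ψ ω ⟨insert s st.nd, update st.par s q, update st.pl s s⟩
      (update J s x) = T.E a (Λ (h q * T.E (max (c q) x) (ψ s))) ω := by
    intro x
    have hs1 : h s = 1 := by
      rw [hh, St.lab]
      refine prod_eq_one fun d hd => ?_
      obtain ⟨hd1, hd2⟩ := mem_filter.1 hd
      rcases mem_insert.1 hd1 with rfl | hd1
      · exact absurd (h3.symm.trans hd2) (hs d (mem_insert_self _ _)).ne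
      · exact absurd hd2 (hsn _ (h4 d hd1)).ne
    rw [tv, lab_insert hs' st.nd _ st.par, ← update_eq_mul]
    change T.E a (T.gam (insert s st.nd) (update st.par s q) _ (update h s (h s * ψ s)) r) ω = _
    rw [hs1, one_mul, T.gam_insert_leaf hv hsn hq (c := c)
      (fun d hd => lev_insert_of_lt (hsn d (mem_insert_of_mem hd)) a x J),
      lev_insert_self (hsn q hq), hΛ]
  have e3 : (0 : ι → Fn Ω) q + h q * T.score (c q) (ψ s) =
      h q * ψ s - ∑ x ∈ range L.T, L.p x • (h q * T.E (max (c q) x) (ψ s)) := by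
    funext ω'
    simp only [Pi.zero_apply, Pi.add_apply, zero_add, Pi.mul_apply, score, Pi.sub_apply,
      Finset.sum_apply, Pi.smul_apply, smul_eq_mul, mul_sub, mul_sum, mul_left_comm]
  simp only [e1, e2]
  rw [hΛ, e3]
  simp only [map_sub, map_sum, map_smul, Pi.sub_apply, Finset.sum_apply, Pi.smul_apply,
    smul_eq_mul]

theorem hasDerivAt_D {R : Finset ι} {s : ι} (hs : ∀ d ∈ insert r R, d < s) (hR : ∀ d ∈ R, r < d)
    (ψ : ι → Fn Ω) (ω : ℕ → Ω) {H : ℝ → Fn Ω}
    {t : ℝ} (hH : ∀ ω, HasDerivAt (fun x => H x ω) (ψ s ω) t) :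
    HasDerivAt (fun x => D (S.tilt (H x)) a r R ψ ω) (D (S.tilt (H t)) a r (insert s R) ψ ω) t := by
  unfold D
  rw [sum_states_insert r fun d hd => hs d (mem_insert_of_mem hd)]
  refine hasDerivAt_list _ fun st hst => ?_
  have h1 := (states_spec r R hR st hst).1
  have hsn : s ∉ st.nd := fun h => lt_irrefl _ (hs s (mem_insert_of_mem (h1 h)))
  refine HasDerivAt.congr_deriv (HasDerivAt.const_mul _ (HasDerivAt.fun_sum fun J _ =>
    (hasDerivAt_tv S a hs hR hst ψ ω _ hH).const_mul _)) ?_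
  change _ * avgJ L ι (fun J => ∑ q ∈ insert r st.nd,
    (tv (S.tilt (H t)) a r (insert s R) ψ ω ⟨st.nd, st.par, update st.pl s q⟩ J -
      ∑ x ∈ range L.T, L.p x * tv (S.tilt (H t)) a r (insert s R) ψ ω
        ⟨insert s st.nd, update st.par s q, update st.pl s s⟩ (update J s x))) = _
  rw [avgJ_sum, mul_sum]
  refine sum_congr rfl fun q _ => ?_
  rw [avgJ_sub, avgJ_update, card_insert_of_notMem hsn, pow_succ]
  ring

omit [Fintype ι] [WellFoundedLT ι] in
/-- a sign change of exactly one label in a flipped cluster kills the expectation -/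
theorem vanish {nd : Finset ι} {par : ι → ι} (hv : Valid r nd par) (c : ι → ℕ)
    {fl : ℕ → Ω → Ω} (hfl : IsProj S S fl) {b : ℕ} (hab : a < b) (hb : b ≤ L.T)
    (hco : ∀ i x, i + 1 ≠ b → fl i x = x) (A : ι → Prop) [DecidablePred A]
    (hA : ∀ d ∈ nd, b ≤ c d → (A d ↔ A (par d))) (h : ι → Fn Ω) {q₀ : ι} (hq₀ : q₀ ∈ insert r nd)
    (h0 : A q₀) (h1 : ∀ ω, h q₀ (pmap fl ω) = -h q₀ ω)
    (h2 : ∀ q, q ≠ q₀ → A q → ∀ ω, h q (pmap fl ω) = h q ω) (ω : ℕ → Ω) :
    S.E a (S.gam nd par c h r) ω = 0 := by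
  have e := S.gam_flip c hfl hb hco A hA h r
  have e1 : (fun q => if A q then (fun ω => h q (pmap fl ω)) else h q) = update h q₀ (-h q₀) := by
    funext q
    by_cases hq : q = q₀
    · subst hq
      rw [if_pos h0, update_self]
      exact funext h1
    · rw [update_of_ne hq]
      split_ifs with hA
      · exact funext (h2 q hq hA)
      · rfl
  obtain ⟨Λ, hΛ⟩ := S.exists_gam_linear hv c h hq₀
  rw [e1, hΛ, map_neg, ← hΛ, update_eq_self] at e
  have e2 := congrArg (fun f => S.E a f ω) e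
  simp only [map_neg, Pi.neg_apply] at e2
  split_ifs at e2
  · rw [S.E_flip hfl hab hb hco] at e2
    linarith
  · linarith

omit [Fintype Ω] [Fintype ι] [WellFoundedLT ι] in
theorem lab_flip {R : Finset ι} (st : St ι) {ψ : ι → Fn Ω} (fl : ℕ → Ω → Ω) {q : ι}
    (h : ∀ s ∈ insert r R, st.pl s = q → ∀ ω, ψ s (pmap fl ω) = ψ s ω) (ω : ℕ → Ω) :
    st.lab r R ψ q (pmap fl ω) = st.lab r R ψ q ω := by
  simp only [St.lab, Finset.prod_apply]
  exact prod_congr rfl fun s hs => h s (mem_filter.1 hs).1 (mem_filter.1 hs).2 ω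

omit [Fintype Ω] [Fintype ι] [WellFoundedLT ι] in
theorem lab_flip_neg {R : Finset ι} (st : St ι) {ψ : ι → Fn Ω} (fl : ℕ → Ω → Ω) {s₀ : ι}
    (hs₀ : s₀ ∈ insert r R) (h0 : ∀ ω, ψ s₀ (pmap fl ω) = -ψ s₀ ω)
    (h : ∀ s ∈ insert r R, s ≠ s₀ → st.pl s = st.pl s₀ → ∀ ω, ψ s (pmap fl ω) = ψ s ω)
    (ω : ℕ → Ω) : st.lab r R ψ (st.pl s₀) (pmap fl ω) = -st.lab r R ψ (st.pl s₀) ω := by
  simp only [St.lab, Finset.prod_apply]
  have hm : s₀ ∈ (insert r R).filter fun s => st.pl s = st.pl s₀ := mem_filter.2 ⟨hs₀, rfl⟩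
  rw [← mul_prod_erase _ _ hm, ← mul_prod_erase _ _ hm, h0, neg_mul]
  congr 2
  exact prod_congr rfl fun s hs => h s (mem_filter.1 (mem_of_mem_erase hs)).1 (ne_of_mem_erase hs)
    (mem_filter.1 (mem_of_mem_erase hs)).2 ω

theorem D_eq_zero {R : Finset ι} (hR : ∀ d ∈ R, r < d) {ψ : ι → Fn Ω} {fl : ℕ → Ω → Ω}
    (hfl : IsProj S S fl) {b : ℕ} (hab : a < b) (hb : b ≤ L.T)
    (hco : ∀ i x, i + 1 ≠ b → fl i x = x) (h0 : ∀ ω, ψ r (pmap fl ω) = -ψ r ω)
    (h1 : ∀ s ∈ R, ∀ ω, ψ s (pmap fl ω) = ψ s ω) (ω : ℕ → Ω) : D S a r R ψ ω = 0 := by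
  refine List.sum_eq_zero fun x hx => ?_
  obtain ⟨st, hst, rfl⟩ := List.mem_map.1 hx
  obtain ⟨-, hv, h3, -, -⟩ := states_spec r R hR st hst
  have h1' : ∀ s ∈ insert r R, s ≠ r → ∀ ω, ψ s (pmap fl ω) = ψ s ω := fun s hs hsr =>
    h1 s ((mem_insert.1 hs).resolve_left hsr)
  have : tv S a r R ψ ω st = fun _ => 0 := funext fun J =>
    vanish S a hv _ hfl hab hb hco (fun _ => True) (fun _ _ _ => Iff.rfl) _ (mem_insert_self _ _)
      trivial (fun ω => by
        have := lab_flip_neg st fl (mem_insert_self r R) h0 (fun s hs hsr _ => h1' s hs hsr) ω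
        rwa [h3] at this)
      (fun q hq _ => lab_flip st fl fun s hs hsq => h1' s hs fun e => hq (by rw [← hsq, e, h3])) ω
  rw [this, avgJ_const, mul_zero]

omit [WellFoundedLT ι] in
theorem abs_E_gam_sub_le {nd : Finset ι} {par : ι → ι} (hv : Valid r nd par) (c : ι → ℕ)
    {h : ι → Fn Ω} (hh : ∀ q ω, |h q ω| ≤ 1) {V : Fn Ω} {B : ℝ} (hV : ∀ ω, |V ω| ≤ B)
    (ω : ℕ → Ω) :
    |(S.tilt V).E (c r) ((S.tilt V).gam nd par c h r) ω - S.E (c r) (S.gam nd par c h r) ω| ≤
      Fintype.card ι * (2 * B) := by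
  have hB : 0 ≤ B := (abs_nonneg _).trans (hV ω)
  have := norm_image_sub_le_of_norm_deriv_le_segment_01' (C := Fintype.card ι * (2 * B))
    (fun t _ => (S.hasDerivAt_E_gam hv c (H := fun x => x • V) (V := V) (t := t)
      (h := fun _ => h) (h' := 0) (fun ω => by simpa using (hasDerivAt_id t).mul_const (V ω))
      (fun q ω => hasDerivAt_const _ _) ω).hasDerivWithinAt) fun t _ => by
      refine (abs_sum_le_sum_abs _ _).trans ((sum_le_card_nsmul _ _ (2 * B) fun q hq => ?_).trans ?_)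
      · refine Sys.abs_E_le_of_le _ _ (fun ω' => ?_) ω
        refine (Sys.abs_gam_le_prod _ hv c (A := update (fun _ => 1) q (2 * B)) (fun q' ω'' => ?_)
          ω').trans (le_of_eq ?_)
        · by_cases hq' : q' = q
          · subst hq'
            simp only [update_self, Pi.zero_apply, zero_add, Pi.mul_apply, abs_mul]
            exact (mul_le_of_le_one_left (abs_nonneg _) (hh _ _)).trans
              (Sys.abs_score_le _ _ hV _)
          · simp only [update_of_ne hq']; exact hh _ _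
        · rw [prod_update_of_mem hq]; simp
      · rw [nsmul_eq_mul]
        exact mul_le_mul_of_nonneg_right (by exact_mod_cast card_le_univ _) (by positivity)
  simpa only [one_smul, zero_smul, tilt_zero, Real.norm_eq_abs] using this

theorem abs_D_sub_le {R : Finset ι} (hR : ∀ d ∈ R, r < d) {ψ : ι → Fn Ω}
    (hψ : ∀ s ω, |ψ s ω| ≤ 1) {V : Fn Ω} {B : ℝ} (hV : ∀ ω, |V ω| ≤ B) (ω : ℕ → Ω) :
    |D (S.tilt V) a r R ψ ω - D S a r R ψ ω| ≤
      (states r R).length * (Fintype.card ι * (2 * B)) := by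
  refine abs_list_sub_le _ fun st hst => ?_
  obtain ⟨-, hv, -⟩ := states_spec r R hR st hst
  rw [← mul_sub, abs_mul, abs_pow, abs_neg, abs_one, one_pow, one_mul, ← avgJ_sub]
  refine (abs_avgJ_le _).trans (avgJ_le fun J _ => ?_)
  have := abs_E_gam_sub_le S hv (lev st.nd st.par a J) (abs_lab_le r R st hψ) hV ω
  rwa [lev_of_notMem hv.root_notMem] at this

/-- the iterated mean value estimate -/
theorem mvt {X : Finset ι} (hX : ∀ d ∈ X, r < d) {ψ : ι → Fn Ω} (hψ : ∀ s ω, |ψ s ω| ≤ 1)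
    (hz : ∀ s ∈ X, ∃ (fl : ℕ → Ω → Ω) (b : ℕ), IsProj S S fl ∧ a < b ∧ b ≤ L.T ∧
      (∀ i x, i + 1 ≠ b → fl i x = x) ∧ (∀ ω, ψ r (pmap fl ω) = -ψ r ω) ∧
      ∀ s' ∈ X, s' ≠ s → ∀ ω, ψ s' (pmap fl ω) = ψ s' ω)
    {β : ℝ} (hβ : 0 ≤ β) (ω : ℕ → Ω) (R' : Finset ι) :
    ∀ (R : Finset ι) (t : ι → ℝ), R ∪ R' = X → (∀ x ∈ R, ∀ y ∈ R', x < y) →
      (∀ s, 0 ≤ t s ∧ t s ≤ β) → (∀ s ∈ R', t s = β) →
      |D (S.tilt (∑ s ∈ X, t s • ψ s)) a r R ψ ω - β ^ R'.card * D S a r X ψ ω| ≤
        β ^ R'.card * ((states r X).length * (Fintype.card ι * (2 * (Fintype.card ι * β)))) := by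
  induction R' using Finset.induction_on_min with
  | empty =>
    intro R t h1 _ ht _
    rw [union_empty] at h1
    subst h1
    simp only [card_empty, pow_zero, one_mul]
    refine abs_D_sub_le S a hX hψ (fun ω' => ?_) ω
    rw [Finset.sum_apply]
    refine (abs_sum_le_sum_abs _ _).trans ((sum_le_card_nsmul _ _ β fun s _ => ?_).trans ?_)
    · rw [Pi.smul_apply, smul_eq_mul, abs_mul, abs_of_nonneg (ht s).1]
      exact (mul_le_of_le_one_right (ht s).1 (hψ s ω')).trans (ht s).2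
    · rw [nsmul_eq_mul]
      exact mul_le_mul_of_nonneg_right (by exact_mod_cast card_le_univ _) hβ
  | insert s R' hs ih =>
    intro R t h1 h2 ht ht'
    have hsn : s ∉ R' := fun h => lt_irrefl _ (hs s h)
    have hsX : s ∈ X := h1 ▸ mem_union_right _ (mem_insert_self _ _)
    have hRX : R ⊆ X := h1 ▸ subset_union_left
    have hRs : ∀ d ∈ R, d < s := fun d hd => h2 d hd s (mem_insert_self _ _)
    have hsR : ∀ d ∈ insert r R, d < s := fun d hd => by
      rcases mem_insert.1 hd with rfl | hd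
      exacts [hX s hsX, hRs d hd]
    set K := β ^ R'.card * D S a r X ψ ω with hK
    have hd : ∀ x, HasDerivAt
        (fun x => D (S.tilt (∑ s' ∈ X, update t s x s' • ψ s')) a r R ψ ω - x * K)
        (D (S.tilt (∑ s' ∈ X, update t s x s' • ψ s')) a r (insert s R) ψ ω - K) x := by
      intro x
      refine (hasDerivAt_D S a hsR (fun d hd => hX d (hRX hd)) ψ ω
        (H := fun x => ∑ s' ∈ X, update t s x s' • ψ s') fun ω' => ?_).sub
        (by simpa using (hasDerivAt_id x).mul_const K)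
      have e : (fun x => (∑ s' ∈ X, update t s x s' • ψ s') ω') =
          fun x => x * ψ s ω' + ∑ s' ∈ X.erase s, t s' * ψ s' ω' := by
        funext y
        rw [Finset.sum_apply, ← add_sum_erase _ _ hsX, update_self]
        congr 1
        exact sum_congr rfl fun s' hs' => by rw [update_of_ne (ne_of_mem_erase hs')]; rfl
      rw [e]
      exact (hasDerivAt_mul_const (ψ s ω')).add_const _
    have key := norm_image_sub_le_of_norm_deriv_le_segment' (a := 0) (b := β)
      (fun x _ => (hd x).hasDerivWithinAt) (fun x hx => ih (insert s R) (update t s x)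
        (by rw [← h1, insert_union, union_insert])
        (fun y hy z hz => by
          rcases mem_insert.1 hy with rfl | hy
          exacts [hs z hz, h2 y hy z (mem_insert_of_mem hz)])
        (fun s' => by
          by_cases h : s' = s
          · subst h; rw [update_self]; exact ⟨hx.1, hx.2.le⟩
          · rw [update_of_ne h]; exact ht s')
        fun s' hs' => by
          rw [update_of_ne (ne_of_mem_of_not_mem hs' hsn)]
          exact ht' s' (mem_insert_of_mem hs')) β ⟨hβ, le_rfl⟩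
    obtain ⟨fl, b, f1, f2, f3, f4, f5, f6⟩ := hz s hsX
    have z : D (S.tilt (∑ s' ∈ X, update t s 0 s' • ψ s')) a r R ψ ω = 0 := by
      refine D_eq_zero _ a (fun d hd => hX d (hRX hd)) (f1.tilt_self fun ω' => ?_) f2 f3 f4 f5
        (fun s' hs' => f6 s' (hRX hs') (hRs s' hs').ne) ω
      simp only [Finset.sum_apply, Pi.smul_apply, smul_eq_mul]
      refine sum_congr rfl fun s' hs' => ?_
      by_cases h : s' = s
      · subst h; simp
      · rw [f6 s' hs' h]
    have e : update t s β = t := by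
      rw [← ht' s (mem_insert_self _ _), update_eq_self]
    simp only [z, e, zero_mul, sub_zero, Real.norm_eq_abs] at key
    rw [card_insert_of_notMem hsn, pow_succ', mul_assoc, ← hK, mul_assoc]
    exact key.trans_eq (mul_comm _ _)

omit [Fintype ι] in
theorem gam_pair {nd : Finset ι} {par : ι → ι} (hv : Valid r nd par) (c : ι → ℕ) {b : ℕ}
    {φ : Fn Ω} (hφ : Meas L b φ) (h1 : φ * φ = 1) {x y : ι}
    (hxy : top nd par c b x = top nd par c b y) (h : ι → Fn Ω) :
    S.gam nd par c (h * (Pi.mulSingle x φ * Pi.mulSingle y φ)) r = S.gam nd par c h r := by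
  have mv : ∀ (h : ι → Fn Ω) q, S.gam nd par c (h * Pi.mulSingle q φ) r =
      S.gam nd par c (h * Pi.mulSingle (top nd par c b q) φ) r := fun h q => by
    rw [← update_eq_mul, ← update_eq_mul]
    exact S.gam_move_top hv c h b hφ q
  rw [← mul_assoc, mv, mul_right_comm, mv, hxy, mul_assoc, ← Pi.mulSingle_mul, h1,
    Pi.mulSingle_one, mul_one]

omit [Fintype Ω] [LinearOrder ι] [Fintype ι] [WellFoundedLT ι] in
theorem absorb {κ : Type} (Φ : (ι → Fn Ω) → Fn Ω) (P : Finset κ) (G : κ → ι → Fn Ω)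
    (hG : ∀ p ∈ P, ∀ h, Φ (h * G p) = Φ h) (h : ι → Fn Ω) : Φ (h * ∏ p ∈ P, G p) = Φ h := by
  classical
  induction P using Finset.induction_on generalizing h with
  | empty => simp
  | insert p P hp ih =>
    rw [prod_insert hp, ← mul_assoc, ih fun p' hp' => hG p' (mem_insert_of_mem hp'),
      hG p (mem_insert_self _ _)]

omit [Fintype ι] [WellFoundedLT ι] in
theorem prod_pairs {M : Type} [CommMonoid M] (X : Finset ι) (F : ι → ι → M) :
    ∏ s ∈ X, ∏ s' ∈ X.erase s, F s s' =
      ∏ s ∈ X, ∏ s' ∈ X.filter (s < ·), (F s s' * F s' s) := by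
  have e : ∀ s ∈ X, ∏ s' ∈ X.erase s, F s s' =
      (∏ s' ∈ X.filter (s < ·), F s s') * ∏ s' ∈ X.filter (· < s), F s s' := by
    intro s _
    rw [← prod_union (disjoint_filter.2 fun _ _ h1 h2 => lt_asymm h1 h2)]
    refine prod_congr ?_ fun _ _ => rfl
    ext x
    simp only [mem_erase, mem_union, mem_filter, ne_iff_lt_or_gt]
    tauto
  rw [prod_congr rfl e, prod_mul_distrib]
  simp only [prod_mul_distrib]
  congr 1
  exact prod_comm' fun x y => by simp only [mem_filter]; tauto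

end Tree

section Psi
variable {Ω ι : Type} [LinearOrder ι] (r : ι) (X : Finset ι) (u : ι → Fn Ω) (g : Fn Ω)
  (ξ : ι → ι → Fn Ω)

/-- the gadget labels, the test function being put on the root -/
def psi' (s : ι) : Fn Ω := (if s = r then g else 1) * psi r X u ξ s

variable {u g ξ}

theorem abs_psi'_le (hu : ∀ s ω, |u s ω| ≤ 1) (hg : ∀ ω, |g ω| ≤ 1) (hξ : ∀ s s' ω, |ξ s s' ω| = 1)
    (s : ι) (ω : ℕ → Ω) : |psi' r X u g ξ s ω| ≤ 1 := by
  simp only [psi', psi, Pi.mul_apply, Finset.prod_apply, abs_mul, abs_prod, hξ, prod_const_one,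
    mul_one]
  refine mul_le_one₀ ?_ (abs_nonneg _) (hu s ω)
  split_ifs
  · exact hg ω
  · simp

variable {fl : ℕ → Ω → Ω} {s₀ s₁ : ι}
  (h2 : ∀ t t' ω, (t, t') ≠ (s₀, s₁) → ξ t t' (pmap fl ω) = ξ t t' ω)
  (hu : ∀ t ω, u t (pmap fl ω) = u t ω) (hg : ∀ ω, g (pmap fl ω) = g ω)
include h2 hu hg

theorem psi'_flip {s : ι} (hs₀ : s ≠ s₀) (hs₁ : s ≠ s₁) (ω : ℕ → Ω) :
    psi' r X u g ξ s (pmap fl ω) = psi' r X u g ξ s ω := by
  simp only [psi', psi, Pi.mul_apply, Finset.prod_apply, hu]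
  congr 1
  · split_ifs
    exacts [hg ω, rfl]
  · congr 1
    refine prod_congr rfl fun s' _ => h2 _ _ _ fun e => ?_
    obtain ⟨e1, e2⟩ := Prod.mk.inj e
    rcases le_total s s' with h | h
    · exact hs₀ ((min_eq_left h).symm.trans e1)
    · exact hs₁ ((max_eq_left h).symm.trans e2)

theorem psi'_flip_neg (h1 : ∀ ω, ξ s₀ s₁ (pmap fl ω) = -ξ s₀ s₁ ω) (hlt : s₀ < s₁)
    (hs₁ : s₁ ∈ insert r X) (ω : ℕ → Ω) :
    psi' r X u g ξ s₀ (pmap fl ω) = -psi' r X u g ξ s₀ ω := by
  have hm : s₁ ∈ (insert r X).erase s₀ := mem_erase.2 ⟨hlt.ne', hs₁⟩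
  simp only [psi', psi, Pi.mul_apply, Finset.prod_apply, hu, ← mul_neg]
  congr 1
  · split_ifs
    exacts [hg ω, rfl]
  · rw [← mul_prod_erase _ _ hm, ← mul_prod_erase _ _ hm, min_eq_left hlt.le, max_eq_right hlt.le,
      h1, neg_mul]
    congr 3
    refine prod_congr rfl fun s' hs' => h2 _ _ _ fun e => ?_
    obtain ⟨e1, e2⟩ := Prod.mk.inj e
    rcases le_total s₀ s' with h | h
    · exact ne_of_mem_erase hs' ((max_eq_right h).symm.trans e2)
    · exact hlt.ne ((max_eq_left h).symm.trans e2)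

end Psi

theorem tv_eq {L : Lev} {Ω ι : Type} [Fintype Ω] [LinearOrder ι] [WellFoundedLT ι] (S : Sys L Ω)
    (a : ℕ) {r : ι} {X : Finset ι} (hX : ∀ s ∈ X, r < s) {u : ι → Fn Ω} {g : Fn Ω}
    {lv : ι → ι → ℕ} {ξ : ι → ι → Fn Ω} {fl : ι → ι → ℕ → Ω → Ω}
    (hlv : ∀ s s', a < lv s s' ∧ lv s s' ≤ L.T) (hξ : ∀ s s' ω, |ξ s s' ω| = 1)
    (hm : ∀ s s', Meas L (lv s s') (ξ s s')) (hp : ∀ s s', IsProj S S (fl s s'))
    (hco : ∀ s s' i x, i + 1 ≠ lv s s' → fl s s' i x = x)
    (h1 : ∀ s s' ω, ξ s s' (pmap (fl s s') ω) = -ξ s s' ω)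
    (h2 : ∀ s s' t t' ω, (t, t') ≠ (s, s') → ξ t t' (pmap (fl s s') ω) = ξ t t' ω)
    (hu : ∀ s s' t ω, u t (pmap (fl s s') ω) = u t ω) (hg : ∀ s s' ω, g (pmap (fl s s') ω) = g ω)
    (ω : ℕ → Ω) {st : St ι} (hst : st ∈ states r X) (J : ι → ℕ) :
    tv S a r X (psi' r X u g ξ) ω st J = S.E a (fun ω' => g ω' *
      if Tests r X lv st (lev st.nd st.par a J)
      then S.gam st.nd st.par (lev st.nd st.par a J) (st.lab r X u) r ω' else 0) ω := by
  obtain ⟨-, hv, h3, h4, -⟩ := states_spec r X hX st hst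
  have h4' : ∀ s ∈ insert r X, st.pl s ∈ insert r st.nd := fun s hs => by
    rcases mem_insert.1 hs with rfl | hs
    · rw [h3]; exact mem_insert_self _ _
    · exact h4 s hs
  unfold tv
  set c := lev st.nd st.par a J
  split_ifs with hT
  · have e : st.lab r X (psi' r X u g ξ) = (st.lab r X u * ∏ s ∈ insert r X,
        ∏ s' ∈ (insert r X).filter (s < ·), (Pi.mulSingle (st.pl s) (ξ s s') *
          Pi.mulSingle (st.pl s') (ξ s s'))) * Pi.mulSingle r g := by
      have e1 : ∏ s ∈ insert r X, Pi.mulSingle (M := fun _ => Fn Ω) (st.pl s)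
          (if s = r then g else 1) = Pi.mulSingle r g := by
        rw [prod_eq_single r (fun s _ hs => by rw [if_neg hs, Pi.mulSingle_one]) (by simp),
          if_pos rfl, h3]
      have e2 : ∀ s, Pi.mulSingle (M := fun _ => Fn Ω) (st.pl s)
          (∏ s' ∈ (insert r X).erase s, ξ (min s s') (max s s')) =
          ∏ s' ∈ (insert r X).erase s, Pi.mulSingle (st.pl s) (ξ (min s s') (max s s')) :=
        fun s => map_prod (MonoidHom.mulSingle (fun _ : ι => Fn Ω) (st.pl s)) _ _
      rw [lab_eq, lab_eq]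
      simp only [psi', psi, Pi.mulSingle_mul, prod_mul_distrib, e1, e2]
      rw [mul_comm, prod_pairs]
      simp only [← prod_mul_distrib]
      congr 1
      refine prod_congr rfl fun s _ => ?_
      congr 1
      refine prod_congr rfl fun s' hs' => ?_
      have h := (mem_filter.1 hs').2.le
      rw [min_eq_left h, max_eq_right h, min_eq_right h, max_eq_left h]
    rw [e, ← update_eq_mul, mul_comm _ g, S.gam_root_mul hv,
      absorb (fun h => S.gam st.nd st.par c h r) _ _ fun s hs h =>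
        absorb (fun h => S.gam st.nd st.par c h r) _ _ (fun s' hs' h =>
          gam_pair S hv c (hm s s') (funext fun ω' => ?_)
            (hT s hs s' (mem_filter.1 hs').1 (mem_filter.1 hs').2) h) h]
    · rfl
    · rw [Pi.mul_apply, ← abs_mul_abs_self, hξ, mul_one, Pi.one_apply]
  · simp only [Tests, not_forall] at hT
    obtain ⟨s, hs, s', hs', hlt, hne⟩ := hT
    simp only [mul_zero, E_const]
    refine vanish S a hv c (hp s s') (hlv s s').1 (hlv s s').2 (hco s s')
      (fun q => top st.nd st.par c (lv s s') q = top st.nd st.par c (lv s s') (st.pl s))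
      (fun d hd hb => by rw [top_of_le hd (hv.lt d hd) hb]) _ (h4' s hs) rfl
      (lab_flip_neg st _ hs (psi'_flip_neg r X (h2 s s') (hu s s') (hg s s') (h1 s s') hlt hs')
        fun t _ ht hpl => psi'_flip r X (h2 s s') (hu s s') (hg s s') ht fun e =>
          hne (by rw [← e, hpl]))
      (fun q hq hA => lab_flip st _ fun t _ hpl => psi'_flip r X (h2 s s') (hu s s') (hg s s')
        (fun e => hq (by rw [← hpl, e])) fun e => hne (by rw [← hA, ← hpl, e])) ω

end Expand

theorem expand (n : ℕ) : ∃ C : ℝ, 0 ≤ C ∧ ∀ (L : Lev) (Ω : Type) [Fintype Ω] (S' : Sys L Ω) (a : ℕ)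
    (r : Fin n) (S : Finset (Fin n)), (∀ s ∈ S, r < s) →
    ∀ (u : Fin n → Fn Ω) (g : Fn Ω) (lv : Fin n → Fin n → ℕ) (ξ : Fin n → Fin n → Fn Ω)
      (fl : Fin n → Fin n → ℕ → Ω → Ω),
    (∀ s ω, |u s ω| ≤ 1) → (∀ ω, |g ω| ≤ 1) → (∀ s s', a < lv s s' ∧ lv s s' ≤ L.T) →
    (∀ s s' ω, |ξ s s' ω| = 1) → (∀ s s', Meas L (lv s s') (ξ s s')) →
    (∀ s s', IsProj S' S' (fl s s')) → (∀ s s' i x, i + 1 ≠ lv s s' → fl s s' i x = x) →
    (∀ s s' ω, ξ s s' (pmap (fl s s') ω) = -ξ s s' ω) →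
    (∀ s s' t t' ω, (t, t') ≠ (s, s') → ξ t t' (pmap (fl s s') ω) = ξ t t' ω) →
    (∀ s s' t ω, u t (pmap (fl s s') ω) = u t ω) → (∀ s s' ω, g (pmap (fl s s') ω) = g ω) →
    ∀ (β : ℝ), 0 ≤ β → β ≤ 1 → ∀ ω,
    |(S'.tilt (β • ∑ s ∈ S, psi r S u ξ s)).E a (g * psi r S u ξ r) ω -
      β ^ S.card * S'.E a (g * S'.W a r S lv u) ω| ≤ C * β ^ (S.card + 1) := by
  refine ⟨(∑ x : Fin n × Finset (Fin n), ((states x.1 x.2).length : ℝ)) * (2 * n * n),
    by positivity, ?_⟩
  intro L Ω _ S' a r S hS u g lv ξ fl hu1 hg1 hlv hξ hm hp hco h1 h2 hu hg β hβ _ ω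
  have key := mvt S' a hS (abs_psi'_le r S hu1 hg1 hξ) (fun s hs => ⟨fl r s, lv r s, hp r s,
    (hlv r s).1, (hlv r s).2, hco r s,
    psi'_flip_neg r S (h2 r s) (hu r s) (hg r s) (h1 r s) (hS s hs) (mem_insert_of_mem hs),
    fun s' hs' hne => psi'_flip r S (h2 r s) (hu r s) (hg r s) (hS s' hs').ne' hne⟩) hβ ω S ∅
    (fun _ => β) (empty_union _) (by simp) (fun _ => ⟨hβ, le_rfl⟩) fun _ _ => rfl
  have e1 : ∑ s ∈ S, β • psi' r S u g ξ s = β • ∑ s ∈ S, psi r S u ξ s := by
    rw [smul_sum]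
    exact sum_congr rfl fun s hs => by rw [psi', if_neg (hS s hs).ne', one_mul]
  have e2 : ∀ T : Sys L Ω, D T a r ∅ (psi' r S u g ξ) ω = T.E a (g * psi r S u ξ r) ω := by
    intro T
    have : tv T a r ∅ (psi' r S u g ξ) ω ⟨∅, fun _ => r, fun _ => r⟩ =
        fun _ => T.E a (g * psi r S u ξ r) ω := by
      funext J
      simp [tv, St.lab, psi', filter_singleton]
    simp [D, states_empty, this, avgJ_const]
  have e3 : D S' a r S (psi' r S u g ξ) ω = S'.E a (g * S'.W a r S lv u) ω := by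
    let Λ : Fn Ω →ₗ[ℝ] ℝ := LinearMap.proj ω ∘ₗ S'.E a ∘ₗ LinearMap.mulLeft ℝ g
    change _ = Λ (S'.W a r S lv u)
    rw [Sys.W, map_list_sum, List.map_map, D]
    congr 1
    refine List.map_congr_left fun st hst => ?_
    rw [comp_apply, map_smul, smul_eq_mul]
    congr 1
    rw [funext (tv_eq S' a hS hlv hξ hm hp hco h1 h2 hu hg ω hst), ← S'.E_avgJ]
    simp only [avgJ_const_mul]
    rfl
  rw [e1, e2, e3, Fintype.card_fin] at key
  refine key.trans ?_
  have : ((states r S).length : ℝ) ≤ ∑ x : Fin n × Finset (Fin n), ((states x.1 x.2).length : ℝ) :=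
    single_le_sum (f := fun x : Fin n × Finset (Fin n) => ((states x.1 x.2).length : ℝ))
      (fun _ _ => by positivity) (mem_univ (r, S))
  calc _ = ((states r S).length : ℝ) * (2 * n * n * β ^ (S.card + 1)) := by ring
    _ ≤ _ := by
      rw [mul_assoc _ (2 * (n : ℝ) * n)]
      exact mul_le_mul_of_nonneg_right this (by positivity)

end Crest.Agent.R141
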