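import Crest.Agent.R141.Pin
import Crest.Agent.R141.Expand
import Crest.Agent.R141.Insens

/-! Abstract part of the induction step of the pinning theorem. -/

set_option autoImplicit false
open Finset Function Crest.ProbabilityR.Diluted

namespace Crest.Agent.R141
open Sys

theorem spinVal_mul_self (b : Bool) : spinVal b * spinVal b = 1 := by cases b <;> simp [spinVal]

theorem abs_spinVal (b : Bool) : |spinVal b| = 1 := by cases b <;> simp [spinVal]

theorem prod_spin_parity {ι : Type} [DecidableEq ι] (s : Finset ι) (e : ι → Bool) :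
    ∃ b : Bool, ∀ x : Bool, ∏ q ∈ s, (if e q then spinVal x else 1) = if b then spinVal x else 1 := by
  induction s using Finset.induction_on with
  | empty => exact ⟨false, fun x => by simp⟩
  | insert q s hq ih =>
    obtain ⟨b, hb⟩ := ih
    refine ⟨xor (e q) b, fun x => ?_⟩
    rw [prod_insert hq, hb]
    cases e q <;> cases b <;> simp [spinVal_mul_self]

theorem St.lab_spinLab {ι : Type} [LinearOrder ι] (r : ι) (S : Finset ι) (st : St ι)
    (e : ι → Bool) : ∃ e' : ι → Bool, ∀ (Ω I : Type) (sp : I → (ℕ → Ω) → Bool) (i : I),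
      st.lab r S (spinLab sp e i) = spinLab sp e' i := by
  choose e' he' using fun q => prod_spin_parity ((insert r S).filter fun s => st.pl s = q) e
  refine ⟨e', fun Ω I sp i => ?_⟩
  ext q ω
  simp only [St.lab, spinLab, Finset.prod_apply]
  exact he' q _

section
variable {L : Lev} {Ω I : Type} [Fintype Ω] [Fintype I]

theorem Sys.treeErr_nonneg (S : Sys L Ω) (ω₀ : ℕ → Ω) (sp : I → (ℕ → Ω) → Bool) {n : ℕ}
    (r : Fin n) (nd : Finset (Fin n)) (par : Fin n → Fin n) (e : Fin n → Bool) :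
    0 ≤ S.treeErr ω₀ sp r nd par e :=
  mul_nonneg (by positivity) (sum_nonneg fun _ _ => avgJ_nonneg fun _ _ => S.N_nonneg _ _ _)

theorem Sys.coreErr_mono (S : Sys L Ω) (ω₀ : ℕ → Ω) (sp : I → (ℕ → Ω) → Bool) (n : ℕ) {k k' : ℕ}
    (h : k ≤ k') : S.coreErr ω₀ sp n k ≤ S.coreErr ω₀ sp n k' := by
  refine sum_le_sum fun r _ => sum_le_sum fun nd _ => sum_le_sum fun par _ =>
    sum_le_sum fun e _ => ?_
  split_ifs with h1 h2 h2
  · exact le_rfl
  · exact absurd ⟨h1.1, h1.2.trans_le h⟩ h2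
  · exact S.treeErr_nonneg _ _ _ _ _ _
  · exact le_rfl

theorem Sys.coreErr_nonneg (S : Sys L Ω) (ω₀ : ℕ → Ω) (sp : I → (ℕ → Ω) → Bool) (n k : ℕ) :
    0 ≤ S.coreErr ω₀ sp n k := by
  refine sum_nonneg fun r _ => sum_nonneg fun nd _ => sum_nonneg fun par _ =>
    sum_nonneg fun e _ => ?_
  split_ifs
  · exact S.treeErr_nonneg _ _ _ _ _ _
  · exact le_rfl

theorem Sys.coreErr_zero (S : Sys L Ω) (ω₀ : ℕ → Ω) (sp : I → (ℕ → Ω) → Bool) (n : ℕ) :
    S.coreErr ω₀ sp n 0 = 0 := by simp [Sys.coreErr]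

omit [Fintype Ω] in
theorem abs_list_sum_le {α : Type} (l : List α) (f : α → Fn Ω) (ω : ℕ → Ω) {A : ℝ}
    (h : ∀ x ∈ l, |f x ω| ≤ A) : |(l.map f).sum ω| ≤ l.length * A := by
  induction l with
  | nil => simp
  | cons x l ih =>
    rw [List.map_cons, List.sum_cons, Pi.add_apply, List.length_cons]
    refine (abs_add_le _ _).trans ?_
    have h1 := h x (by simp)
    have h2 := ih fun y hy => h y (by simp [hy])
    push_cast
    linarith

theorem Sys.abs_Wst_le (S : Sys L Ω) (a : ℕ) {n : ℕ} (r : Fin n) (nd : Finset (Fin n))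
    (lv : Fin n → Fin n → ℕ) {u : Fin n → Fn Ω} (hu : ∀ s ω, |u s ω| ≤ 1) (st : St (Fin n))
    (ω : ℕ → Ω) : |S.Wst a r nd lv u st ω| ≤ 1 := by
  refine (abs_avgJ_le _).trans (avgJ_le fun J _ => ?_)
  split_ifs
  · refine S.abs_gam_le _ _ _ (fun q ω => ?_) _ _
    simp only [St.lab, Finset.prod_apply, Finset.abs_prod]
    exact prod_le_one (fun _ _ => abs_nonneg _) fun s _ => hu s ω
  · simp

theorem Sys.abs_W_le (S : Sys L Ω) (a : ℕ) {n : ℕ} (r : Fin n) (nd : Finset (Fin n))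
    (lv : Fin n → Fin n → ℕ) {u : Fin n → Fn Ω} (hu : ∀ s ω, |u s ω| ≤ 1) (ω : ℕ → Ω) :
    |S.W a r nd lv u ω| ≤ (states r nd).length := by
  have := abs_list_sum_le (states r nd)
    (fun st => ((-1 : ℝ) ^ st.nd.card) • S.Wst a r nd lv u st) ω (A := 1) (fun st _ => by
      rw [Pi.smul_apply, smul_eq_mul, abs_mul, abs_pow, abs_neg, abs_one, one_pow, one_mul]
      exact S.abs_Wst_le a r nd lv hu st ω)
  rwa [mul_one] at this

theorem Sys.W_flip {S : Sys L Ω} {fl : ℕ → Ω → Ω} (hfl : IsProj S S fl) (a : ℕ) {n : ℕ} (r : Fin n)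
    (nd : Finset (Fin n)) (lv : Fin n → Fin n → ℕ) {u : Fin n → Fn Ω}
    (hu : ∀ s ω, u s (pmap fl ω) = u s ω) (ω : ℕ → Ω) :
    S.W a r nd lv u (pmap fl ω) = S.W a r nd lv u ω := by
  have h1 : ∀ st : St (Fin n), S.Wst a r nd lv u st (pmap fl ω) = S.Wst a r nd lv u st ω := by
    intro st
    unfold Sys.Wst
    congr 1
    ext J
    split_ifs
    · have := congrFun (hfl.gam st.nd st.par (lev st.nd st.par a J) (st.lab r nd u) r) ω
      rw [← this]
      congr 2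
      ext q ω'
      simp only [St.lab, Finset.prod_apply, hu]
    · rfl
  unfold Sys.W
  induction states r nd with
  | nil => rfl
  | cons st l ih => simp only [List.map_cons, List.sum_cons, Pi.add_apply, Pi.smul_apply, h1, ih]

theorem Sys.L1_add_le (S : Sys L Ω) (ω₀ : ℕ → Ω) (γ γ' : I → Fn Ω) :
    S.L1 ω₀ (γ + γ') ≤ S.L1 ω₀ γ + S.L1 ω₀ γ' := by
  unfold Sys.L1
  rw [← mul_add, ← sum_add_distrib]
  refine mul_le_mul_of_nonneg_left (sum_le_sum fun i _ => ?_) (by positivity)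
  rw [← E_add_apply]
  exact S.E_mono 0 (fun ω => abs_add_le _ _) ω₀

/-- insensitivity of the leading coefficient -/
theorem insens_W (n : ℕ) (B : ℝ) : ∃ C : ℝ, 0 ≤ C ∧ ∀ (L : Lev), L.Unif →
    ∀ (Ω I : Type) [Fintype Ω] [Fintype I] (S : Sys L Ω) (ω₀ : ℕ → Ω) (sp : I → (ℕ → Ω) → Bool)
      (V : Fn Ω), (∀ ω, |V ω| ≤ B) → ∀ (r : Fin n) (nd : Finset (Fin n)), (∀ s ∈ nd, r < s) →
      ∀ (e : Fin n → Bool) (lv : Fin n → Fin n → ℕ),
    (L.T : ℝ)⁻¹ * ∑ a ∈ range L.T, S.L1 ω₀ (fun i =>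
      S.W a r nd lv (spinLab sp e i) - (S.tilt V).W a r nd lv (spinLab sp e i)) ≤
      (states r nd).length * C * S.coreErr ω₀ sp n nd.card := by
  obtain ⟨C, hC, h⟩ := insens n B
  refine ⟨C, hC, fun L hL Ω I _ _ S ω₀ sp V hV r nd hnd e lv => ?_⟩
  have hst : ∀ st ∈ states r nd, (L.T : ℝ)⁻¹ * ∑ a ∈ range L.T, S.L1 ω₀ (fun i =>
      ((-1 : ℝ) ^ st.nd.card) • S.Wst a r nd lv (spinLab sp e i) st -
      ((-1 : ℝ) ^ st.nd.card) • (S.tilt V).Wst a r nd lv (spinLab sp e i) st) ≤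
      C * S.coreErr ω₀ sp n nd.card := by
    intro st hst
    obtain ⟨h1, h2, -⟩ := states_spec r nd hnd st hst
    obtain ⟨e', he'⟩ := st.lab_spinLab r nd e
    refine le_trans ?_ ((h L hL Ω I S ω₀ sp V hV r st.nd st.par h2 e').trans
      (mul_le_mul_of_nonneg_left (S.coreErr_mono ω₀ sp n (card_le_card h1)) hC))
    refine mul_le_mul_of_nonneg_left (sum_le_sum fun a _ => ?_) (by positivity)
    unfold Sys.L1
    rw [avgJ_const_mul, avgJ_sum]
    refine mul_le_mul_of_nonneg_left (sum_le_sum fun i _ => ?_) (by positivity)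
    rw [← S.E_avgJ]
    refine S.E_mono 0 (fun ω => ?_) ω₀
    simp only [Pi.sub_apply, Pi.smul_apply, smul_eq_mul, ← mul_sub, abs_mul, abs_pow, abs_neg,
      abs_one, one_pow, one_mul, Sys.Wst, ← avgJ_sub, he']
    refine (abs_avgJ_le _).trans (avgJ_mono fun J _ => ?_)
    split_ifs
    · rw [abs_sub_comm]
    · simp
  unfold Sys.W
  generalize states r nd = l at hst ⊢
  induction l with
  | nil => simp [Sys.L1, E_const]
  | cons st l ih =>
    have h1 := hst st (by simp)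
    have h2 := ih fun st' h' => hst st' (by simp [h'])
    simp only [List.map_cons, List.sum_cons, List.length_cons]
    refine le_trans (mul_le_mul_of_nonneg_left (sum_le_sum fun a _ => le_trans (le_of_eq ?_)
      (S.L1_add_le ω₀ (fun i => ((-1 : ℝ) ^ st.nd.card) • S.Wst a r nd lv (spinLab sp e i) st -
      ((-1 : ℝ) ^ st.nd.card) • (S.tilt V).Wst a r nd lv (spinLab sp e i) st)
      (fun i => (l.map fun st => ((-1 : ℝ) ^ st.nd.card) • S.Wst a r nd lv (spinLab sp e i) st).sum -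
       (l.map fun st => ((-1 : ℝ) ^ st.nd.card) •
          (S.tilt V).Wst a r nd lv (spinLab sp e i) st).sum))) (by positivity)) ?_
    · congr 1
      ext i ω
      simp only [Pi.add_apply, Pi.sub_apply]
      ring
    · rw [sum_add_distrib, mul_add]
      push_cast
      linarith
end

theorem exp_sub_one_le {x A : ℝ} (hx : 0 ≤ x) (hx1 : x ≤ 1) :
    Real.exp (A * x) - 1 ≤ Real.exp A * x := by
  have h := (convexOn_exp).2 (Set.mem_univ 0) (Set.mem_univ A) (sub_nonneg.2 hx1) hx (by ring)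
  simp only [smul_eq_mul, mul_zero, zero_add, Real.exp_zero, mul_one] at h
  rw [mul_comm A x]
  nlinarith

theorem abs_psi_le {ι Ω : Type} [LinearOrder ι] (r : ι) (S : Finset ι) {u : ι → Fn Ω}
    {ξ : ι → ι → Fn Ω} (hu : ∀ s ω, |u s ω| ≤ 1) (hξ : ∀ s s' ω, |ξ s s' ω| = 1) (s : ι)
    (ω : ℕ → Ω) : |psi r S u ξ s ω| ≤ 1 := by
  simp only [psi, Pi.mul_apply, Finset.prod_apply, abs_mul, Finset.abs_prod, hξ, prod_const_one,
    mul_one]
  exact hu s ω

theorem abs_sum_psi_le {n : ℕ} {Ω : Type} (r : Fin n) (S : Finset (Fin n)) {u : Fin n → Fn Ω}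
    {ξ : Fin n → Fin n → Fn Ω} (hu : ∀ s ω, |u s ω| ≤ 1) (hξ : ∀ s s' ω, |ξ s s' ω| = 1) {β : ℝ}
    (hβ : 0 ≤ β) (ω : ℕ → Ω) : |(β • ∑ s ∈ S, psi r S u ξ s) ω| ≤ n * β := by
  rw [Pi.smul_apply, smul_eq_mul, abs_mul, abs_of_nonneg hβ, mul_comm, Finset.sum_apply]
  refine mul_le_mul_of_nonneg_right ((abs_sum_le_sum_abs _ _).trans ?_) hβ
  calc _ ≤ ∑ _s ∈ S, (1 : ℝ) := sum_le_sum fun s _ => abs_psi_le r S hu hξ s ω
    _ = S.card := by simp
    _ ≤ n := by exact_mod_cast (card_le_univ S).trans (by simp)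

/-- covariance with the gadget observable versus covariance with the leading coefficient -/
theorem cov_expand (n : ℕ) : ∃ C : ℝ, 0 ≤ C ∧ ∀ (L : Lev) (Ω : Type) [Fintype Ω] (S' : Sys L Ω)
    (a : ℕ) (r : Fin n) (S : Finset (Fin n)), (∀ s ∈ S, r < s) →
    ∀ (u : Fin n → Fn Ω) (g : Fn Ω) (lv : Fin n → Fin n → ℕ) (ξ : Fin n → Fin n → Fn Ω)
      (fl : Fin n → Fin n → ℕ → Ω → Ω),
    (∀ s ω, |u s ω| ≤ 1) → (∀ ω, |g ω| ≤ 1) → (∀ s s', a < lv s s' ∧ lv s s' ≤ L.T) →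
    (∀ s s' ω, |ξ s s' ω| = 1) → (∀ s s', Meas L (lv s s') (ξ s s')) →
    (∀ s s', IsProj S' S' (fl s s')) → (∀ s s' i x, i + 1 ≠ lv s s' → fl s s' i x = x) →
    (∀ s s' ω, ξ s s' (pmap (fl s s') ω) = -ξ s s' ω) →
    (∀ s s' t t' ω, (t, t') ≠ (s, s') → ξ t t' (pmap (fl s s') ω) = ξ t t' ω) →
    (∀ s s' t ω, u t (pmap (fl s s') ω) = u t ω) → (∀ s s' ω, g (pmap (fl s s') ω) = g ω) →
    ∀ (β : ℝ), 0 ≤ β → β ≤ 1 → ∀ (V₂ : Fn Ω) (κ : ℝ), κ ≤ 1 → (∀ ω, |V₂ ω| ≤ κ) → ∀ ω,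
    β ^ S.card * |S'.Cov a g (S'.W a r S lv u) ω| ≤
      |(S'.tilt (β • ∑ s ∈ S, psi r S u ξ s + V₂)).Cov a g (psi r S u ξ r) ω| +
        (C + (states r S).length * C) * (β ^ (S.card + 1) + κ) := by
  obtain ⟨C, hC, h⟩ := expand n
  refine ⟨2 * C + 3 * Real.exp 2 + Real.exp (2 * n), by positivity, ?_⟩
  intro L Ω _ S' a r S hS u g lv ξ fl hu hg hlv hξ hξm hfl hco h1 h2 h3 h4 β hβ hβ1 V₂ κ hκ hV₂ ω
  have hκ0 : 0 ≤ κ := (abs_nonneg _).trans (hV₂ ω)
  have e1 := h L Ω S' a r S hS u g lv ξ fl hu hg hlv hξ hξm hfl hco h1 h2 h3 h4 β hβ hβ1 ω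
  have e2 := h L Ω S' a r S hS u 1 lv ξ fl hu (by simp) hlv hξ hξm hfl hco h1 h2 h3
    (fun _ _ _ => rfl) β hβ hβ1 ω
  rw [one_mul, one_mul] at e2
  set Vβ := β • ∑ s ∈ S, psi r S u ξ s with hVβ
  set τ := psi r S u ξ r with hτ
  set W := S'.W a r S lv u with hW
  have hτ1 : ∀ ω, |τ ω| ≤ 1 := abs_psi_le r S hu hξ r
  have hgτ : ∀ ω, |(g * τ) ω| ≤ 1 := fun ω => by
    rw [Pi.mul_apply, abs_mul]; exact mul_le_one₀ (hg ω) (abs_nonneg _) (hτ1 ω)
  have hb : ∀ f : Fn Ω, (∀ ω, |f ω| ≤ 1) →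
      |(S'.tilt (Vβ + V₂)).E a f ω - (S'.tilt Vβ).E a f ω| ≤ Real.exp 2 * κ := by
    intro f hf
    rw [← tilt_tilt]
    refine ((S'.tilt Vβ).abs_tilt_E_sub_le a hV₂ hf ω).trans ?_
    rw [mul_one]
    exact exp_sub_one_le hκ0 hκ
  have e3 : |(S'.tilt Vβ).E a g ω - S'.E a g ω| ≤ Real.exp (2 * n) * β := by
    refine (S'.abs_tilt_E_sub_le a (abs_sum_psi_le r S hu hξ hβ) hg ω).trans ?_
    rw [mul_one, ← mul_assoc]
    exact exp_sub_one_le hβ hβ1
  have e4 := hb _ hgτ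
  have e5 := hb _ hg
  have e6 := hb _ hτ1
  have b1 := (S'.tilt (Vβ + V₂)).abs_E_le_of_le a hg ω
  have b2 := (S'.tilt Vβ).abs_E_le_of_le a hτ1 ω
  have b3 := (S'.tilt Vβ).abs_E_le_of_le a hg ω
  have b4 : |S'.E a W ω| ≤ (states r S).length := S'.abs_E_le_of_le a (S'.abs_W_le a r S lv hu) ω
  simp only [Cov_apply]
  set x1 := (S'.tilt (Vβ + V₂)).E a (g * τ) ω
  set x2 := (S'.tilt (Vβ + V₂)).E a g ω
  set x3 := (S'.tilt (Vβ + V₂)).E a τ ω
  set y1 := (S'.tilt Vβ).E a (g * τ) ω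
  set y2 := (S'.tilt Vβ).E a g ω
  set y3 := (S'.tilt Vβ).E a τ ω
  set z1 := S'.E a (g * W) ω
  set z2 := S'.E a g ω
  set z3 := S'.E a W ω
  set len : ℝ := ((states r S).length : ℝ)
  have hβk : 0 ≤ β ^ S.card := pow_nonneg hβ _
  have key : β ^ S.card * (z1 - z2 * z3) = (x1 - x2 * x3) - (x1 - y1) - (y1 - β ^ S.card * z1) +
      x2 * (x3 - y3) + (x2 - y2) * y3 + y2 * (y3 - β ^ S.card * z3) +
      (y2 - z2) * z3 * β ^ S.card := by ring
  rw [← abs_of_nonneg hβk, ← abs_mul, key]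
  have t1 : |x2 * (x3 - y3)| ≤ Real.exp 2 * κ := by
    rw [abs_mul]; exact (mul_le_of_le_one_left (abs_nonneg _) b1).trans e6
  have t2 : |(x2 - y2) * y3| ≤ Real.exp 2 * κ := by
    rw [abs_mul]; exact (mul_le_of_le_one_right (abs_nonneg _) b2).trans e5
  have t3 : |y2 * (y3 - β ^ S.card * z3)| ≤ C * β ^ (S.card + 1) := by
    rw [abs_mul]; exact (mul_le_of_le_one_left (abs_nonneg _) b3).trans e2
  have t4 : |(y2 - z2) * z3 * β ^ S.card| ≤ len * Real.exp (2 * n) * β ^ (S.card + 1) := by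
    rw [abs_mul, abs_mul, abs_of_nonneg hβk, pow_succ]
    calc _ ≤ Real.exp (2 * n) * β * len * β ^ S.card := by gcongr
      _ = _ := by ring
  have hlen : 0 ≤ len := Nat.cast_nonneg _
  have hβk1 : 0 ≤ β ^ (S.card + 1) := pow_nonneg hβ _
  have tri : ∀ a b c d e f g : ℝ, |a - b - c + d + e + f + g| ≤
      |a| + |b| + |c| + |d| + |e| + |f| + |g| := fun a b c d e f g => by
    have := abs_add_le (a - b - c + d + e + f) g
    have := abs_add_le (a - b - c + d + e) f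
    have := abs_add_le (a - b - c + d) e
    have := abs_add_le (a - b - c) d
    have := abs_sub (a - b) c
    have := abs_sub a b
    linarith
  refine (tri _ _ _ _ _ _ _).trans ?_
  have p1 := Real.exp_pos 2
  have p2 := Real.exp_pos (2 * n)
  have q1 : 0 ≤ len * (2 * C + 3 * Real.exp 2) * β ^ (S.card + 1) := by positivity
  have q2 : 0 ≤ len * (2 * C + 3 * Real.exp 2 + Real.exp (2 * n)) * κ := by positivity
  have q3 : 0 ≤ (3 * Real.exp 2 + Real.exp (2 * n)) * β ^ (S.card + 1) := by positivity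
  have q4 : 0 ≤ (2 * C + Real.exp (2 * n)) * κ := by positivity
  nlinarith

end Crest.Agent.R141
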