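import Crest.Agent.R141.CoreA

/-! One perturbation term: pair covariances of the leading coefficient. -/

set_option autoImplicit false
open Finset Function Crest.ProbabilityR.Diluted

namespace Crest.Agent.R141
open Sys

/-- a bound for the number of states -/
noncomputable def lenB (n : ℕ) : ℝ := ∑ r : Fin n, ∑ S : Finset (Fin n), ((states r S).length : ℝ)

theorem length_le_lenB {n : ℕ} (r : Fin n) (S : Finset (Fin n)) :
    ((states r S).length : ℝ) ≤ lenB n :=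
  (single_le_sum (f := fun S : Finset (Fin n) => ((states r S).length : ℝ))
    (fun _ _ => Nat.cast_nonneg _) (mem_univ S)).trans
  (single_le_sum (f := fun r : Fin n => ∑ S : Finset (Fin n), ((states r S).length : ℝ))
    (fun _ _ => sum_nonneg fun _ _ => Nat.cast_nonneg _) (mem_univ r))

theorem lenB_nonneg (n : ℕ) : 0 ≤ lenB n :=
  sum_nonneg fun _ _ => sum_nonneg fun _ _ => Nat.cast_nonneg _

theorem pair_bound (n : ℕ) : ∃ C : ℝ, 0 ≤ C ∧ ∀ (L : Lev) (Ω I : Type) [Fintype Ω] [Fintype I]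
    (S' : Sys L Ω) (a : ℕ) (r : Fin n) (S : Finset (Fin n)), (∀ s ∈ S, r < s) →
    ∀ (sp : I → (ℕ → Ω) → Bool) (e : Fin n → Bool) (i₀ : I) (lv : Fin n → Fin n → ℕ)
      (ξ : Fin n → Fin n → Fn Ω) (fl : Fin n → Fin n → ℕ → Ω → Ω),
    (∀ s s', a < lv s s' ∧ lv s s' ≤ L.T) →
    (∀ s s' ω, |ξ s s' ω| = 1) → (∀ s s', Meas L (lv s s') (ξ s s')) →
    (∀ s s', IsProj S' S' (fl s s')) → (∀ s s' i x, i + 1 ≠ lv s s' → fl s s' i x = x) →
    (∀ s s' ω, ξ s s' (pmap (fl s s') ω) = -ξ s s' ω) →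
    (∀ s s' t t' ω, (t, t') ≠ (s, s') → ξ t t' (pmap (fl s s') ω) = ξ t t' ω) →
    (∀ s s' i ω, sp i (pmap (fl s s') ω) = sp i ω) →
    ∀ (β : ℝ), 0 ≤ β → β ≤ 1 → ∀ (V₂ : Fn Ω) (κ : ℝ), 0 ≤ κ → κ ≤ 1 → (∀ ω, |V₂ ω| ≤ κ) →
    ∀ (V : Fn Ω), V = β • ∑ s ∈ S, psi r S (spinLab sp e i₀) ξ s + V₂ → ∀ ω₀,
    β ^ S.card * ((Fintype.card I : ℝ)⁻¹ * ∑ i, S'.E 0 (fun ω =>
        |S'.Cov a (S'.W a r S lv (spinLab sp e i)) (S'.W a r S lv (spinLab sp e i₀)) ω|) ω₀) ≤
      C * ((Fintype.card I : ℝ)⁻¹ * ∑ i, (S'.tilt V).E 0 (fun ω =>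
          |(S'.tilt V).Cov a (psi r S (spinLab sp e i₀) ξ r)
            ((S'.tilt V).W a r S lv (spinLab sp e i)) ω|) ω₀ +
        (S'.tilt V).L1 ω₀ (fun i => (S'.tilt V).W a r S lv (spinLab sp e i) -
          S'.W a r S lv (spinLab sp e i)) + β ^ (S.card + 1) + κ) := by
  obtain ⟨C, hC, h⟩ := cov_expand n
  have hl := lenB_nonneg n
  refine ⟨Real.exp (2 * (n + 1)) * (2 + (lenB n + 1) * (C + lenB n * C)), by positivity, ?_⟩
  intro L Ω I _ _ S' a r S hS sp e i₀ lv ξ fl hlv hξ hξm hfl hco h1 h2 h3 β hβ hβ1 V₂ κ hκ0 hκ hV₂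
    V hV ω₀
  have hu := fun i => abs_spinLab_le sp e i
  have hui : ∀ i s s' t ω, spinLab sp e i t (pmap (fl s s') ω) = spinLab sp e i t ω := by
    intro i s s' t ω; simp only [spinLab, h3]
  have hVb : ∀ ω, |V ω| ≤ n + 1 := fun ω => by
    rw [hV, Pi.add_apply]
    refine (abs_add_le _ _).trans (add_le_add ?_ ((hV₂ ω).trans hκ))
    exact (abs_sum_psi_le r S (hu i₀) hξ hβ ω).trans (mul_le_of_le_one_right (by positivity) hβ1)
  set τ := psi r S (spinLab sp e i₀) ξ r with hτ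
  have hτ1 : ∀ ω, |τ ω| ≤ 1 := abs_psi_le r S (hu i₀) hξ r
  set A := lenB n + 1 with hA
  have hA0 : 0 < A := by positivity
  set K := (C + lenB n * C) * (β ^ (S.card + 1) + κ) with hK
  have hK0 : 0 ≤ K := by positivity
  have hβk : 0 ≤ β ^ S.card := pow_nonneg hβ _
  -- pointwise bound
  have key : ∀ i ω, β ^ S.card *
      |S'.Cov a (S'.W a r S lv (spinLab sp e i)) (S'.W a r S lv (spinLab sp e i₀)) ω| ≤
      |(S'.tilt V).Cov a τ ((S'.tilt V).W a r S lv (spinLab sp e i)) ω| +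
      2 * (S'.tilt V).E a (fun ω' => |((S'.tilt V).W a r S lv (spinLab sp e i) -
          S'.W a r S lv (spinLab sp e i)) ω'|) ω + A * K := by
    intro i ω
    have hg : ∀ ω, |(A⁻¹ • S'.W a r S lv (spinLab sp e i)) ω| ≤ 1 := fun ω => by
      rw [Pi.smul_apply, smul_eq_mul, abs_mul, abs_of_pos (inv_pos.2 hA0), inv_mul_le_iff₀ hA0]
      have := S'.abs_W_le a r S lv (hu i) ω
      have := length_le_lenB r S
      linarith
    have h4 := h L Ω S' a r S hS (spinLab sp e i₀) (A⁻¹ • S'.W a r S lv (spinLab sp e i)) lv ξ fl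
      (hu i₀) hg hlv hξ hξm hfl hco h1 h2 (hui i₀) (fun s s' ω => by
        simp only [Pi.smul_apply, Sys.W_flip (hfl s s') a r S lv (hui i s s')]) β hβ hβ1 V₂ κ hκ
        hV₂ ω
    rw [← hV, Cov_smul_left, Cov_smul_left] at h4
    simp only [Pi.smul_apply, smul_eq_mul, abs_mul, abs_of_pos (inv_pos.2 hA0)] at h4
    have h5 : (C + (states r S).length * C) * (β ^ (S.card + 1) + κ) ≤ K := by
      have := length_le_lenB r S
      rw [hK]; gcongr
    have h6 : β ^ S.card *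
        |S'.Cov a (S'.W a r S lv (spinLab sp e i)) (S'.W a r S lv (spinLab sp e i₀)) ω| ≤
        |(S'.tilt V).Cov a (S'.W a r S lv (spinLab sp e i)) τ ω| + A * K := by
      have := mul_le_mul_of_nonneg_left (h4.trans (add_le_add le_rfl h5)) hA0.le
      rw [mul_left_comm, mul_add, mul_inv_cancel_left₀ hA0.ne', mul_inv_cancel_left₀ hA0.ne'] at this
      exact this
    refine h6.trans (add_le_add ?_ le_rfl)
    have h7 : S'.W a r S lv (spinLab sp e i) = (S'.tilt V).W a r S lv (spinLab sp e i) -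
        ((S'.tilt V).W a r S lv (spinLab sp e i) - S'.W a r S lv (spinLab sp e i)) := by ring
    conv_lhs => rw [h7]
    rw [Cov_sub_left, Pi.sub_apply, Cov_comm]
    refine (abs_sub _ _).trans (add_le_add le_rfl ?_)
    have := (S'.tilt V).abs_Cov_le a ((S'.tilt V).W a r S lv (spinLab sp e i) -
      S'.W a r S lv (spinLab sp e i)) hτ1 ω
    rwa [mul_one] at this
  have key2 : ∀ i, β ^ S.card * S'.E 0 (fun ω =>
      |S'.Cov a (S'.W a r S lv (spinLab sp e i)) (S'.W a r S lv (spinLab sp e i₀)) ω|) ω₀ ≤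
      Real.exp (2 * (n + 1)) * ((S'.tilt V).E 0 (fun ω =>
        |(S'.tilt V).Cov a τ ((S'.tilt V).W a r S lv (spinLab sp e i)) ω|) ω₀ +
      2 * (S'.tilt V).E 0 (fun ω' => |((S'.tilt V).W a r S lv (spinLab sp e i) -
          S'.W a r S lv (spinLab sp e i)) ω'|) ω₀ + A * K) := by
    intro i
    rw [← E_const_mul]
    refine (S'.le_tilt_E 0 hVb (fun ω => mul_nonneg hβk (abs_nonneg _)) ω₀).trans
      (mul_le_mul_of_nonneg_left ?_ (Real.exp_pos _).le)
    refine ((S'.tilt V).E_mono 0 (key i) ω₀).trans (le_of_eq ?_)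
    rw [E_add_apply, E_add_apply, E_const_mul, E_const]
    congr 3
    exact congrFun ((S'.tilt V).E_E (Nat.zero_le a) _) ω₀
  rw [mul_left_comm, mul_sum]
  refine (mul_le_mul_of_nonneg_left (sum_le_sum fun i _ => key2 i) (by positivity)).trans ?_
  rw [← mul_sum, mul_left_comm, mul_assoc]
  refine mul_le_mul_of_nonneg_left ?_ (Real.exp_pos _).le
  rw [sum_add_distrib, sum_add_distrib, ← mul_sum, mul_add, mul_add, mul_left_comm _ (2 : ℝ)]
  have hc : (Fintype.card I : ℝ)⁻¹ * ∑ _i : I, A * K ≤ A * K := by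
    rw [sum_const, card_univ, nsmul_eq_mul, ← mul_assoc]
    exact mul_le_of_le_one_left (by positivity) inv_mul_le_one
  set x := (Fintype.card I : ℝ)⁻¹ * ∑ i, (S'.tilt V).E 0 (fun ω =>
        |(S'.tilt V).Cov a τ ((S'.tilt V).W a r S lv (spinLab sp e i)) ω|) ω₀
  have hx : 0 ≤ x := mul_nonneg (by positivity)
    (sum_nonneg fun _ _ => E_nonneg _ _ (fun _ => abs_nonneg _) _)
  have hy := (S'.tilt V).L1_nonneg ω₀ (fun i => (S'.tilt V).W a r S lv (spinLab sp e i) -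
          S'.W a r S lv (spinLab sp e i))
  change x + 2 * (S'.tilt V).L1 ω₀ (fun i => (S'.tilt V).W a r S lv (spinLab sp e i) -
          S'.W a r S lv (spinLab sp e i)) + _ ≤ _
  set y := (S'.tilt V).L1 ω₀ (fun i => (S'.tilt V).W a r S lv (spinLab sp e i) -
          S'.W a r S lv (spinLab sp e i))
  have hz : 0 ≤ β ^ (S.card + 1) + κ := by positivity
  have hw : 0 ≤ A * (C + lenB n * C) := by positivity
  have : A * K = A * (C + lenB n * C) * (β ^ (S.card + 1) + κ) := by rw [hK]; ring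
  nlinarith [mul_nonneg hw hx, mul_nonneg hw hy]

/-- transfer of the seminorm to the system without the term -/
theorem N_transfer {L : Lev} {Ω I : Type} [Fintype Ω] [Fintype I] (S' : Sys L Ω) (ω₀ : ℕ → Ω)
    (a : ℕ) {V : Fn Ω} {B : ℝ} (hV : ∀ ω, |V ω| ≤ B) (γ γ' : I → Fn Ω) {lam : ℝ} (hl : 0 < lam) :
    (S'.tilt V).N ω₀ a γ ≤ 2 * (S'.tilt V).L1 ω₀ (fun i => γ i - γ' i) +
      Real.exp (4 * B) * (lam + lam⁻¹ * ((Fintype.card I : ℝ)⁻¹ * ∑ i,
        (Fintype.card I : ℝ)⁻¹ * ∑ i', S'.E 0 (fun ω => |S'.Cov a (γ' i) (γ' i') ω|) ω₀)) := by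
  refine ((S'.tilt V).N_le_add_L1 ω₀ a γ γ').trans ?_
  rw [add_comm]
  refine add_le_add (le_of_eq rfl) ((S'.N_tilt_le ω₀ a hV γ').trans ?_)
  have h := S'.N_le_sqrt ω₀ a γ'
  set z := (Fintype.card I : ℝ)⁻¹ * ∑ i,
        (Fintype.card I : ℝ)⁻¹ * ∑ i', S'.E 0 (fun ω => |S'.Cov a (γ' i) (γ' i') ω|) ω₀
  have hz : 0 ≤ z := mul_nonneg (by positivity) (sum_nonneg fun _ _ => mul_nonneg (by positivity)
    (sum_nonneg fun _ _ => E_nonneg _ _ (fun _ => abs_nonneg _) _))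
  have h2 : 2 * Real.sqrt z ≤ lam + lam⁻¹ * z := by
    have h3 := Real.sq_sqrt hz
    have h4 : lam + lam⁻¹ * z - 2 * Real.sqrt z = lam⁻¹ * (lam - Real.sqrt z) ^ 2 := by
      field_simp; nlinarith
    have : 0 ≤ lam⁻¹ * (lam - Real.sqrt z) ^ 2 := by positivity
    linarith
  have := Real.exp_pos (4 * B)
  nlinarith

end Crest.Agent.R141
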