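import Crest.Agent.R141.CoreB

/-! The concrete perturbation. -/

set_option autoImplicit false
open Finset Function Crest.ProbabilityR.Diluted

namespace Crest.Agent.R141
open Sys

/-- types of perturbation terms: root, index set, spin pattern, coordinates of the test bits -/
abbrev Ty (n T : ℕ) := Fin n × Finset (Fin n) × (Fin n → Bool) × (Fin n → Fin n → Fin T)

/-- bits of one term at one coordinate -/
abbrev Zb (n : ℕ) := (Fin n → Fin n → Bool) × Bool

section Loc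
variable {n T : ℕ}

def xiZ (t : Ty n T) (s s' : Fin n) : Fn (Zb n) := fun z => spinVal ((z (t.2.2.2 s s')).1 s s')

def thZ (j : ℕ) : Fn (Zb n) := fun z => spinVal (z j).2

def psiZ (t : Ty n T) (b : Bool) (s : Fin n) : Fn (Zb n) :=
  psi t.1 t.2.1 (fun s _ => if t.2.2.1 s then spinVal b else 1) (xiZ t) s

/-- the marker part of the local term -/
def mark (η : ℝ) (t : Ty n T) (b : Bool) : Fn (Zb n) :=
  η • ((∑ j ∈ range T, thZ j) * psiZ t b t.1)

/-- the local term -/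
def loc (β : ℕ → ℝ) (η : ℝ) (t : Ty n T) (b : Bool) : Fn (Zb n) :=
  β t.2.1.card • ∑ s ∈ t.2.1, psiZ t b s + mark η t b

theorem abs_psiZ_le (t : Ty n T) (b : Bool) (s : Fin n) (z : ℕ → Zb n) : |psiZ t b s z| ≤ 1 := by
  refine abs_psi_le _ _ (fun s ω => ?_) (fun _ _ _ => abs_spinVal _) _ _
  split_ifs
  · exact (abs_spinVal _).le
  · simp

theorem psiZ_congr (t : Ty n T) (b : Bool) (s : Fin n) {z z' : ℕ → Zb n}
    (h : ∀ j, (z j).1 = (z' j).1) : psiZ t b s z = psiZ t b s z' := by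
  simp only [psiZ, psi, Pi.mul_apply, Finset.prod_apply, xiZ, h]

theorem abs_marker_le {η : ℝ} (hη : 0 ≤ η) (t : Ty n T) (b : Bool) (z : ℕ → Zb n) :
    |mark η t b z| ≤ T * η := by
  rw [mark, Pi.smul_apply, smul_eq_mul, abs_mul, abs_of_nonneg hη, mul_comm, Pi.mul_apply, abs_mul]
  refine mul_le_mul_of_nonneg_right ((mul_le_of_le_one_right (abs_nonneg _)
    (abs_psiZ_le t b _ z)).trans ?_) hη
  rw [Finset.sum_apply]
  refine (abs_sum_le_sum_abs _ _).trans (le_of_eq ?_)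
  simp [thZ, abs_spinVal]

theorem abs_loc_le {β : ℕ → ℝ} {η : ℝ} (hβ : ∀ j, 0 ≤ β j ∧ β j ≤ 1) (hη : 0 ≤ η)
    (hη1 : T * η ≤ 1) (t : Ty n T) (b : Bool) (z : ℕ → Zb n) : |loc β η t b z| ≤ n + 1 := by
  unfold loc
  rw [Pi.add_apply]
  refine (abs_add_le _ _).trans (add_le_add ?_ ((abs_marker_le hη t b z).trans hη1))
  refine (abs_sum_psi_le t.1 t.2.1 (fun s ω => ?_) (fun _ _ _ => abs_spinVal _) (hβ _).1 z).trans
    (mul_le_of_le_one_right (by positivity) (hβ _).2)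
  split_ifs
  · exact (abs_spinVal _).le
  · simp

def flTh (z : Zb n) : Zb n := (z.1, !z.2)

def flXi (s s' : Fin n) (z : Zb n) : Zb n := (update z.1 s (update (z.1 s) s' (!z.1 s s')), z.2)

theorem flTh_inv : Involutive (flTh (n := n)) := fun z => by simp [flTh]

theorem flXi_inv (s s' : Fin n) : Involutive (flXi s s') := fun z => by simp [flXi]

theorem spinVal_not (b : Bool) : spinVal (!b) = -spinVal b := by cases b <;> simp [spinVal]
end Loc

section Flip
variable {Sg 𝒦 Z : Type} [DecidableEq 𝒦]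

/-- apply `φ` to the bits of the term `k` at coordinate `j` -/
def flipAt (j : ℕ) (k : 𝒦) (φ : Z → Z) : ℕ → Sg × (𝒦 → Z) → Sg × (𝒦 → Z) :=
  fun i x => if i = j then (x.1, update x.2 k (φ (x.2 k))) else x

theorem flipAt_fst (j : ℕ) (k : 𝒦) (φ : Z → Z) (ω : ℕ → Sg × (𝒦 → Z)) (i : ℕ) :
    (pmap (flipAt j k φ) ω i).1 = (ω i).1 := by
  simp only [pmap, flipAt]; split_ifs <;> rfl

theorem flipAt_snd_ne (j : ℕ) {k k' : 𝒦} (h : k' ≠ k) (φ : Z → Z) (ω : ℕ → Sg × (𝒦 → Z)) (i : ℕ) :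
    (pmap (flipAt j k φ) ω i).2 k' = (ω i).2 k' := by
  simp only [pmap, flipAt]; split_ifs
  · simp [h]
  · rfl

theorem flipAt_snd (j : ℕ) (k : 𝒦) (φ : Z → Z) (ω : ℕ → Sg × (𝒦 → Z)) (i : ℕ) :
    (pmap (flipAt j k φ) ω i).2 k = if i = j then φ ((ω i).2 k) else (ω i).2 k := by
  simp only [pmap, flipAt]; split_ifs
  · simp
  · rfl

theorem isProj_flipAt {L : Lev} [Fintype Sg] [Fintype 𝒦] [Fintype Z] [Nonempty Sg] [Nonempty Z]
    (j : ℕ) (k : 𝒦) {φ : Z → Z} (hφ : Involutive φ) :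
    IsProj (unif L (Sg × (𝒦 → Z))) (unif L (Sg × (𝒦 → Z))) (flipAt j k φ) := by
  have hinv : ∀ i, Involutive (flipAt (Sg := Sg) j k φ i) := by
    intro i x
    simp only [flipAt]
    split_ifs
    · simp [hφ (x.2 k)]
    · rfl
  exact isProj_unif_perm (fun i => (hinv i).toPerm _)
end Flip

theorem sum_update_avg {𝒦 I : Type} [Fintype 𝒦] [DecidableEq 𝒦] [Fintype I] [Nonempty I] (l : 𝒦)
    (Φ : (𝒦 → I) → ℝ) :
    ∑ st : 𝒦 → I, (Fintype.card I : ℝ)⁻¹ * ∑ x, Φ (update st l x) = ∑ st : 𝒦 → I, Φ st := by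
  have hc : (0 : ℝ) < Fintype.card I := by exact_mod_cast Fintype.card_pos
  have h := sum_prod_update (fun (_ : 𝒦) (_ : I) => (Fintype.card I : ℝ)⁻¹) l
    (by simp [hc.ne']) Φ
  simp only [← mul_sum] at h
  have h2 : (∏ _d : 𝒦, (Fintype.card I : ℝ)⁻¹) ≠ 0 := prod_ne_zero_iff.2 fun _ _ => by positivity
  rw [← mul_sum]
  exact mul_left_cancel₀ h2 h

section Concrete
variable (L : Lev) (n M : ℕ) (β : ℕ → ℝ) (η : ℝ)

/-- index set of the terms -/
abbrev Kx := Ty n L.T × Fin M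

noncomputable instance : DecidableEq (Kx L n M) := Classical.decEq _

/-- the local terms as functions of the bit path -/
def ptB (k : Kx L n M) (b : Bool) (y : ℕ → Kx L n M → Zb n) : ℝ :=
  loc β η k.1 b (fun j => y j k)

variable {Sg I : Type} (spin : I → Sg → Bool) (H : Sg → ℝ)

def spB (i : I) (ω : ℕ → Sg × (Kx L n M → Zb n)) : Bool := spin i (ω (L.T - 1)).1

/-- the term `k` at site `i` -/
def Vk (k : Kx L n M) (i : I) : Fn (Sg × (Kx L n M → Zb n)) :=
  fun ω => loc β η k.1 (spB L n M spin i ω) (fun j => (ω j).2 k)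

def tauB (k : Kx L n M) (i : I) : Fn (Sg × (Kx L n M → Zb n)) :=
  fun ω => psiZ k.1 (spB L n M spin i ω) k.1.1 (fun j => (ω j).2 k)

def xiB (k : Kx L n M) (s s' : Fin n) : Fn (Sg × (Kx L n M → Zb n)) :=
  fun ω => xiZ k.1 s s' (fun j => (ω j).2 k)

/-- the Hamiltonian without the term `l` -/
noncomputable def Hm (l : Kx L n M) (st : Kx L n M → I) : Fn (Sg × (Kx L n M → Zb n)) :=
  fun ω => H (ω (L.T - 1)).1 + ∑ k ∈ univ.erase l, Vk L n M β η spin k (st k) ω

theorem pertH_eq (l : Kx L n M) (st : Kx L n M → I) :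
    pertH L (ptB L n M β η) spin H st =
      Hm L n M β η spin H l st + Vk L n M β η spin l (st l) := by
  ext ω
  simp only [pertH, Hm, Pi.add_apply]
  rw [← sum_erase_add _ _ (mem_univ l), add_assoc]
  rfl

theorem Hm_update (l : Kx L n M) (st : Kx L n M → I) (x : I) :
    Hm L n M β η spin H l (update st l x) = Hm L n M β η spin H l st := by
  ext ω
  simp only [Hm]
  congr 1
  exact sum_congr rfl fun k hk => by rw [update_of_ne (ne_of_mem_erase hk)]

theorem Hm_flip (l : Kx L n M) (st : Kx L n M → I) (j : ℕ) (φ : Zb n → Zb n)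
    (ω : ℕ → Sg × (Kx L n M → Zb n)) :
    Hm L n M β η spin H l st (pmap (flipAt j l φ) ω) = Hm L n M β η spin H l st ω := by
  simp only [Hm, flipAt_fst]
  congr 1
  refine sum_congr rfl fun k hk => ?_
  simp only [Vk, spB, flipAt_fst, flipAt_snd_ne j (ne_of_mem_erase hk)]

theorem psi_eq (k : Kx L n M) (i : I) (s : Fin n) :
    psi k.1.1 k.1.2.1 (spinLab (spB L n M spin) k.1.2.2.1 i) (xiB L n M k) s =
      fun ω => psiZ k.1 (spB L n M spin i ω) s (fun j => (ω j).2 k) := by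
  ext ω
  simp only [psi, psiZ, Pi.mul_apply, Finset.prod_apply, spinLab, xiB]

theorem Vk_eq (k : Kx L n M) (i : I) : Vk L n M β η spin k i =
    β k.1.2.1.card • ∑ s ∈ k.1.2.1,
      psi k.1.1 k.1.2.1 (spinLab (spB L n M spin) k.1.2.2.1 i) (xiB L n M k) s +
    fun ω => mark η k.1 (spB L n M spin i ω) (fun j => (ω j).2 k) := by
  ext ω
  simp only [psi_eq, Vk, loc, Pi.add_apply, Pi.smul_apply, Finset.sum_apply]

variable [Fintype Sg] [Nonempty Sg] [Fintype I]

/-- the perturbed system -/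
noncomputable abbrev sysB (st : Kx L n M → I) : Sys L (Sg × (Kx L n M → Zb n)) :=
  (unif L _).tilt (pertH L (ptB L n M β η) spin H st)

omit [Fintype I] in
/-- the pinning estimate for the terms of one type -/
theorem pin_concrete {δ : ℝ} (hδ : 0 < δ) : ∃ T₀ M₀ : ℕ, ∀ (L : Lev), L.Unif → T₀ ≤ L.T →
    ∀ (n M : ℕ) (β : ℕ → ℝ) (η : ℝ), M₀ ≤ M → 0 < η → η ^ 2 * M = 1 →
    ∀ (Sg I : Type) [Fintype Sg] [Nonempty Sg] (spin : I → Sg → Bool) (H : Sg → ℝ)
      (st : Kx L n M → I) (t : Ty n L.T) (ω₀ : ℕ → Sg × (Kx L n M → Zb n)),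
      (L.T : ℝ)⁻¹ * ∑ a ∈ range L.T, (sysB L n M β η spin H st).N ω₀ a
        (fun m : Fin M => tauB L n M spin (t, m) (st (t, m))) ≤ δ := by
  obtain ⟨T₀, M₀, h⟩ := pin δ hδ
  refine ⟨T₀, M₀, fun L hL hT n M β η hM hη hη2 Sg I _ _ spin H st t ω₀ => ?_⟩
  refine h L hL hT _ (Fin M) _ (by simpa using hM) η hη (by simpa using hη2) _
    (fun m j ω => thZ j (fun j => (ω j).2 (t, m))) _ (fun m j => flipAt j (t, m) flTh)
    (fun m ω => abs_psiZ_le _ _ _ _) (fun _ _ _ => abs_spinVal _)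
    (fun m j _ => Meas.coord (Nat.lt_succ_self j) (fun x : Sg × (Kx L n M → Zb n) =>
      spinVal (x.2 (t, m)).2))
    (fun m j _ => isProj_flipAt j _ flTh_inv) (fun m j i x hi => if_neg hi)
    (fun m j ω _ => ?_) (fun m m' j ω _ hm => ?_) (fun m l j ω _ => ?_) (fun m j ω hj => ?_) ω₀
  · simp [thZ, flipAt_snd, flTh, spinVal_not]
  · simp only [thZ, flipAt_snd_ne j (show (t, m') ≠ (t, m) by simpa using hm)]
  · simp only [tauB, spB, flipAt_fst]
    refine psiZ_congr _ _ _ fun i => ?_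
    by_cases hl : l = m
    · subst hl; rw [flipAt_snd]; split_ifs <;> rfl
    · rw [flipAt_snd_ne j (show (t, l) ≠ (t, m) by simpa using hl)]
  · have hz : ∀ i, ((pmap (flipAt j (t, m) flTh) ω i).2 (t, m)).1 = ((ω i).2 (t, m)).1 := by
      intro i; rw [flipAt_snd]; split_ifs <;> rfl
    rw [pertH_eq L n M β η spin H (t, m)]
    simp only [Pi.add_apply, Hm_flip, Vk, tauB, spB, flipAt_fst, loc, mark, Pi.smul_apply,
      Finset.sum_apply, Pi.mul_apply, smul_eq_mul, psiZ_congr _ _ _ hz]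
    rw [← sum_erase_add _ _ (mem_range.2 hj), ← sum_erase_add _ _ (mem_range.2 hj)]
    have : ∑ x ∈ (range L.T).erase j, thZ x (fun i => (pmap (flipAt j (t, m) flTh) ω i).2 (t, m)) =
        ∑ x ∈ (range L.T).erase j, thZ x (fun i => (ω i).2 (t, m)) :=
      sum_congr rfl fun x hx => by simp only [thZ, flipAt_snd, if_neg (ne_of_mem_erase hx)]
    rw [this]; ring
end Concrete

end Crest.Agent.R141
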