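import Crest.Agent.R141.CoreC

/-! The averaged seminorm of the leading coefficient. -/

set_option autoImplicit false
open Finset Function Crest.ProbabilityR.Diluted

namespace Crest.Agent.R141
open Sys

theorem avg_assemble {ST : Type} [Fintype ST] [Nonempty ST] {M T : ℕ} (hM : 0 < M) (hT : 0 < T)
    (NN : ST → ℕ → ℝ) (ok : ℕ → Prop) [DecidablePred ok] (X Y Z ζ : Fin M → ST → ℕ → ℝ)
    {E4 C₁ b b' κ lam u v : ℝ} (hE4 : 0 ≤ E4) (hC₁ : 0 ≤ C₁) (hb : 0 < b) (hb' : 0 ≤ b')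
    (hκ : 0 ≤ κ) (hlam : 0 < lam) (hX0 : ∀ m st a, 0 ≤ X m st a) (hY0 : ∀ m st a, 0 ≤ Y m st a)
    (step1 : ∀ m st a, NN st a ≤ 2 * Y m st a + E4 * (lam + lam⁻¹ * Z m st a))
    (step2 : ∀ m st a, ok a → b * ζ m st a ≤ C₁ * (X m st a + Y m st a + b' + κ))
    (step3 : ∀ m a, ∑ st, Z m st a = ∑ st, ζ m st a)
    (hYs : ∀ m, (Fintype.card ST : ℝ)⁻¹ * ∑ st, (T : ℝ)⁻¹ * ∑ a ∈ range T, Y m st a ≤ u)
    (hXs : ∀ st, (T : ℝ)⁻¹ * ∑ a ∈ range T, (M : ℝ)⁻¹ * ∑ m, X m st a ≤ v) :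
    (Fintype.card ST : ℝ)⁻¹ * ∑ st, (T : ℝ)⁻¹ * ∑ a ∈ range T, (if ok a then NN st a else 0) ≤
      2 * u + E4 * (lam + lam⁻¹ * (C₁ / b * (v + u + b' + κ))) := by
  set cS : ℝ := (Fintype.card ST : ℝ)⁻¹ with hcS
  set cT : ℝ := (T : ℝ)⁻¹ with hcT
  have hcS0 : 0 ≤ cS := by positivity
  have hcT0 : 0 ≤ cT := by positivity
  have hT0 : (0 : ℝ) < T := by exact_mod_cast hT
  have hcS1 : cS * Fintype.card ST = 1 :=
    inv_mul_cancel₀ (by exact_mod_cast Fintype.card_ne_zero)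
  have step4 : ∀ m a, cS * ∑ st, (if ok a then NN st a else 0) ≤
      cS * ∑ st, (2 * Y m st a + E4 * (lam + lam⁻¹ * (C₁ / b *
        (X m st a + Y m st a + b' + κ)))) := by
    intro m a
    refine mul_le_mul_of_nonneg_left ?_ hcS0
    split_ifs with ha
    · refine (sum_le_sum fun st _ => step1 m st a).trans ?_
      rw [sum_add_distrib, sum_add_distrib, ← mul_sum _ _ E4, ← mul_sum _ _ E4, sum_add_distrib,
        sum_add_distrib, ← mul_sum _ _ lam⁻¹, ← mul_sum _ _ lam⁻¹, step3]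
      gcongr with st
      rw [div_mul_eq_mul_div, le_div_iff₀ hb, mul_comm]
      exact step2 m st a ha
    · refine sum_le_sum fun st _ => ?_
      have := hX0 m st a
      have := hY0 m st a
      positivity
  have hXs' : (M : ℝ)⁻¹ * ∑ m, cS * ∑ st, cT * ∑ a ∈ range T, X m st a ≤ v := by
    calc _ = cS * ∑ st, cT * ∑ a ∈ range T, (M : ℝ)⁻¹ * ∑ m, X m st a := by
          simp only [mul_sum]
          rw [sum_comm]
          refine sum_congr rfl fun st _ => ?_
          rw [sum_comm]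
          exact sum_congr rfl fun a _ => sum_congr rfl fun m _ => by ring
      _ ≤ cS * ∑ _st : ST, v := mul_le_mul_of_nonneg_left (sum_le_sum fun st _ => hXs st) hcS0
      _ = _ := by rw [sum_const, card_univ, nsmul_eq_mul, ← mul_assoc, hcS1, one_mul]
  set G := cS * ∑ st, cT * ∑ a ∈ range T, (if ok a then NN st a else 0) with hG
  have e1 : ∀ F : ST → ℕ → ℝ, cS * ∑ st, cT * ∑ a ∈ range T, F st a =
      cT * (cS * ∑ a ∈ range T, ∑ st, F st a) := fun F => by
    rw [← mul_sum, sum_comm]; ring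
  have hGm : ∀ m, G ≤ 2 * u + E4 * (lam + lam⁻¹ * (C₁ / b *
      (cS * ∑ st, cT * ∑ a ∈ range T, X m st a + u + b' + κ))) := by
    intro m
    rw [hG, e1, mul_sum _ _ cS]
    refine (mul_le_mul_of_nonneg_left (sum_le_sum fun a _ => step4 m a) hcT0).trans ?_
    have h6 : cT * ∑ a ∈ range T, cS * ∑ st, (2 * Y m st a + E4 * (lam + lam⁻¹ * (C₁ / b *
        (X m st a + Y m st a + b' + κ)))) =
        2 * (cS * ∑ st, cT * ∑ a ∈ range T, Y m st a) + E4 * (lam + lam⁻¹ * (C₁ / b *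
          (cS * ∑ st, cT * ∑ a ∈ range T, X m st a + cS * ∑ st, cT * ∑ a ∈ range T, Y m st a +
            b' + κ))) := by
      rw [e1, e1]
      simp only [sum_add_distrib, ← mul_sum, sum_const, card_univ, card_range, nsmul_eq_mul,
        mul_add]
      have e2 : cT * T = 1 := inv_mul_cancel₀ hT0.ne'
      set c : ℝ := (Fintype.card ST : ℝ)
      have e3 : cT * T * (cS * c) = 1 := by rw [e2, hcS1, one_mul]
      linear_combination (E4 * lam + E4 * (lam⁻¹ * (C₁ / b * b')) +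
        E4 * (lam⁻¹ * (C₁ / b * κ))) * e3
    rw [h6]
    have := hYs m
    gcongr
  have hM' : (0 : ℝ) < M := by exact_mod_cast hM
  have h8 := mul_le_mul_of_nonneg_left (sum_le_sum fun m (_ : m ∈ (univ : Finset (Fin M))) =>
    hGm m) (inv_nonneg.2 hM'.le)
  have h9 := mul_le_mul_of_nonneg_left hXs' (show 0 ≤ E4 * (lam⁻¹ * (C₁ / b)) by positivity)
  set XX : Fin M → ℝ := fun m => cS * ∑ st, cT * ∑ a ∈ range T, X m st a with hXX
  have e4 : (M : ℝ)⁻¹ * M = 1 := inv_mul_cancel₀ hM'.ne'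
  have e5 : (M : ℝ)⁻¹ * ∑ m, (2 * u + E4 * (lam + lam⁻¹ * (C₁ / b * (XX m + u + b' + κ)))) =
      2 * u + E4 * (lam + lam⁻¹ * (C₁ / b * (u + b' + κ))) +
        E4 * (lam⁻¹ * (C₁ / b)) * ((M : ℝ)⁻¹ * ∑ m, XX m) := by
    simp only [sum_add_distrib, ← mul_sum, sum_const, card_univ, Fintype.card_fin, nsmul_eq_mul,
      mul_add]
    linear_combination (2 * u + E4 * lam + E4 * (lam⁻¹ * (C₁ / b * u)) +
      E4 * (lam⁻¹ * (C₁ / b * b')) + E4 * (lam⁻¹ * (C₁ / b * κ))) * e4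
  rw [e5, sum_const, card_univ, Fintype.card_fin, nsmul_eq_mul, ← mul_assoc, e4, one_mul] at h8
  linarith

section
variable {L : Lev} {n M : ℕ} {β : ℕ → ℝ} {η : ℝ} {Sg I : Type} [Fintype Sg] [Nonempty Sg]
  (spin : I → Sg → Bool) (H : Sg → ℝ)

variable (L n M β η) in
/-- the system without the term `l` -/
noncomputable def sysM (l : Kx L n M) (st : Kx L n M → I) : Sys L (Sg × (Kx L n M → Zb n)) :=
  (unif L _).tilt (Hm L n M β η spin H l st)

theorem sysB_eq (l : Kx L n M) (st : Kx L n M → I) : sysB L n M β η spin H st =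
    (sysM L n M β η spin H l st).tilt (Vk L n M β η spin l (st l)) := by
  rw [sysM, tilt_tilt, ← pertH_eq]

theorem sysM_eq (l : Kx L n M) (st : Kx L n M → I) : sysM L n M β η spin H l st =
    (sysB L n M β η spin H st).tilt (-Vk L n M β η spin l (st l)) := by
  rw [sysB_eq spin H l st, tilt_tilt, add_neg_cancel, tilt_zero]

theorem sysM_update (l : Kx L n M) (st : Kx L n M → I) (x : I) :
    sysM L n M β η spin H l (update st l x) = sysM L n M β η spin H l st := by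
  rw [sysM, Hm_update, sysM]
end

/-- levels of the test bits of a type -/
def Ty.lv {n T : ℕ} (t : Ty n T) : Fin n → Fin n → ℕ := fun s s' => (t.2.2.2 s s' : ℕ) + 1

/-- the leading coefficient of the type `t` -/
noncomputable def WB {L : Lev} {n M : ℕ} {Sg I : Type} [Fintype Sg] (spin : I → Sg → Bool)
    (t : Ty n L.T) (R : Sys L (Sg × (Kx L n M → Zb n))) (a : ℕ) (i : I) :
    Fn (Sg × (Kx L n M → Zb n)) := R.W a t.1 t.2.1 t.lv (spinLab (spB L n M spin) t.2.2.1 i)

theorem pair_concrete (n : ℕ) : ∃ C : ℝ, 0 ≤ C ∧ ∀ (L : Lev) (M : ℕ) (β : ℕ → ℝ) (η : ℝ),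
    (∀ j, 0 ≤ β j ∧ β j ≤ 1) → 0 ≤ η → L.T * η ≤ 1 →
    ∀ (Sg I : Type) [Fintype Sg] [Nonempty Sg] [Fintype I] (spin : I → Sg → Bool)
      (H : Sg → ℝ) (ω₀ : ℕ → Sg × (Kx L n M → Zb n)) (l : Kx L n M), (∀ s ∈ l.1.2.1, l.1.1 < s) →
      ∀ (st : Kx L n M → I) (a : ℕ), (∀ s s', a < l.1.lv s s') →
      β l.1.2.1.card ^ l.1.2.1.card * ((Fintype.card I : ℝ)⁻¹ * ∑ i,
        (sysM L n M β η spin H l st).E 0 (fun ω => |(sysM L n M β η spin H l st).Cov a
          (WB spin l.1 (sysM L n M β η spin H l st) a i)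
          (WB spin l.1 (sysM L n M β η spin H l st) a (st l)) ω|) ω₀) ≤
      C * ((Fintype.card I : ℝ)⁻¹ * ∑ i, (sysB L n M β η spin H st).E 0 (fun ω =>
          |(sysB L n M β η spin H st).Cov a (tauB L n M spin l (st l))
            (WB spin l.1 (sysB L n M β η spin H st) a i) ω|) ω₀ +
        (sysB L n M β η spin H st).L1 ω₀ (fun i => WB spin l.1 (sysB L n M β η spin H st) a i -
          WB spin l.1 (sysM L n M β η spin H l st) a i) +
        β l.1.2.1.card ^ (l.1.2.1.card + 1) + L.T * η) := by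
  obtain ⟨C₁, hC₁, h₁⟩ := pair_bound n
  refine ⟨C₁, hC₁, fun L M β η hβ hη hη1 Sg I _ _ _ spin H ω₀ l ht st a ha => ?_⟩
  have := h₁ L _ I (sysM L n M β η spin H l st) a l.1.1 l.1.2.1 ht (spB L n M spin) l.1.2.2.1 (st l)
    l.1.lv (xiB L n M l) (fun s s' => flipAt (l.1.2.2.2 s s') l (flXi s s'))
    (fun s s' => ⟨ha s s', (l.1.2.2.2 s s').2⟩) (fun _ _ _ => abs_spinVal _)
    (fun s s' => Meas.coord (Nat.lt_succ_self _) (fun x : Sg × (Kx L n M → Zb n) =>
      spinVal ((x.2 l).1 s s')))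
    (fun s s' => (isProj_flipAt _ _ (flXi_inv s s')).tilt_self (Hm_flip L n M β η spin H _ st _ _))
    (fun s s' i x hi => if_neg (fun h => hi (by rw [h]; rfl)))
    (fun s s' ω => by simp [xiB, xiZ, flipAt_snd, flXi, spinVal_not])
    (fun s s' u u' ω hu => by
      simp only [xiB, xiZ, flipAt_snd]
      split_ifs
      · by_cases h1 : u = s
        · subst h1
          have : u' ≠ s' := fun h => hu (by rw [h])
          simp [flXi, this]
        · simp [flXi, h1]
      · rfl)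
    (fun s s' i ω => by simp only [spB, flipAt_fst]) (β _) (hβ _).1 (hβ _).2 _ (L.T * η)
    (by positivity) hη1 (fun ω => abs_marker_le hη _ _ _) (Vk L n M β η spin l (st l))
    (Vk_eq L n M β η spin l _) ω₀
  rw [← sysB_eq, psi_eq L n M spin l] at this
  exact this

theorem W_avg (n : ℕ) : ∃ C : ℝ, 0 ≤ C ∧ ∀ (L : Lev), L.Unif → ∀ (M : ℕ) (β : ℕ → ℝ) (η : ℝ),
    0 < M → (∀ j, 0 < β j ∧ β j ≤ 1) → 0 ≤ η → L.T * η ≤ 1 →
    ∀ (Sg I : Type) [Fintype Sg] [Nonempty Sg] [Fintype I] [Nonempty I] (spin : I → Sg → Bool)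
      (H : Sg → ℝ) (ω₀ : ℕ → Sg × (Kx L n M → Zb n)) (t : Ty n L.T), (∀ s ∈ t.2.1, t.1 < s) →
    ∀ (δ x lam : ℝ), 0 < lam →
      (∀ st : Kx L n M → I, (L.T : ℝ)⁻¹ * ∑ a ∈ range L.T, (sysB L n M β η spin H st).N ω₀ a
        (fun m : Fin M => tauB L n M spin (t, m) (st (t, m))) ≤ δ) →
      (Fintype.card (Kx L n M → I) : ℝ)⁻¹ * ∑ st : Kx L n M → I,
        (sysB L n M β η spin H st).coreErr ω₀ (spB L n M spin) n t.2.1.card ≤ x →
      (Fintype.card (Kx L n M → I) : ℝ)⁻¹ * ∑ st : Kx L n M → I, (L.T : ℝ)⁻¹ * ∑ a ∈ range L.T,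
        (if ∀ s s', a < t.lv s s' then (sysB L n M β η spin H st).N ω₀ a
          (WB spin t (sysB L n M β η spin H st) a) else 0) ≤
        C * (x + lam + lam⁻¹ * ((δ + x + L.T * η) / β t.2.1.card ^ t.2.1.card + β t.2.1.card)) := by
  obtain ⟨C₁, hC₁, h₁⟩ := pair_concrete n
  obtain ⟨C₂, hC₂, h₂⟩ := insens_W n (n + 1)
  have hl := lenB_nonneg n
  obtain ⟨E4, hE4⟩ : ∃ E4, E4 = Real.exp (4 * (n + 1)) := ⟨_, rfl⟩
  have hE40 : 0 < E4 := hE4 ▸ Real.exp_pos _
  refine ⟨2 * (lenB n * C₂) + E4 + E4 * C₁ * (1 + (lenB n + 1) + lenB n * C₂), by positivity, ?_⟩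
  intro L hL M β η hM hβ hη hη1 Sg I _ _ _ _ spin H ω₀ t ht δ x lam hlam hpin hx
  have hβ' : ∀ j, 0 ≤ β j ∧ β j ≤ 1 := fun j => ⟨(hβ j).1.le, (hβ j).2⟩
  have hβk : 0 < β t.2.1.card ^ t.2.1.card := pow_pos (hβ _).1 _
  have hb1 : 0 ≤ β t.2.1.card ^ (t.2.1.card + 1) := pow_nonneg (hβ' _).1 _
  have hκ : 0 ≤ L.T * η := by positivity
  have hVb : ∀ l i ω, |Vk L n M β η spin l i ω| ≤ n + 1 :=
    fun l i ω => abs_loc_le hβ' hη hη1 _ _ _
  have h7 := avg_assemble hM L.T_pos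
    (fun st a => (sysB L n M β η spin H st).N ω₀ a (WB spin t (sysB L n M β η spin H st) a))
    (fun a => ∀ s s', a < t.lv s s')
    (fun m st a => (Fintype.card I : ℝ)⁻¹ * ∑ i, (sysB L n M β η spin H st).E 0 (fun ω =>
      |(sysB L n M β η spin H st).Cov a (tauB L n M spin (t, m) (st (t, m)))
        (WB spin t (sysB L n M β η spin H st) a i) ω|) ω₀)
    (fun m st a => (sysB L n M β η spin H st).L1 ω₀ (fun i =>
      WB spin t (sysB L n M β η spin H st) a i - WB spin t (sysM L n M β η spin H (t, m) st) a i))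
    (fun m st a => (Fintype.card I : ℝ)⁻¹ * ∑ i, (Fintype.card I : ℝ)⁻¹ * ∑ i',
      (sysM L n M β η spin H (t, m) st).E 0 (fun ω => |(sysM L n M β η spin H (t, m) st).Cov a
          (WB spin t (sysM L n M β η spin H (t, m) st) a i)
          (WB spin t (sysM L n M β η spin H (t, m) st) a i') ω|) ω₀)
    (fun m st a => (Fintype.card I : ℝ)⁻¹ * ∑ i,
      (sysM L n M β η spin H (t, m) st).E 0 (fun ω => |(sysM L n M β η spin H (t, m) st).Cov a
          (WB spin t (sysM L n M β η spin H (t, m) st) a i)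
          (WB spin t (sysM L n M β η spin H (t, m) st) a (st (t, m))) ω|) ω₀)
    (u := lenB n * C₂ * x) (v := (lenB n + 1) * δ) hE40.le hC₁ hβk hb1 hκ hlam
    (fun m st a => mul_nonneg (by positivity)
      (sum_nonneg fun _ _ => E_nonneg _ _ (fun _ => abs_nonneg _) _))
    (fun m st a => L1_nonneg _ _ _)
    (fun m st a => by
      have := N_transfer (sysM L n M β η spin H (t, m) st) ω₀ a (hVb (t, m) (st (t, m)))
        (WB spin t (sysB L n M β η spin H st) a) (WB spin t (sysM L n M β η spin H (t, m) st) a) hlam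
      rw [← sysB_eq, ← hE4] at this
      exact this)
    (fun m st a ha => h₁ L M β η hβ' hη hη1 Sg I spin H ω₀ (t, m) ht st a ha)
    (fun m a => by
      rw [← sum_update_avg (t, m) (fun st => (Fintype.card I : ℝ)⁻¹ * ∑ i,
        (sysM L n M β η spin H (t, m) st).E 0 (fun ω => |(sysM L n M β η spin H (t, m) st).Cov a
          (WB spin t (sysM L n M β η spin H (t, m) st) a i)
          (WB spin t (sysM L n M β η spin H (t, m) st) a (st (t, m))) ω|) ω₀)]
      refine sum_congr rfl fun st _ => ?_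
      simp only [sysM_update, update_self, ← mul_sum]
      rw [sum_comm])
    (fun m => by
      refine le_trans ?_ (mul_le_mul_of_nonneg_left hx (by positivity))
      rw [mul_left_comm, mul_sum _ _ (lenB n * C₂)]
      refine mul_le_mul_of_nonneg_left (sum_le_sum fun st _ => ?_) (by positivity)
      have := h₂ L hL _ I (sysB L n M β η spin H st) ω₀ (spB L n M spin)
        (-Vk L n M β η spin (t, m) (st (t, m))) (fun ω => by
        rw [Pi.neg_apply, abs_neg]; exact hVb _ _ _) t.1 t.2.1 ht t.2.2.1 t.lv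
      rw [← sysM_eq] at this
      exact this.trans (mul_le_mul_of_nonneg_right
        (mul_le_mul_of_nonneg_right (length_le_lenB _ _) hC₂) (Sys.coreErr_nonneg _ _ _ _ _)))
    (fun st => by
      refine le_trans ?_ (mul_le_mul_of_nonneg_left (hpin st) (by positivity))
      rw [mul_left_comm, mul_sum _ _ (lenB n + 1)]
      refine mul_le_mul_of_nonneg_left (sum_le_sum fun a _ => ?_) (by positivity)
      rw [← mul_sum, sum_comm, mul_left_comm, mul_sum _ _ (M : ℝ)⁻¹]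
      have h4 : ∀ i, (M : ℝ)⁻¹ * ∑ m, (sysB L n M β η spin H st).E 0 (fun ω =>
          |(sysB L n M β η spin H st).Cov a (tauB L n M spin (t, m) (st (t, m)))
            (WB spin t (sysB L n M β η spin H st) a i) ω|) ω₀ ≤ (lenB n + 1) *
          (sysB L n M β η spin H st).N ω₀ a
            (fun m : Fin M => tauB L n M spin (t, m) (st (t, m))) := by
        intro i
        have := (sysB L n M β η spin H st).le_mul_N ω₀ a
          (fun m : Fin M => tauB L n M spin (t, m) (st (t, m)))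
          (Z := WB spin t (sysB L n M β η spin H st) a i) (A := lenB n + 1) (by positivity) (fun ω =>
            ((sysB L n M β η spin H st).abs_W_le a _ _ t.lv (abs_spinLab_le _ _ i) ω).trans
              ((length_le_lenB _ _).trans (by linarith)))
        rwa [Fintype.card_fin] at this
      refine (mul_le_mul_of_nonneg_left (sum_le_sum fun i _ => h4 i) (by positivity)).trans ?_
      rw [sum_const, card_univ, nsmul_eq_mul, ← mul_assoc]
      exact mul_le_of_le_one_left (mul_nonneg (by positivity) (N_nonneg _ _ _ _)) inv_mul_le_one)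
  refine h7.trans ?_
  have hx0 : 0 ≤ x := le_trans (mul_nonneg (by positivity) (sum_nonneg fun _ _ =>
    Sys.coreErr_nonneg _ _ _ _ _)) hx
  have hδ0 : 0 ≤ δ := le_trans (mul_nonneg (by positivity) (sum_nonneg fun _ _ => N_nonneg _ _ _ _))
    (hpin fun _ => Classical.arbitrary I)
  clear h7 hpin hx h₁ h₂ hVb
  have hβ0 := (hβ t.2.1.card).1
  generalize t.2.1.card = k at *
  generalize (L.T : ℝ) * η = κ at *
  have h10 : C₁ / β k ^ k * ((lenB n + 1) * δ + lenB n * C₂ * x + β k ^ (k + 1) + κ) ≤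
      C₁ * (1 + (lenB n + 1) + lenB n * C₂) * ((δ + x + κ) / β k ^ k + β k) := by
    have e5 : (δ + x + κ) / β k ^ k + β k = (δ + x + κ + β k ^ (k + 1)) / β k ^ k := by
      rw [pow_succ]; field_simp
    rw [e5, div_mul_eq_mul_div, ← mul_div_assoc]
    have hlc : 0 ≤ lenB n * C₂ := by positivity
    refine div_le_div_of_nonneg_right ?_ hβk.le
    rw [mul_assoc C₁]
    refine mul_le_mul_of_nonneg_left ?_ hC₁
    nlinarith [mul_nonneg hl hx0, mul_nonneg hl hκ, mul_nonneg hl hb1, mul_nonneg hlc hδ0,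
      mul_nonneg hlc hκ, mul_nonneg hlc hb1]
  have hQ : 0 ≤ (δ + x + κ) / β k ^ k + β k := by positivity
  generalize (δ + x + κ) / β k ^ k + β k = Q at *
  have h11 := mul_le_mul_of_nonneg_left h10 (show 0 ≤ E4 * lam⁻¹ by positivity)
  have hD0 : 0 ≤ E4 * C₁ * (1 + (lenB n + 1) + lenB n * C₂) := by positivity
  have hlQ : 0 ≤ lam⁻¹ * Q := by positivity
  have hlc : 0 ≤ lenB n * C₂ := by positivity
  nlinarith [mul_nonneg hlc hlam.le, mul_nonneg hlc hlQ, mul_nonneg hE40.le hx0,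
    mul_nonneg hE40.le hlQ, mul_nonneg hD0 hx0, mul_nonneg hD0 hlam.le]

end Crest.Agent.R141
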