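import Mathlib
import Crest.Prelude.Def_DilutedSpinGlass

/-! Row 141: normalising the factorised representation, and permutation symmetry of `μ`. -/

set_option autoImplicit false

open MeasureTheory Crest.ProbabilityR.Diluted
namespace Crest.Agent.R141

/-- `HasFactorization` plus the convexity alternative (`p` even, or `f ≥ 0`). -/
def HasFacC (p : ℕ) (μ : Measure (Inter p)) : Prop :=
  ∃ (Ω : Type) (_ : MeasurableSpace Ω) (P : Measure Ω) (_ : IsProbabilityMeasure P)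
    (a b : Ω → ℝ) (f : Fin p → Ω → Bool → ℝ),
    Measurable a ∧ Measurable b ∧ (∀ ℓ, Measurable (f ℓ)) ∧
    ProbabilityTheory.iIndepFun f P ∧
    (∀ ℓ, ProbabilityTheory.IdentDistrib (f ℓ) (f ⟨0, Fin.pos ℓ⟩) P P) ∧
    ProbabilityTheory.IndepFun b (fun ω => fun ℓ => f ℓ ω) P ∧
    (∀ᵐ ω ∂P, 0 < a ω ∧ ∀ s : Fin p → Bool, |b ω * ∏ ℓ, f ℓ ω (s ℓ)| < 1) ∧
    (∀ n : ℕ, 1 ≤ n → Integrable (fun ω => (-b ω) ^ n) P ∧ 0 ≤ ∫ ω, (-b ω) ^ n ∂P) ∧
    P.map (fun ω => fun s : Fin p → Bool => Real.log (a ω * (1 + b ω * ∏ ℓ, f ℓ ω (s ℓ)))) = μ ∧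
    (Even p ∨ ∀ ℓ, ∀ᵐ ω ∂P, ∀ s, 0 ≤ f ℓ ω s)

theorem HasFacC.of_even {p : ℕ} {μ : Measure (Inter p)} (hp : Even p) (h : HasFactorization p μ) :
    HasFacC p μ := by
  obtain ⟨Ω, mΩ, P, hP, a, b, f, h1, h2, h3, h4, h5, h6, h7, h8, h9⟩ := h
  exact ⟨Ω, mΩ, P, hP, a, b, f, h1, h2, h3, h4, h5, h6, h7, h8, h9, Or.inl hp⟩

/-- normalised factorisation data -/
structure NFac (p : ℕ) (μ : Measure (Inter p)) where
  Ω : Type
  [mΩ : MeasurableSpace Ω]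
  P : Measure Ω
  [hP : IsProbabilityMeasure P]
  a : Ω → ℝ
  b : Ω → ℝ
  f : Fin p → Ω → Bool → ℝ
  /-- common law of the `f ℓ` -/
  ρ : Measure (Bool → ℝ)
  [hρ : IsProbabilityMeasure ρ]
  ma : Measurable a
  mb : Measurable b
  mf : ∀ ℓ, Measurable (f ℓ)
  a_pos : ∀ ω, 0 < a ω
  b_le : ∀ ω, |b ω| ≤ 1
  f_le : ∀ ℓ ω s, |f ℓ ω s| ≤ 1
  ρ_le : ∀ᵐ g ∂ρ, ∀ s, |g s| ≤ 1
  lt_one : ∀ ω (s : Fin p → Bool), |b ω * ∏ ℓ, f ℓ ω (s ℓ)| < 1
  mom : ∀ n : ℕ, 1 ≤ n → 0 ≤ ∫ ω, (-b ω) ^ n ∂P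
  law : P.map (fun ω => fun s : Fin p → Bool => Real.log (a ω * (1 + b ω * ∏ ℓ, f ℓ ω (s ℓ)))) = μ
  prod : ∀ (n : ℕ) (G : Fin p → (Bool → ℝ) → ℝ), (∀ ℓ, Continuous (G ℓ)) →
    ∫ ω, (-b ω) ^ n * ∏ ℓ, G ℓ (f ℓ ω) ∂P = (∫ ω, (-b ω) ^ n ∂P) * ∏ ℓ, ∫ g, G ℓ g ∂ρ
  conv : Even p ∨ ∀ᵐ g ∂ρ, ∀ s, 0 ≤ g s

namespace FacAux

open ProbabilityTheory

variable {Ω : Type} [MeasurableSpace Ω] {P : Measure Ω}

lemma ae_le_of_forall_gt {X : Ω → ℝ} {c : ℝ} (h : ∀ z, c < z → ∀ᵐ ω ∂P, X ω ≤ z) :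
    ∀ᵐ ω ∂P, X ω ≤ c := by
  have h1 : ∀ᵐ ω ∂P, ∀ n : ℕ, X ω ≤ c + 1 / ((n : ℝ) + 1) :=
    ae_all_iff.2 fun n => h _ (by have : (0 : ℝ) < 1 / ((n : ℝ) + 1) := by positivity
                                  linarith)
  filter_upwards [h1] with ω hω
  refine le_of_forall_pos_le_add fun ε hε => ?_
  obtain ⟨n, hn⟩ := exists_nat_one_div_lt hε
  linarith [hω n]

lemma key {p : ℕ} {b : Ω → ℝ} {f : Fin p → Ω → Bool → ℝ} (ℓ₀ : Fin p)
    (hind : iIndepFun f P) (hid : ∀ ℓ, IdentDistrib (f ℓ) (f ℓ₀) P P)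
    (hb : IndepFun b (fun ω => fun ℓ => f ℓ ω) P)
    (hlt : ∀ᵐ ω ∂P, ∀ s : Fin p → Bool, |b ω * ∏ ℓ, f ℓ ω (s ℓ)| < 1)
    {y z : ℝ} (hz : 0 ≤ z) (h : 1 ≤ y * z ^ p) :
    (∀ᵐ ω ∂P, |b ω| ≤ y) ∨ ∀ᵐ ω ∂P, ‖f ℓ₀ ω‖ ≤ z := by
  have mA : MeasurableSet {t : ℝ | y < |t|} := measurableSet_lt measurable_const (by fun_prop)
  have mB : MeasurableSet {g : Bool → ℝ | z < ‖g‖} :=
    measurableSet_lt measurable_const (by fun_prop)
  have h1 := hb.measure_inter_preimage_eq_mul {t : ℝ | y < |t|}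
    (Set.pi Set.univ fun _ : Fin p => {g : Bool → ℝ | z < ‖g‖}) mA
    (MeasurableSet.univ_pi fun _ => mB)
  have h2 := hind.measure_inter_preimage_eq_mul Finset.univ
    (sets := fun _ => {g : Bool → ℝ | z < ‖g‖}) (fun _ _ => mB)
  have h3 : (fun ω => fun ℓ => f ℓ ω) ⁻¹'
      (Set.pi Set.univ fun _ : Fin p => {g : Bool → ℝ | z < ‖g‖}) =
      ⋂ ℓ ∈ (Finset.univ : Finset (Fin p)), f ℓ ⁻¹' {g : Bool → ℝ | z < ‖g‖} := by
    ext ω; simp
  rw [h3, h2] at h1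
  have h4 : P (b ⁻¹' {t : ℝ | y < |t|} ∩
      ⋂ ℓ ∈ (Finset.univ : Finset (Fin p)), f ℓ ⁻¹' {g : Bool → ℝ | z < ‖g‖}) = 0 := by
    refine measure_mono_null ?_ (ae_iff.1 hlt)
    rintro ω ⟨hω1, hω2⟩ hω
    simp only [Finset.mem_univ, Set.iInter_true, Set.mem_iInter, Set.mem_preimage,
      Set.mem_ofPred_eq] at hω1 hω2
    have : ∀ ℓ, ∃ s, z < |f ℓ ω s| := by
      intro ℓ
      by_contra hcon
      push Not at hcon
      exact absurd ((pi_norm_le_iff_of_nonneg hz).2 hcon) (hω2 ℓ).not_ge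
    choose s hs using this
    have h5 := hω s
    rw [abs_mul, Finset.abs_prod] at h5
    have h6 : z ^ p ≤ ∏ ℓ, |f ℓ ω (s ℓ)| := by
      calc z ^ p = ∏ _ℓ : Fin p, z := by simp
        _ ≤ _ := Finset.prod_le_prod (fun _ _ => hz) fun ℓ _ => (hs ℓ).le
    have h7 : y * z ^ p ≤ |b ω| * ∏ ℓ, |f ℓ ω (s ℓ)| := by gcongr
    linarith
  rw [h4] at h1
  rcases mul_eq_zero.1 h1.symm with h5 | h5
  · left
    rw [ae_iff]
    simpa [Set.preimage] using h5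
  · right
    obtain ⟨ℓ, -, h6⟩ := Finset.prod_eq_zero_iff.1 h5
    rw [(hid ℓ).measure_preimage_eq mB] at h6
    rw [ae_iff]
    simpa [Set.preimage] using h6

lemma exists_scale {p : ℕ} {b : Ω → ℝ} {N : Ω → ℝ} (hp : 1 ≤ p)
    (hkey : ∀ y z : ℝ, 0 ≤ y → 0 ≤ z → 1 ≤ y * z ^ p → (∀ᵐ ω ∂P, |b ω| ≤ y) ∨ ∀ᵐ ω ∂P, N ω ≤ z)
    (hb : ¬ ∀ᵐ ω ∂P, |b ω| ≤ 0) (hN : ¬ ∀ᵐ ω ∂P, N ω ≤ 0) :
    ∃ c : ℝ, 0 < c ∧ (∀ᵐ ω ∂P, N ω ≤ c) ∧ ∀ᵐ ω ∂P, |b ω| ≤ (c ^ p)⁻¹ := by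
  obtain ⟨y0, hy0, hy0'⟩ : ∃ y, 0 < y ∧ ¬ ∀ᵐ ω ∂P, |b ω| ≤ y := by
    by_contra hcon
    push Not at hcon
    exact hb (ae_le_of_forall_gt hcon)
  set S : Set ℝ := {z | 0 ≤ z ∧ ∀ᵐ ω ∂P, N ω ≤ z} with hS
  have hne : S.Nonempty := by
    have h1 : (1 : ℝ) ≤ max 1 y0⁻¹ := le_max_left _ _
    refine ⟨max 1 y0⁻¹, by linarith, (hkey y0 _ hy0.le (by linarith) ?_).resolve_left hy0'⟩
    calc 1 = y0 * y0⁻¹ := by field_simp
      _ ≤ y0 * max 1 y0⁻¹ := by gcongr; exact le_max_right _ _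
      _ ≤ y0 * (max 1 y0⁻¹) ^ p := by gcongr; exact le_self_pow₀ h1 (by omega)
  have hbdd : BddBelow S := ⟨0, fun z hz => hz.1⟩
  have hc0 : 0 ≤ sInf S := le_csInf hne fun z hz => hz.1
  have hc : ∀ᵐ ω ∂P, N ω ≤ sInf S := by
    refine ae_le_of_forall_gt fun z hz => ?_
    obtain ⟨z', hz', hlt⟩ := exists_lt_of_csInf_lt hne hz
    filter_upwards [hz'.2] with ω hω using hω.trans hlt.le
  have hcpos : 0 < sInf S := by
    refine hc0.lt_of_ne fun h => hN ?_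
    rwa [← h] at hc
  refine ⟨sInf S, hcpos, hc, ae_le_of_forall_gt fun y hy => ?_⟩
  have hy0 : 0 < y := lt_trans (by positivity) hy
  have h1 : 1 < y * sInf S ^ p := by
    rwa [inv_lt_iff_one_lt_mul₀ (by positivity)] at hy
  have h2 : ∀ᶠ z in nhds (sInf S), 1 < y * z ^ p :=
    (by fun_prop : Continuous fun z : ℝ => y * z ^ p).continuousAt.eventually (lt_mem_nhds h1)
  have h3 : ∀ᶠ z in nhds (sInf S), 0 < z := lt_mem_nhds hcpos
  obtain ⟨z, ⟨hz1, hz2⟩, hz3⟩ :=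
    (((h2.and h3).filter_mono nhdsWithin_le_nhds).and
      (self_mem_nhdsWithin (s := Set.Iio (sInf S)))).exists
  refine (hkey y z hy0.le hz2.le hz1.le).resolve_right fun h => ?_
  exact absurd (csInf_le hbdd ⟨hz2.le, h⟩) (not_le.2 hz3)

end FacAux

open FacAux ProbabilityTheory in
theorem HasFacC.nfac {p : ℕ} (hp : 1 ≤ p) {μ : Measure (Inter p)} (h : HasFacC p μ) :
    Nonempty (NFac p μ) := by
  classical
  obtain ⟨Ω, mΩ, P, hP, a, b, f, ma, mb, mf, hind, hid, hb, hae, hmom, hlaw, hconv⟩ := h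
  let ℓ₀ : Fin p := ⟨0, hp⟩
  have hid' : ∀ ℓ, IdentDistrib (f ℓ) (f ℓ₀) P P := hid
  by_cases hdeg : (∀ᵐ ω ∂P, |b ω| ≤ 0) ∨ ∀ᵐ ω ∂P, ‖f ℓ₀ ω‖ ≤ 0
  · have h0 : ∀ᵐ ω ∂P, ∀ s : Fin p → Bool, b ω * ∏ ℓ, f ℓ ω (s ℓ) = 0 := by
      rcases hdeg with h | h
      · filter_upwards [h] with ω hω s
        rw [abs_nonpos_iff.1 hω, zero_mul]
      · filter_upwards [h] with ω hω s
        rw [Finset.prod_eq_zero (Finset.mem_univ ℓ₀), mul_zero]
        rw [norm_le_zero_iff.1 hω]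
        rfl
    refine ⟨{
      Ω := Ω, P := P, a := fun ω => if 0 < a ω then a ω else 1, b := fun _ => 0
      f := fun _ _ => 0, ρ := Measure.dirac 0
      ma := Measurable.ite (measurableSet_lt measurable_const ma) ma measurable_const
      mb := measurable_const, mf := fun _ => measurable_const
      a_pos := fun ω => by split_ifs with h <;> simp [h]
      b_le := by simp
      f_le := by simp
      ρ_le := by simp
      lt_one := by simp
      mom := fun n hn => by simp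
      law := ?_
      prod := fun n G _ => by simp
      conv := Or.inr (by simp) }⟩
    rw [← hlaw]
    refine Measure.map_congr ?_
    filter_upwards [h0, hae] with ω h1 h2
    funext s
    simp [h1 s, h2.1]
  push Not at hdeg
  obtain ⟨c, hc, hfc, hbc⟩ := exists_scale (N := fun ω => ‖f ℓ₀ ω‖) hp
    (fun y z _ hz h => key ℓ₀ hind hid' hb (hae.mono fun _ h => h.2) hz h)
    (by simpa using hdeg.1) (by simpa using hdeg.2)
  have hfc' : ∀ᵐ ω ∂P, ∀ ℓ, ‖f ℓ ω‖ ≤ c := ae_all_iff.2 fun ℓ =>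
    (hid' ℓ).symm.ae_snd (p := fun g => ‖g‖ ≤ c) (measurableSet_le (by fun_prop) measurable_const)
      hfc
  let Gd : Ω → Prop := fun ω => (0 < a ω ∧ ∀ s : Fin p → Bool, |b ω * ∏ ℓ, f ℓ ω (s ℓ)| < 1) ∧
    |b ω| ≤ (c ^ p)⁻¹ ∧ ∀ ℓ, ‖f ℓ ω‖ ≤ c
  have mG : MeasurableSet {ω | Gd ω} := by
    simp only [Gd, Set.ofPred_and, Set.ofPred_forall]
    refine ((measurableSet_lt measurable_const ma).inter (MeasurableSet.iInter fun s =>
      measurableSet_lt (by fun_prop) measurable_const)).inter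
      ((measurableSet_le (by fun_prop) measurable_const).inter
        (MeasurableSet.iInter fun ℓ => measurableSet_le (by fun_prop) measurable_const))
  have hG : ∀ᵐ ω ∂P, Gd ω := by
    filter_upwards [hae, hbc, hfc'] with ω h1 h2 h3 using ⟨h1, h2, h3⟩
  have hprod : ∀ ω (s : Fin p → Bool),
      b ω * c ^ p * ∏ ℓ, (c⁻¹ • f ℓ ω) (s ℓ) = b ω * ∏ ℓ, f ℓ ω (s ℓ) := by
    intro ω s
    simp only [Pi.smul_apply, smul_eq_mul, Finset.prod_mul_distrib, Finset.prod_const,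
      Finset.card_univ, Fintype.card_fin, inv_pow]
    field_simp
  have hle : ∀ g : Bool → ℝ, ‖g‖ ≤ c → ∀ s, |(c⁻¹ • g) s| ≤ 1 := by
    intro g hg s
    rw [Pi.smul_apply, smul_eq_mul, abs_mul, abs_of_pos (inv_pos.2 hc), inv_mul_le_iff₀ hc, mul_one]
    exact (norm_le_pi_norm g s).trans hg
  have mf0 : Measurable fun ω => c⁻¹ • f ℓ₀ ω := (mf ℓ₀).const_smul c⁻¹
  have : IsProbabilityMeasure (P.map fun ω => c⁻¹ • f ℓ₀ ω) :=
    Measure.isProbabilityMeasure_map mf0.aemeasurable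
  have hb' : ∀ n : ℕ, ∫ ω, (-(if Gd ω then b ω * c ^ p else 0)) ^ n ∂P =
      ∫ ω, (-(b ω * c ^ p)) ^ n ∂P := fun n =>
    integral_congr_ae (hG.mono fun ω hω => by simp only [if_pos hω])
  refine ⟨{
    Ω := Ω, P := P, a := fun ω => if Gd ω then a ω else 1
    b := fun ω => if Gd ω then b ω * c ^ p else 0
    f := fun ℓ ω => if Gd ω then c⁻¹ • f ℓ ω else 0
    ρ := P.map fun ω => c⁻¹ • f ℓ₀ ω
    ma := Measurable.ite mG ma measurable_const
    mb := Measurable.ite mG (mb.mul_const _) measurable_const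
    mf := fun ℓ => Measurable.ite mG ((mf ℓ).const_smul c⁻¹) measurable_const
    a_pos := ?_, b_le := ?_, f_le := ?_, ρ_le := ?_, lt_one := ?_, mom := ?_, law := ?_
    prod := ?_, conv := ?_ }⟩
  · intro ω
    split_ifs with h
    · exact h.1.1
    · exact one_pos
  · intro ω
    split_ifs with h
    · rw [abs_mul, abs_of_pos (pow_pos hc p), ← le_div_iff₀ (pow_pos hc p), one_div]
      exact h.2.1
    · simp
  · intro ℓ ω s
    split_ifs with h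
    · exact hle _ (h.2.2 ℓ) s
    · simp
  · rw [ae_map_iff mf0.aemeasurable]
    · exact hfc.mono fun ω hω => hle _ hω
    · simp only [Set.ofPred_forall]
      exact MeasurableSet.iInter fun s => measurableSet_le (by fun_prop) measurable_const
  · intro ω s
    by_cases h : Gd ω
    · simp only [if_pos h, hprod]
      exact h.1.2 s
    · simp [if_neg h]
  · intro n hn
    rw [hb']
    simp only [neg_mul_eq_neg_mul, mul_pow]
    rw [integral_mul_const]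
    exact mul_nonneg (hmom n hn).2 (by positivity)
  · rw [← hlaw]
    refine Measure.map_congr (hG.mono fun ω hω => ?_)
    simp only [if_pos hω, hprod]
  · intro n G hGc
    rw [hb']
    have h1 : ∫ ω, (-(if Gd ω then b ω * c ^ p else 0)) ^ n *
        ∏ ℓ, G ℓ (if Gd ω then c⁻¹ • f ℓ ω else 0) ∂P =
        ∫ ω, (-(b ω * c ^ p)) ^ n * ∏ ℓ, G ℓ (c⁻¹ • f ℓ ω) ∂P :=
      integral_congr_ae (hG.mono fun ω hω => by simp only [if_pos hω])
    have mG' : ∀ ℓ, Measurable fun g : Bool → ℝ => G ℓ (c⁻¹ • g) := fun ℓ =>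
      (hGc ℓ).measurable.comp (measurable_id.const_smul c⁻¹)
    have h2 := (hb.comp (φ := fun t : ℝ => (-(t * c ^ p)) ^ n)
      (ψ := fun g : Fin p → Bool → ℝ => ∏ ℓ, G ℓ (c⁻¹ • g ℓ)) (by fun_prop)
      (Finset.measurable_prod _ fun ℓ _ => (mG' ℓ).comp (measurable_pi_apply ℓ))
      ).integral_fun_mul_eq_mul_integral
        (Measurable.aestronglyMeasurable (by fun_prop))
        (Measurable.aestronglyMeasurable (Finset.measurable_prod _ fun ℓ _ => (mG' ℓ).comp (mf ℓ)))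
    have h3 := hind.integral_fun_prod_comp (f := fun ℓ g => G ℓ (c⁻¹ • g))
      (fun ℓ => (mf ℓ).aemeasurable) (fun ℓ => (mG' ℓ).aestronglyMeasurable)
    simp only [Function.comp_def] at h2
    rw [h1, h2, h3]
    congr 1
    refine Finset.prod_congr rfl fun ℓ _ => ?_
    rw [integral_map mf0.aemeasurable (hGc ℓ).aestronglyMeasurable]
    exact ((hid' ℓ).comp (mG' ℓ)).integral_eq
  · refine hconv.imp id fun h => ?_
    rw [ae_map_iff mf0.aemeasurable]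
    · exact (h ℓ₀).mono fun ω hω s => mul_nonneg (inv_pos.2 hc).le (hω s)
    · simp only [Set.ofPred_forall]
      exact MeasurableSet.iInter fun s => measurableSet_le measurable_const (by fun_prop)

/-- permutation symmetry of `μ` modulo constants -/
def SymLaw (p : ℕ) (μ : Measure (Inter p)) : Prop :=
  ∀ (π : Equiv.Perm (Fin p)) (G : Inter p → ℝ), LipschitzWith 1 G →
    (∀ θ (c : ℝ), G (fun s => θ s + c) = G θ + c) →
    ∫ θ, G (fun s => θ (fun ℓ => s (π ℓ))) ∂μ = ∫ θ, G θ ∂μ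

theorem supNorm_eq_norm {p : ℕ} (θ : Inter p) : supNorm θ = ‖θ‖ :=
  le_antisymm (ciSup_le fun s => norm_le_pi_norm θ s)
    ((pi_norm_le_iff_of_nonempty θ).2 fun s =>
      le_ciSup (f := fun s => |θ s|) (Finite.bddAbove_range _) s)

open ProbabilityTheory in
theorem HasFacC.symLaw {p : ℕ} (hp : 1 ≤ p) {μ : Measure (Inter p)} [IsProbabilityMeasure μ]
    (hμ : Integrable (fun θ => supNorm θ) μ) (h : HasFacC p μ) : SymLaw p μ := by
  obtain ⟨Ω, mΩ, P, hP, a, b, f, ma, mb, mf, hind, hid, hb, hae, -, hlaw, -⟩ := h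
  have hid' : ∀ ℓ, IdentDistrib (f ℓ) (f ⟨0, hp⟩) P P := hid
  simp only [supNorm_eq_norm] at hμ
  have hI : Integrable (fun θ : Inter p => θ) μ :=
    (integrable_norm_iff (measurable_id.aestronglyMeasurable)).1 hμ
  intro π G hG hEq
  let s0 : Fin p → Bool := fun _ => true
  let Ψ : ℝ × (Fin p → Bool → ℝ) → Inter p := fun q s =>
    Real.log (1 + q.1 * ∏ ℓ, q.2 ℓ (s ℓ)) - Real.log (1 + q.1 * ∏ ℓ, q.2 ℓ true)
  have mΨ : Measurable Ψ := by
    refine measurable_pi_lambda _ fun s => ?_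
    fun_prop
  have hmain : ∀ σ : Equiv.Perm (Fin p), ∫ θ, G (fun s => θ (fun ℓ => s (σ ℓ))) ∂μ =
      ∫ ω, G (Ψ (b ω, fun ℓ => f ℓ ω)) ∂P + ∫ θ, θ s0 ∂μ := by
    intro σ
    let T : Inter p →L[ℝ] Inter p := ContinuousLinearMap.pi fun s =>
      (ContinuousLinearMap.proj (R := ℝ) (fun ℓ => s (σ ℓ)) : Inter p →L[ℝ] ℝ) -
        (ContinuousLinearMap.proj (R := ℝ) s0 : Inter p →L[ℝ] ℝ)
    have hT : ∀ θ s, T θ s = θ (fun ℓ => s (σ ℓ)) - θ s0 := fun θ s => rfl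
    have h1 : ∀ θ : Inter p, G (fun s => θ (fun ℓ => s (σ ℓ))) = G (T θ) + θ s0 := by
      intro θ
      rw [← hEq]
      simp [hT]
    have i1 : Integrable (fun θ => G (T θ)) μ := by
      have h2 : Integrable (fun θ => G (T θ) - G 0) μ := by
        refine (T.integrable_comp hI).norm.mono'
          ((hG.continuous.comp T.continuous).sub continuous_const).aestronglyMeasurable
          (Filter.Eventually.of_forall fun θ => ?_)
        simpa [Real.dist_eq] using hG.dist_le_mul (T θ) 0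
      exact (h2.add (integrable_const (G 0))).congr (Filter.Eventually.of_forall fun θ => by simp)
    have i2 : Integrable (fun θ : Inter p => θ s0) μ :=
      (ContinuousLinearMap.proj (R := ℝ) s0 : Inter p →L[ℝ] ℝ).integrable_comp hI
    simp only [h1]
    rw [integral_add i1 i2]
    congr 1
    have mΘ : Measurable fun ω => fun s : Fin p → Bool =>
        Real.log (a ω * (1 + b ω * ∏ ℓ, f ℓ ω (s ℓ))) := measurable_pi_lambda _ fun s => by fun_prop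
    rw [← hlaw, integral_map (f := fun θ => G (T θ)) mΘ.aemeasurable
      (hG.continuous.comp T.continuous).aestronglyMeasurable]
    have h2 : IdentDistrib (fun ω => (b ω, fun ℓ => f (σ.symm ℓ) ω))
        (fun ω => (b ω, fun ℓ => f ℓ ω)) P P := by
      refine IdentDistrib.prodMk (IdentDistrib.refl mb.aemeasurable) ?_ ?_ hb
      · exact IdentDistrib.pi (X := fun ℓ => f (σ.symm ℓ)) (Y := f)
          (fun ℓ => (hid' _).trans (hid' ℓ).symm) (hind.precomp σ.symm.injective) hind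
      · exact hb.comp (φ := id) (ψ := fun g : Fin p → Bool → ℝ => fun ℓ => g (σ.symm ℓ))
          measurable_id (by fun_prop)
    refine Eq.trans ?_ (h2.comp (hG.continuous.measurable.comp mΨ)).integral_eq
    refine integral_congr_ae (hae.mono fun ω hω => ?_)
    simp only [Function.comp]
    congr 1
    funext s
    have e1 : ∀ s : Fin p → Bool, ∏ ℓ, f (σ.symm ℓ) ω (s ℓ) = ∏ ℓ, f ℓ ω (s (σ ℓ)) := by
      intro s
      rw [← Equiv.prod_comp σ]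
      simp
    have e2 : ∀ s : Fin p → Bool, 1 + b ω * ∏ ℓ, f ℓ ω (s ℓ) ≠ 0 := by
      intro s
      have := abs_lt.1 (hω.2 s)
      linarith [this.1]
    simp only [hT, Ψ]
    rw [Real.log_mul hω.1.ne' (e2 _), Real.log_mul hω.1.ne' (e2 _), e1 s, e1 s0]
    simp [s0]
  rw [hmain π]
  simpa using (hmain 1).symm

end Crest.Agent.R141
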