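import Mathlib
import Crest.Prelude.Def_DilutedSpinGlass

set_option autoImplicit false

open MeasureTheory Crest.ProbabilityR.Diluted
namespace Crest.Agent.R141

/-- the cell of the uniform grid of mesh `1/n` that contains `u` -/
noncomputable def grid (n : ℕ) [NeZero n] (u : unitInterval) : Fin n :=
  ⟨min ⌊(n : ℝ) * (u : ℝ)⌋₊ (n - 1), lt_of_le_of_lt (min_le_right _ _) (Nat.sub_lt (NeZero.pos n) one_pos)⟩

theorem measurableSet_grid (n : ℕ) [NeZero n] (k : Fin n) : MeasurableSet (grid n ⁻¹' {k}) := by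
  have h : Measurable fun u : unitInterval => min ⌊(n : ℝ) * (u : ℝ)⌋₊ (n - 1) :=
    (Measurable.nat_floor (by fun_prop)).min measurable_const
  convert h (measurableSet_singleton k.val) using 1
  ext u
  simp [grid, Fin.ext_iff]

theorem grid_spec (n : ℕ) [NeZero n] (u : unitInterval) :
    ((grid n u : ℕ) : ℝ) ≤ n * (u : ℝ) ∧ n * (u : ℝ) ≤ (grid n u : ℕ) + 1 := by
  have hn := NeZero.pos n
  have h0 : 0 ≤ (n : ℝ) * (u : ℝ) := mul_nonneg (by positivity) u.2.1
  constructor
  · refine le_trans ?_ (Nat.floor_le h0)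
    exact_mod_cast min_le_left _ _
  · simp only [grid]
    rcases le_total ⌊(n : ℝ) * (u : ℝ)⌋₊ (n - 1) with h | h
    · rw [min_eq_left h]; exact (Nat.lt_floor_add_one _).le
    · rw [min_eq_right h, Nat.cast_sub hn]
      have := u.2.2
      push_cast
      nlinarith [(Nat.cast_pos.2 hn : (0 : ℝ) < n)]

theorem volume_grid (n : ℕ) [NeZero n] (k : Fin n) :
    volume (grid n ⁻¹' {k}) = ENNReal.ofReal (1 / (n : ℝ)) := by
  have hn : (0 : ℝ) < n := Nat.cast_pos.2 (NeZero.pos n)
  have hk : ((k : ℕ) : ℝ) + 1 ≤ n := by exact_mod_cast k.2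
  let a : unitInterval := ⟨k / n, by positivity, by rw [div_le_one hn]; linarith⟩
  let b : unitInterval := ⟨(k + 1) / n, by positivity, by rw [div_le_one hn]; linarith⟩
  have hab : (b : ℝ) - a = 1 / n := by simp only [a, b]; ring
  apply le_antisymm
  · rw [← hab, ← unitInterval.volume_Icc]
    apply measure_mono
    intro u hu
    have hu' : grid n u = k := hu
    obtain ⟨h1, h2⟩ := grid_spec n u
    rw [hu'] at h1 h2
    constructor
    · change (k : ℝ) / n ≤ u
      rw [div_le_iff₀ hn]; linarith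
    · change (u : ℝ) ≤ (k + 1) / n
      rw [le_div_iff₀ hn]; linarith
  · rw [← hab, ← unitInterval.volume_Ico]
    apply measure_mono
    rintro u ⟨h1, h2⟩
    change (k : ℝ) / n ≤ u at h1
    change (u : ℝ) < (k + 1) / n at h2
    rw [div_le_iff₀ hn] at h1
    rw [lt_div_iff₀ hn] at h2
    have h3 : ⌊(n : ℝ) * (u : ℝ)⌋₊ = k := by
      rw [Nat.floor_eq_iff (mul_nonneg hn.le u.2.1)]
      constructor <;> linarith
    apply Fin.ext
    simp only [grid, h3]
    have := k.2
    omega

theorem exists_pick {Ω : Type} [Fintype Ω] (w : Ω → ℝ) (hw : ∀ x, 0 ≤ w x) (hs : ∑ x, w x = 1) :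
    ∃ φ : unitInterval → Ω, (∀ x, MeasurableSet (φ ⁻¹' {x})) ∧
      ∀ x, volume (φ ⁻¹' {x}) = ENNReal.ofReal (w x) := by
  classical
  let _ : MeasurableSpace Ω := ⊤
  have : DiscreteMeasurableSpace Ω := ⟨fun _ => trivial⟩
  have : Nonempty Ω := by
    by_contra h
    rw [not_nonempty_iff] at h
    simp at hs
  let ρ : Measure Ω := ∑ x, ENNReal.ofReal (w x) • Measure.dirac x
  have hρ : ∀ x, ρ {x} = ENNReal.ofReal (w x) := by
    intro x
    simp [ρ, Measure.coe_finsetSum, Set.indicator]
  have : IsProbabilityMeasure ρ := ⟨by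
    simp only [ρ, Measure.coe_finsetSum, Finset.sum_apply, Measure.smul_apply, measure_univ,
      smul_eq_mul, mul_one]
    rw [← ENNReal.ofReal_sum_of_nonneg fun x _ => hw x, hs, ENNReal.ofReal_one]⟩
  obtain ⟨φ, hφ, hmap⟩ := ρ.exists_measurable_map_eq
  refine ⟨φ, fun x => hφ (measurableSet_singleton x), fun x => ?_⟩
  rw [← hρ, ← hmap, Measure.map_apply hφ (measurableSet_singleton x)]

theorem integral_pick_pi {Lab Ω : Type} [Fintype Lab] [DecidableEq Lab] [Fintype Ω]
    (φ : Lab → unitInterval → Ω) (w : Lab → Ω → ℝ) (hw : ∀ s x, 0 ≤ w s x)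
    (hm : ∀ s x, MeasurableSet (φ s ⁻¹' {x}))
    (hv : ∀ s x, volume (φ s ⁻¹' {x}) = ENNReal.ofReal (w s x)) (F : (Lab → Ω) → ℝ) :
    ∫ v : Lab → unitInterval, F (fun s => φ s (v s)) ∂(Measure.pi fun _ : Lab => (volume : Measure unitInterval))
      = ∑ x : Lab → Ω, (∏ s, w s (x s)) * F x := by
  let _ : MeasurableSpace Ω := ⊤
  have : DiscreteMeasurableSpace Ω := ⟨fun _ => trivial⟩
  have hφ : ∀ s, Measurable (φ s) := fun s => measurable_to_countable' (hm s)
  have hp : ∀ s, IsProbabilityMeasure ((volume : Measure unitInterval).map (φ s)) := fun s =>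
    Measure.isProbabilityMeasure_map (hφ s).aemeasurable
  have hmp := measurePreserving_pi (fun _ : Lab => (volume : Measure unitInterval))
    (fun s => (volume : Measure unitInterval).map (φ s)) (f := φ) fun s => ⟨hφ s, rfl⟩
  have hF : Measurable F := Measurable.of_discrete
  rw [← integral_map hmp.measurable.aemeasurable hF.aestronglyMeasurable, hmp.map_eq,
    integral_fintype Integrable.of_finite]
  apply Finset.sum_congr rfl
  intro x _
  rw [smul_eq_mul, Measure.real, Measure.pi_singleton, ENNReal.toReal_prod]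
  congr 1
  apply Finset.prod_congr rfl
  intro s _
  rw [Measure.map_apply (hφ s) (measurableSet_singleton _), hv, ENNReal.toReal_ofReal (hw _ _)]

end Crest.Agent.R141
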