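import Crest.Agent.R141.Maps
import Crest.Agent.R141.Conv
import Crest.Agent.R141.Factor
import Crest.Agent.R141.Grid

/-! Shared definitions for the cavity (lower) bound. -/

set_option autoImplicit false
open Finset Function MeasureTheory Crest.ProbabilityR.Diluted

namespace Crest.Agent.R141

/-- uniform branching weights -/
def Lev.Unif (L : Lev) : Prop := ∀ J, J < L.T → L.p J = (L.T : ℝ)⁻¹

theorem Lev.Unif.m_eq {L : Lev} (h : L.Unif) {j : ℕ} (hj : j < L.T) :
    L.m j = (j + 1 : ℝ) / L.T := by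
  rw [← L.sum_p j, sum_congr rfl (fun J hJ => h J (by have := mem_range.1 hJ; omega))]
  simp [div_eq_mul_inv]

/-- the levels with exponents `(j+1)/T` -/
noncomputable def ulev (T : ℕ) (hT : 0 < T) : Lev where
  T := T
  m j := min ((j + 1 : ℝ) / T) 1
  T_pos := hT
  m_pos j := lt_min (by positivity) one_pos
  mono a b h := min_le_min_right _ (by gcongr)
  last := by
    have : ((T - 1 : ℕ) + 1 : ℝ) = T := by exact_mod_cast Nat.sub_add_cancel hT
    rw [this, div_self (by positivity), min_self]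

theorem ulev_unif (T : ℕ) (hT : 0 < T) : (ulev T hT).Unif := by
  intro J hJ
  have hT' : (0 : ℝ) < T := by exact_mod_cast hT
  have h : ∀ j, j < T → (ulev T hT).m j = (j + 1 : ℝ) / T := fun j hj => by
    refine min_eq_left ?_
    rw [div_le_one hT']; exact_mod_cast hj
  change J < T at hJ
  unfold Lev.p
  change _ = (T : ℝ)⁻¹
  split_ifs with h0
  · rw [h 0 hT]; simp
  · rw [h J hJ, h (J - 1) (by omega)]
    have : ((J - 1 : ℕ) + 1 : ℝ) = J := by exact_mod_cast Nat.sub_add_cancel (by omega)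
    rw [this]; field_simp; ring

/-- the random clauses on `N` spins -/
noncomputable def clauseTerms (p : ℕ) (μ : Measure (Inter p)) [IsProbabilityMeasure μ]
    (hμ : Integrable (fun θ => supNorm θ) μ) (N : ℕ) :
    Terms (Fin N → Bool) (Fin p → Fin N) (Inter p) where
  ν := μ
  U idx θ σ := θ (fun ℓ => σ (idx ℓ))
  nrm := supNorm
  mU _ := measurable_pi_lambda _ fun _ => measurable_pi_apply _
  int := hμ
  le idx θ := by
    rw [supNorm_eq_norm]
    exact (pi_norm_le_iff_of_nonneg (norm_nonneg _)).2 fun σ => norm_le_pi_norm θ _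

/-- uniform law on the index tuples with all entries `< n` -/
noncomputable def wtLt (p N n : ℕ) (idx : Fin p → Fin N) : ℝ :=
  if ∀ ℓ, (idx ℓ).val < n then ((n : ℝ) ^ p)⁻¹ else 0

/-- uniform law on the index tuples with last entry `n` and the other entries `< n` -/
noncomputable def wtCav (p N n : ℕ) (idx : Fin p → Fin N) : ℝ :=
  if ∀ ℓ : Fin p, if ℓ.val < p - 1 then (idx ℓ).val < n else (idx ℓ).val = n
  then ((n : ℝ) ^ (p - 1))⁻¹ else 0

/-- perturbed free energies `Ψ N n` (ambient size `N`, active sites `< n`) satisfying the cavity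
inequality -/
structure CavityData (p : ℕ) (α : ℝ) (μ : Measure (Inter p)) [IsProbabilityMeasure μ]
    (hμ : Integrable (fun θ => supNorm θ) μ) (ν : Measure ℝ) (c ε : ℝ) where
  A : ℝ
  Ψ : ∀ N : ℕ, ℕ → ((Fin N → Bool) → ℝ) → ℝ
  lip : ∀ N n, LipschitzWith 1 (Ψ N n)
  equi : ∀ N n, Equi (Ψ N n)
  close : ∀ N n H, 1 ≤ n → n ≤ N →
    |Ψ N n H - Real.log (((2 : ℝ) ^ N)⁻¹ * ∑ σ, Real.exp (H σ))| ≤ A
  step : ∀ N n H, 1 ≤ n → n + 1 ≤ N → |Ψ N (n + 1) H - Ψ N n H| ≤ A / n
  cav : ∀ N n (hn : n < N), 1 ≤ n → ∀ H : (Fin N → Bool) → ℝ,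
    (∀ σ b, H (update σ ⟨n, hn⟩ b) = H σ) →
    c - ε ≤ Real.log 2 +
      ∫ h, (clauseTerms p μ hμ N).Poi (fun x => α * p * wtCav p N n x) (Ψ N n)
        (fun σ => H σ + h * spinVal (σ ⟨n, hn⟩)) ∂ν -
      (clauseTerms p μ hμ N).Poi (fun x => α * (p - 1 : ℝ) * wtLt p N n x) (Ψ N n) H

/-- the path obtained from `ω` by filling the coordinates `a, …, a+d-1` with the picks `φ` -/
def fillPath {Ω : Type} (φ : ℕ → (ℕ → Ω) → unitInterval → Ω) (a : ℕ) (ω : ℕ → Ω)
    (u : ℕ → unitInterval) : ℕ → ℕ → Ω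
  | 0 => ω
  | d + 1 => update (fillPath φ a ω u d) (a + d) (φ (a + d) (fillPath φ a ω u d) (u (d + 1)))

/-- the trial map of depth `r` attached to a system, a prefix `ω` and messages `msg` -/
def trialOf {Ω Ω₀ : Type} (φ₀ : unitInterval → Ω₀) (φ : ℕ → (ℕ → Ω) → unitInterval → Ω) (a r : ℕ)
    (ω : ℕ → Ω) (msg : Ω₀ → (ℕ → Ω) → ℝ) (u : Fin (r + 1) → unitInterval) : ℝ :=
  msg (φ₀ (u 0)) (fillPath φ a ω (fun d => if h : d < r + 1 then u ⟨d, h⟩ else 0) r)

end Crest.Agent.R141
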