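import Crest.Agent.R141.Replica

/-! One Franz–Leone replacement step. -/

set_option autoImplicit false
open Finset Function MeasureTheory Crest.ProbabilityR.Diluted
namespace Crest.Agent.R141
open Sys

namespace FL

/-- monotone and translation-equivariant functionals -/
def Nice {p : ℕ} (Φ : Inter p → ℝ) : Prop :=
  (∀ θ θ' : Inter p, (∀ s, θ s ≤ θ' s) → Φ θ ≤ Φ θ') ∧ ∀ θ (c : ℝ), Φ (fun s => θ s + c) = Φ θ + c

theorem Nice.abs_sub {p : ℕ} {Φ : Inter p → ℝ} (h : Nice Φ) (θ θ' : Inter p) :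
    |Φ θ - Φ θ'| ≤ ‖θ - θ'‖ := by
  have h0 : ∀ s, |θ s - θ' s| ≤ ‖θ - θ'‖ := fun s => norm_le_pi_norm (θ - θ') s
  have h1 := h.1 θ (fun s => θ' s + ‖θ - θ'‖) fun s => by
    have := (abs_le.1 (h0 s)).2; linarith
  have h2 := h.1 θ' (fun s => θ s + ‖θ - θ'‖) fun s => by
    have := (abs_le.1 (h0 s)).1; linarith
  rw [h.2] at h1 h2
  rw [abs_le]; constructor <;> linarith

theorem nice_eval {p : ℕ} (s : Fin p → Bool) : Nice (fun θ : Inter p => θ s) :=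
  ⟨fun _ _ h => h s, fun _ _ => rfl⟩

theorem nice_lse {p : ℕ} {K : Type} [Fintype K] (e : K → Fin p → Bool) (w : K → ℝ)
    (hw : ∀ k, 0 < w k) [Nonempty K] :
    Nice (fun θ : Inter p => Real.log (∑ k, Real.exp (θ (e k)) * w k)) := by
  have hpos : ∀ θ : Inter p, 0 < ∑ k, Real.exp (θ (e k)) * w k := fun θ =>
    sum_pos (fun k _ => mul_pos (Real.exp_pos _) (hw k)) univ_nonempty
  refine ⟨fun θ θ' h => Real.log_le_log (hpos θ) (sum_le_sum fun k _ =>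
    mul_le_mul_of_nonneg_right (Real.exp_le_exp.2 (h _)) (hw k).le), fun θ c => ?_⟩
  simp only [Real.exp_add]
  have : ∑ k, Real.exp (θ (e k)) * Real.exp c * w k =
      (∑ k, Real.exp (θ (e k)) * w k) * Real.exp c := by
    rw [sum_mul]; exact sum_congr rfl fun k _ => by ring
  rw [this, Real.log_mul (hpos θ).ne' (Real.exp_pos c).ne', Real.log_exp]

theorem nice_X {p : ℕ} {L : Lev} {Ω : Type} [Fintype Ω] (S : Sys L Ω) {Φ : (ℕ → Ω) → Inter p → ℝ}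
    (h : ∀ ω, Nice (Φ ω)) (c : ℕ) (ω : ℕ → Ω) : Nice fun θ => S.X c (fun ω' => Φ ω' θ) ω := by
  refine ⟨fun θ θ' hθ => S.X_mono c (fun ω' => (h ω').1 θ θ' hθ) ω, fun θ a => ?_⟩
  simp only [fun ω' => (h ω').2 θ a]
  exact congrFun (S.X_add_const c (fun ω' => Φ ω' θ) a) ω

theorem nice_avg {p : ℕ} {K : Type} [Fintype K] [Nonempty K] {Φ : K → Inter p → ℝ}
    (h : ∀ k, Nice (Φ k)) : Nice fun θ => (Fintype.card K : ℝ)⁻¹ * ∑ k, Φ k θ := by
  have hK : (Fintype.card K : ℝ) ≠ 0 := by exact_mod_cast Fintype.card_ne_zero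
  refine ⟨fun θ θ' hθ => mul_le_mul_of_nonneg_left (sum_le_sum fun k _ => (h k).1 θ θ' hθ)
    (by positivity), fun θ a => ?_⟩
  simp only [fun k => (h k).2 θ a, sum_add_distrib, sum_const, card_univ, nsmul_eq_mul, mul_add]
  rw [← mul_assoc, inv_mul_cancel₀ hK, one_mul]

theorem tilt_pos (x : ℝ) (s : Bool) : 0 < tilt x s :=
  div_pos (Real.exp_pos _) (mul_pos two_pos (Real.cosh_pos x))

theorem sum_tilt (x : ℝ) : ∑ s, tilt x s = 1 := by
  have := (Real.cosh_pos x).ne'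
  simp only [Fintype.sum_bool, ProbabilityR.Diluted.tilt, spinVal, if_true, Bool.false_eq_true, if_false]
  rw [← add_div, div_eq_one_iff_eq (by positivity), Real.cosh_eq]
  simp only [mul_one, mul_neg]
  ring

/-- the mean of `g` under the law with message `x` -/
noncomputable def mean (g : Bool → ℝ) (x : ℝ) : ℝ := ∑ s, g s * tilt x s

theorem abs_mean_le {g : Bool → ℝ} (hg : ∀ s, |g s| ≤ 1) (x : ℝ) : |mean g x| ≤ 1 := by
  refine (abs_sum_le_sum_abs _ _).trans ?_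
  rw [← sum_tilt x]
  refine sum_le_sum fun s _ => ?_
  rw [abs_mul, abs_of_pos (tilt_pos x s)]
  exact mul_le_of_le_one_left (tilt_pos x s).le (hg s)

theorem mean_nonneg {g : Bool → ℝ} (hg : ∀ s, 0 ≤ g s) (x : ℝ) : 0 ≤ mean g x :=
  sum_nonneg fun s _ => mul_nonneg (hg s) (tilt_pos x s).le

theorem sum_one_add {n : ℕ} (β : ℝ) (f : Fin n → Bool → ℝ) (x : Fin n → ℝ) :
    ∑ s : Fin n → Bool, (1 + β * ∏ ℓ, f ℓ (s ℓ)) * ∏ ℓ, tilt (x ℓ) (s ℓ) =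
      1 + β * ∏ ℓ, mean (f ℓ) (x ℓ) := by
  have h1 : ∑ s : Fin n → Bool, ∏ ℓ, tilt (x ℓ) (s ℓ) = 1 := by
    rw [← Fintype.piFinset_univ, ← Finset.prod_univ_sum (fun _ => univ)
      (fun ℓ s => tilt (x ℓ) s)]
    simp only [sum_tilt, prod_const_one]
  have h2 : ∑ s : Fin n → Bool, ∏ ℓ, (f ℓ (s ℓ) * tilt (x ℓ) (s ℓ)) = ∏ ℓ, mean (f ℓ) (x ℓ) := by
    rw [← Fintype.piFinset_univ, ← Finset.prod_univ_sum (fun _ => univ)
      (fun ℓ s => f ℓ s * tilt (x ℓ) s)]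
    rfl
  rw [← h2, mul_sum]
  nth_rewrite 2 [← h1]
  rw [← sum_add_distrib]
  refine sum_congr rfl fun s _ => ?_
  rw [prod_mul_distrib]; ring

/-- the interaction `log (1 + β ∏ f)` -/
noncomputable def th {p : ℕ} (β : ℝ) (f : Fin p → Bool → ℝ) : Inter p :=
  fun s => Real.log (1 + β * ∏ ℓ, f ℓ (s ℓ))

theorem edge_th {p : ℕ} {β : ℝ} {f : Fin p → Bool → ℝ} (h : ∀ s : Fin p → Bool,
    0 < 1 + β * ∏ ℓ, f ℓ (s ℓ)) (x : Fin p → ℝ) :
    edgeTerm (th β f) x = 1 + β * ∏ ℓ, mean (f ℓ) (x ℓ) := by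
  rw [← sum_one_add]
  exact sum_congr rfl fun s _ => by rw [th, Real.exp_log (h s)]

theorem site_th {n : ℕ} {β : ℝ} {f : Fin (n + 1) → Bool → ℝ} (h : ∀ s : Fin (n + 1) → Bool,
    0 < 1 + β * ∏ ℓ, f ℓ (s ℓ)) (x : Fin n → ℝ) (ε : Bool) :
    siteMessage (th β f) x ε =
      Real.log (1 + β * f (Fin.last n) ε * ∏ ℓ, mean (f ℓ.castSucc) (x ℓ)) := by
  rw [← sum_one_add]
  unfold siteMessage
  congr 1
  refine sum_congr rfl fun s _ => ?_
  rw [th, Real.exp_log (h _), Fin.prod_univ_castSucc]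
  simp only [Fin.val_castSucc, Fin.val_last, Nat.add_sub_cancel, Fin.is_lt, dite_true,
    lt_irrefl, dite_false]
  congr 2
  rw [mul_assoc, mul_comm (f _ ε)]
  rfl

theorem conv_ineq (n : ℕ) {R q : ℝ} (h : Even (n + 1) ∨ (0 ≤ R ∧ 0 ≤ q)) :
    0 ≤ R ^ (n + 1) + n * q ^ (n + 1) - (n + 1) * (q ^ n * R) := by
  have key : ∀ R q : ℝ, 0 ≤ R → 0 ≤ q →
      0 ≤ R ^ (n + 1) + n * q ^ (n + 1) - (n + 1) * (q ^ n * R) := by
    intro R q hR hq
    have := pow_add_mul_le_add_pow (a := q) (b := R - q) hq (by linarith) (n + 1)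
    simp only [add_sub_cancel, Nat.add_sub_cancel] at this
    push_cast at this
    have e : q ^ (n + 1) = q ^ n * q := pow_succ q n
    nlinarith
  rcases h with h | h
  · have h1 := key |R| |q| (abs_nonneg _) (abs_nonneg _)
    rw [h.pow_abs, h.pow_abs, ← abs_pow, ← abs_mul] at h1
    have h2 : ((n : ℝ) + 1) * (q ^ n * R) ≤ (n + 1) * |q ^ n * R| :=
      mul_le_mul_of_nonneg_left (le_abs_self _) (by positivity)
    linarith
  · exact key R q h.1 h.2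

theorem avg_prod {n : ℕ} {K : Type} [Fintype K] (B : Fin n → K → ℝ) :
    (Fintype.card (Fin n → K) : ℝ)⁻¹ * ∑ x : Fin n → K, ∏ ℓ, B ℓ (x ℓ) =
      ∏ ℓ, (Fintype.card K : ℝ)⁻¹ * ∑ y, B ℓ y := by
  rw [prod_mul_distrib, ← Fintype.piFinset_univ, ← Finset.prod_univ_sum (fun _ => univ) B]
  simp

theorem pos_t {x t : ℝ} (hx : 0 < 1 + x) (ht : 0 ≤ t) (ht1 : t ≤ 1) : 0 < 1 + t * x := by
  rcases ht.eq_or_lt with rfl | h
  · simp
  · nlinarith [mul_pos h hx]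

theorem log_ratio {x y t : ℝ} (hx : 0 < 1 + x) (hy : 0 < 1 + y) (ht : 0 ≤ t) (ht1 : t ≤ 1) :
    |Real.log (1 + t * x) - Real.log (1 + t * y)| ≤ |Real.log (1 + x) - Real.log (1 + y)| := by
  wlog hxy : y ≤ x generalizing x y
  · rw [abs_sub_comm, abs_sub_comm (Real.log (1 + x))]
    exact this hy hx (le_of_not_ge hxy)
  have h1 : 0 < 1 + t * x := pos_t hx ht ht1
  have h2 : 0 < 1 + t * y := pos_t hy ht ht1
  have h3 : Real.log (1 + t * y) ≤ Real.log (1 + t * x) := Real.log_le_log h2 (by nlinarith)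
  have h4 : Real.log (1 + y) ≤ Real.log (1 + x) := Real.log_le_log hy (by linarith)
  rw [abs_of_nonneg (by linarith), abs_of_nonneg (by linarith), sub_le_sub_iff,
    ← Real.log_mul h1.ne' hy.ne', ← Real.log_mul hx.ne' h2.ne']
  refine Real.log_le_log (mul_pos h1 hy) ?_
  nlinarith [mul_nonneg (sub_nonneg.2 ht1) (sub_nonneg.2 hxy)]

section Cont
variable {L : Lev} {Ω ι G : Type} [Fintype Ω] [LinearOrder ι] [TopologicalSpace G] (S : Sys L Ω)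

theorem cont_E (c : ℕ) {h : G → Fn Ω} (hh : ∀ ω, Continuous fun g => h g ω) (ω : ℕ → Ω) :
    Continuous fun g => S.E c (h g) ω := by
  induction c using down_ind L.T generalizing ω with
  | h1 c hc => simpa only [S.E_of_le hc] using hh ω
  | h2 c hc ih =>
    simp only [S.E_of_lt hc, P_apply]
    exact continuous_finsetSum _ fun x _ => continuous_const.mul (ih _)

theorem cont_gam (nd : Finset ι) (par : ι → ι) (c : ι → ℕ) {h : G → ι → Fn Ω}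
    (hh : ∀ q ω, Continuous fun g => h g q ω) (q : ι) (ω : ℕ → Ω) :
    Continuous fun g => S.gam nd par c (h g) q ω := by
  induction nd using Finset.induction_on_max generalizing h with
  | empty => simpa using hh q ω
  | insert s nd hs ih =>
    simp only [gam_insert_max _ hs]
    refine ih fun q' ω' => ?_
    by_cases hq : q' = par s
    · subst hq
      simp only [update_self, Pi.mul_apply]
      exact (hh _ _).mul (cont_E S _ (hh s) ω')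
    · simp only [update_of_ne hq]; exact hh q' ω'

theorem gam_one (nd : Finset ι) (par : ι → ι) (c : ι → ℕ) (q : ι) :
    S.gam nd par c (fun _ => 1) q = 1 :=
  acc_pred (fun f : Fn Ω => f = 1) (fun _ _ h1 h2 => by rw [h1, h2, mul_one])
    (fun d _ _ hf => by rw [hf]; exact S.E_one _) (fun _ => rfl) q
end Cont

/-- the tree expectation of spin labels is a finite mixture of products -/
theorem exists_mix {L : Lev} {Ω ι T : Type} [Fintype Ω] [LinearOrder ι] [Fintype ι] [Fintype T]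
    (S : Sys L Ω) (r : ι) (nd : Finset ι) (par : ι → ι) (hv : Valid r nd par) (c : ι → ℕ)
    (ω : ℕ → Ω) (σ : (ℕ → Ω) → T) :
    ∃ lam : (ι → T) → ℝ, (∀ τ, 0 ≤ lam τ) ∧ ∀ h : T → ℝ,
      S.E 0 (S.gam nd par c (fun _ ω' => h (σ ω')) r) ω =
        ∑ τ, lam τ * ∏ q ∈ insert r nd, h (τ q) := by
  classical
  obtain ⟨Λ, h0, hΛ⟩ := exists_tup S r nd par hv c 0 ω
  refine ⟨fun τ => Λ fun x => if τ = (fun q => σ (x q)) then 1 else 0,
    fun τ => h0 _ fun x => by split_ifs <;> norm_num, fun h => ?_⟩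
  rw [← hΛ]
  have : (fun x : ι → ℕ → Ω => ∏ q ∈ insert r nd, h (σ (x q))) =
      ∑ τ : ι → T, (∏ q ∈ insert r nd, h (τ q)) •
        fun x : ι → ℕ → Ω => if τ = (fun q => σ (x q)) then (1 : ℝ) else 0 := by
    ext x
    simp
  rw [this, map_sum]
  exact sum_congr rfl fun τ _ => by rw [map_smul, smul_eq_mul, mul_comm]

attribute [local instance] NFac.mΩ NFac.hP NFac.hρ

section Reg
variable {p : ℕ} {μ : Measure (Inter p)} (D : NFac p μ)

theorem meas_th (t : ℝ) : Measurable fun ξ => th (t * D.b ξ) (fun ℓ => D.f ℓ ξ) := by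
  have h1 := D.mb
  have h2 := D.mf
  refine measurable_pi_lambda _ fun s => ?_
  unfold th
  refine Measurable.log (measurable_const.add ((measurable_const.mul h1).mul
    (Finset.measurable_prod _ fun ℓ _ => (measurable_pi_apply (s ℓ)).comp (h2 ℓ))))

theorem one_add_pos (ξ : D.Ω) (s : Fin p → Bool) : 0 < 1 + D.b ξ * ∏ ℓ, D.f ℓ ξ (s ℓ) := by
  have := (abs_lt.1 (D.lt_one ξ s)).1; linarith

/-- regularisation -/
theorem reg (hμ : Integrable (fun θ => supNorm θ) μ) (G : Inter p → ℝ) (K : ℝ) (hK : 0 ≤ K)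
    (hG : ∀ θ θ', |G θ - G θ'| ≤ K * ‖θ - θ'‖) (hc : ∀ θ (c : ℝ), G (fun s => θ s + c) = G θ)
    (h : ∀ t, 0 < t → t < 1 → ∫ ξ, G (th (t * D.b ξ) (fun ℓ => D.f ℓ ξ)) ∂D.P ≤ 0) :
    ∫ θ, G θ ∂μ ≤ 0 := by
  have hGc : Continuous G := by
    refine (LipschitzWith.of_dist_le_mul (K := ⟨K, hK⟩) fun θ θ' => ?_).continuous
    rw [Real.dist_eq, dist_eq_norm]
    exact hG θ θ'
  set Θ : D.Ω → Inter p := fun ξ s => Real.log (D.a ξ * (1 + D.b ξ * ∏ ℓ, D.f ℓ ξ (s ℓ)))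
    with hΘ
  have hΘe : ∀ ξ, Θ ξ = fun s => th (1 * D.b ξ) (fun ℓ => D.f ℓ ξ) s + Real.log (D.a ξ) := by
    intro ξ; ext s
    simp only [hΘ, th, one_mul]
    rw [Real.log_mul (D.a_pos ξ).ne' (one_add_pos D ξ s).ne', add_comm]
  have mΘ : Measurable Θ := by
    rw [show Θ = fun ξ s => th (1 * D.b ξ) (fun ℓ => D.f ℓ ξ) s + Real.log (D.a ξ) from
      funext hΘe]
    exact measurable_pi_lambda _ fun s =>
      ((measurable_pi_apply s).comp (meas_th D 1)).add D.ma.log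
  have hlaw : D.P.map Θ = μ := D.law
  simp only [supNorm_eq_norm] at hμ
  have hI : Integrable (fun ξ => ‖Θ ξ‖) D.P := by
    rw [← hlaw] at hμ
    exact (integrable_map_measure continuous_norm.aestronglyMeasurable mΘ.aemeasurable).1 hμ
  rw [← hlaw, integral_map mΘ.aemeasurable hGc.aestronglyMeasurable]
  simp only [hΘe, hc]
  have hlim : Filter.Tendsto (fun t : ℝ => ∫ ξ, G (th (t * D.b ξ) (fun ℓ => D.f ℓ ξ)) ∂D.P)
      (nhdsWithin 1 (Set.Ioo 0 1)) (nhds (∫ ξ, G (th (1 * D.b ξ) (fun ℓ => D.f ℓ ξ)) ∂D.P)) := by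
    refine tendsto_integral_filter_of_dominated_convergence (fun ξ => |G 0| + K * (2 * ‖Θ ξ‖))
      (Filter.Eventually.of_forall fun t => (hGc.measurable.comp (meas_th D t)).aestronglyMeasurable)
      ?_ ((integrable_const _).add ((hI.const_mul 2).const_mul K)) ?_
    · filter_upwards [self_mem_nhdsWithin] with t ht
      refine Filter.Eventually.of_forall fun ξ => ?_
      set s₀ : Fin p → Bool := fun _ => true
      set θ := th (t * D.b ξ) (fun ℓ => D.f ℓ ξ) with hθ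
      rw [Real.norm_eq_abs, ← hc θ (-θ s₀)]
      have h1 := hG (fun s => θ s + -θ s₀) 0
      have h2 : ‖(fun s => θ s + -θ s₀) - (0 : Inter p)‖ ≤ 2 * ‖Θ ξ‖ := by
        rw [sub_zero]
        refine (pi_norm_le_iff_of_nonneg (by positivity)).2 fun s => ?_
        have h3 := log_ratio (one_add_pos D ξ s) (one_add_pos D ξ s₀) ht.1.le ht.2.le
        have h4 : Real.log (1 + D.b ξ * ∏ ℓ, D.f ℓ ξ (s ℓ)) -
            Real.log (1 + D.b ξ * ∏ ℓ, D.f ℓ ξ (s₀ ℓ)) = Θ ξ s - Θ ξ s₀ := by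
          simp only [hΘe, th, one_mul]; ring
        have h5 : |Θ ξ s| ≤ ‖Θ ξ‖ := norm_le_pi_norm (Θ ξ) s
        have h6 : |Θ ξ s₀| ≤ ‖Θ ξ‖ := norm_le_pi_norm (Θ ξ) s₀
        have h7 := abs_sub (Θ ξ s) (Θ ξ s₀)
        rw [h4] at h3
        simp only [hθ, th, mul_assoc, Real.norm_eq_abs, ← sub_eq_add_neg]
        linarith
      have h3 := abs_sub_abs_le_abs_sub (G fun s => θ s + -θ s₀) (G 0)
      have h4 := mul_le_mul_of_nonneg_left h2 hK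
      linarith
    · refine Filter.Eventually.of_forall fun ξ => ?_
      refine Filter.Tendsto.mono_left ?_ nhdsWithin_le_nhds
      refine ContinuousAt.tendsto (f := fun t : ℝ => G (th (t * D.b ξ) (fun ℓ => D.f ℓ ξ)))
        (hGc.continuousAt.comp (continuousAt_pi.2 fun s => ?_))
      unfold th
      refine ContinuousAt.log (by fun_prop) ?_
      rw [one_mul]
      exact (one_add_pos D ξ s).ne'
  have : (nhdsWithin (1 : ℝ) (Set.Ioo 0 1)).NeBot := right_nhdsWithin_Ioo_neBot one_pos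
  refine le_of_tendsto hlim ?_
  filter_upwards [self_mem_nhdsWithin] with t ht
  exact h t ht.1 ht.2

theorem integrable_prod (n : ℕ) (G : Fin p → (Bool → ℝ) → ℝ) (hG : ∀ ℓ, Continuous (G ℓ)) :
    Integrable (fun ξ => (-D.b ξ) ^ n * ∏ ℓ, G ℓ (D.f ℓ ξ)) D.P := by
  have hb : ∀ ℓ, ∃ C, ∀ g ∈ Metric.closedBall (0 : Bool → ℝ) 1, ‖G ℓ g‖ ≤ C := fun ℓ =>
    (isCompact_closedBall _ _).exists_bound_of_continuousOn (hG ℓ).continuousOn
  choose C hC using hb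
  refine Integrable.of_bound (C := ∏ ℓ, C ℓ) ((D.mb.neg.pow_const n).mul
    (Finset.measurable_prod _ fun ℓ _ => (hG ℓ).measurable.comp (D.mf ℓ))).aestronglyMeasurable
    (Filter.Eventually.of_forall fun ξ => ?_)
  rw [norm_mul, norm_pow, norm_neg, norm_prod]
  refine (mul_le_of_le_one_left (prod_nonneg fun _ _ => norm_nonneg _)
    (pow_le_one₀ (norm_nonneg _) (D.b_le ξ))).trans
    (prod_le_prod (fun _ _ => norm_nonneg _) fun ℓ _ => hC ℓ _ ?_)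
  rw [mem_closedBall_zero_iff]
  exact (pi_norm_le_iff_of_nonneg zero_le_one).2 fun s => D.f_le ℓ ξ s

theorem mix_int {T : Type} [Fintype T] (lam : T → ℝ) (n : ℕ) (G : T → Fin p → (Bool → ℝ) → ℝ)
    (hG : ∀ τ ℓ, Continuous (G τ ℓ)) {F : D.Ω → ℝ}
    (hF : ∀ ξ, F ξ = ∑ τ, lam τ * ((-D.b ξ) ^ n * ∏ ℓ, G τ ℓ (D.f ℓ ξ))) :
    Integrable F D.P ∧
      ∫ ξ, F ξ ∂D.P = ∑ τ, lam τ * ((∫ ξ, (-D.b ξ) ^ n ∂D.P) * ∏ ℓ, ∫ g, G τ ℓ g ∂D.ρ) := by
  have hi := fun τ => (integrable_prod D n (G τ) (hG τ)).const_mul (lam τ)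
  rw [show F = _ from funext hF]
  refine ⟨integrable_finsetSum _ fun τ _ => hi τ, ?_⟩
  rw [integral_finsetSum _ fun τ _ => hi τ]
  exact sum_congr rfl fun τ _ => by rw [integral_const_mul, D.prod n _ (hG τ)]
end Reg

/-- the replica expansion as a finite nonnegative combination of tree expectations -/
theorem X_expand' (L : Lev) (y : ℝ) (hy : 0 ≤ y) (hy1 : y < 1) (n₀ : ℕ) :
    ∃ (Z : Type) (_ : Fintype Z) (W : Z → ℝ) (nd : Z → Finset (Fin (n₀ + 1)))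
      (par : Z → Fin (n₀ + 1) → Fin (n₀ + 1)) (c : Z → Fin (n₀ + 1) → ℕ),
      (∀ z, 0 ≤ W z) ∧ (∀ z, W z ≠ 0 → Valid 0 (nd z) (par z)) ∧
      ∀ {Ω : Type} [Fintype Ω] (S : Sys L Ω) (Y : Fn Ω), (∀ ω, |Y ω| ≤ y) → ∀ ω,
        |S.X 0 (fun ω' => Real.log (1 - Y ω')) ω +
          ∑ z, W z * S.E 0 (S.gam (nd z) (par z) (c z) (fun _ => Y) 0) ω| ≤
          y ^ (n₀ + 1) / (1 - y) := by
  refine ⟨Fin n₀ × (Fin (n₀ + 1) → Fin (n₀ + 1)) × (Fin (n₀ + 1) → Fin L.T), inferInstance,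
    fun z => (1 / (z.1 + 1 : ℝ)) * ((∏ d, kap d (z.2.1 d)) * ∏ d, L.p (z.2.2 d)),
    fun z => nodes n₀ (z.1 + 1), fun z => z.2.1,
    fun z => lev (nodes n₀ (z.1 + 1)) z.2.1 0 (fun d => (z.2.2 d : ℕ)),
    fun z => mul_nonneg (by positivity) (mul_nonneg (prod_nonneg fun d _ => kap_nonneg _ _)
      (prod_nonneg fun d _ => L.p_nonneg _)),
    fun z hz => valid_of_kap (left_ne_zero_of_mul (right_ne_zero_of_mul hz)) _,
    fun S Y hY ω => ?_⟩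
  have := X_expand S 0 Y y hy hy1 hY n₀ ω
  rw [Finset.sum_range] at this
  convert this using 3
  rw [Fintype.sum_prod_type]
  refine sum_congr rfl fun k _ => ?_
  simp only [Sys.rep, avgJ, Fintype.sum_prod_type, mul_sum, mul_assoc]

theorem gen {Ξ : Type} [MeasurableSpace Ξ] (P : Measure Ξ) [IsProbabilityMeasure P] {K : Type}
    [Fintype K] (κ : K → ℝ) {L : Lev} {Ω : Type} [Fintype Ω] (S : Sys L Ω) (Y : K → Ξ → Fn Ω)
    {t : ℝ} (ht : 0 ≤ t) (ht1 : t < 1) (hY : ∀ k ξ ω, |Y k ξ ω| ≤ t) (ω : ℕ → Ω)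
    (h : ∀ (n₀ : ℕ) (nd : Finset (Fin (n₀ + 1))) (par : Fin (n₀ + 1) → Fin (n₀ + 1))
      (c : Fin (n₀ + 1) → ℕ), Valid 0 nd par →
      (∀ k, Integrable (fun ξ => S.E 0 (S.gam nd par c (fun _ => Y k ξ) 0) ω) P) ∧
        0 ≤ ∑ k, κ k * ∫ ξ, S.E 0 (S.gam nd par c (fun _ => Y k ξ) 0) ω ∂P) :
    ∫ ξ, ∑ k, κ k * S.X 0 (fun ω' => Real.log (1 - Y k ξ ω')) ω ∂P ≤ 0 := by
  by_cases hI : Integrable (fun ξ => ∑ k, κ k * S.X 0 (fun ω' => Real.log (1 - Y k ξ ω')) ω) P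
  swap
  · rw [integral_undef hI]
  have hlim : Filter.Tendsto (fun n₀ : ℕ => (∑ k, |κ k|) * (t ^ (n₀ + 1) / (1 - t)))
      Filter.atTop (nhds 0) := by
    have h1 := (tendsto_pow_atTop_nhds_zero_of_lt_one ht ht1).comp (Filter.tendsto_add_atTop_nat 1)
    simpa using (h1.div_const (1 - t)).const_mul (∑ k, |κ k|)
  refine ge_of_tendsto' hlim fun n₀ => ?_
  obtain ⟨Z, _, W, nd, par, c, hW, hv, hX⟩ := X_expand' L t ht ht1 n₀
  set M : Z → K → Ξ → ℝ := fun z k ξ =>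
    S.E 0 (S.gam (nd z) (par z) (c z) (fun _ => Y k ξ) 0) ω with hM
  have hz : ∀ z, Integrable (fun ξ => W z * ∑ k, κ k * M z k ξ) P ∧
      0 ≤ ∫ ξ, W z * ∑ k, κ k * M z k ξ ∂P := by
    intro z
    by_cases h0 : W z = 0
    · simp [h0]
    obtain ⟨h1, h2⟩ := h n₀ (nd z) (par z) (c z) (hv z h0)
    refine ⟨(integrable_finsetSum _ fun k _ => (h1 k).const_mul _).const_mul _, ?_⟩
    rw [integral_const_mul, integral_finsetSum _ fun k _ => (h1 k).const_mul _]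
    simp only [integral_const_mul]
    exact mul_nonneg (hW z) h2
  have hJ := integrable_finsetSum (univ : Finset Z) fun z _ => (hz z).1
  calc _ ≤ ∫ ξ, ((∑ k, |κ k|) * (t ^ (n₀ + 1) / (1 - t)) -
        ∑ z, W z * ∑ k, κ k * M z k ξ) ∂P := by
        refine integral_mono hI ((integrable_const _).sub hJ) fun ξ => ?_
        have e : ∑ z, W z * ∑ k, κ k * M z k ξ = ∑ k, κ k * ∑ z, W z * M z k ξ := by
          simp only [mul_sum]
          rw [sum_comm]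
          exact sum_congr rfl fun _ _ => sum_congr rfl fun _ _ => by ring
        simp only
        rw [e, sum_mul, ← sum_sub_distrib]
        refine sum_le_sum fun k _ => ?_
        rw [le_sub_iff_add_le, ← mul_add]
        refine (le_abs_self _).trans ?_
        rw [abs_mul]
        exact mul_le_mul_of_nonneg_left (hX S (Y k ξ) (hY k ξ) ω) (abs_nonneg _)
    _ ≤ _ := by
        rw [integral_sub (integrable_const _) hJ, integral_finsetSum _ fun z _ => (hz z).1]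
        simp only [integral_const, probReal_univ, one_smul]
        exact sub_le_self _ (sum_nonneg fun z _ => (hz z).2)

theorem factor {p : ℕ} {L : Lev} {Ω Ω₂ Ω' ι : Type} [Fintype Ω] [Fintype Ω₂] [Fintype Ω']
    [LinearOrder ι] {S : Sys L Ω} {S₂ : Sys L Ω₂} {S' : Sys L Ω'} {π₁ : ℕ → Ω' → Ω}
    {π₂ : ℕ → Ω' → Fin p → Ω₂} (h : IsProd S' S (Sys.pi fun _ : Fin p => S₂) π₁ π₂)
    {ω' : ℕ → Ω'} {ω₃ : ℕ → Ω₂} (hω : ∀ j ℓ, π₂ j (ω' j) ℓ = ω₃ j) (nd : Finset ι) (par : ι → ι)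
    (c : ι → ℕ) (r : ι) (h₁ : Fn Ω) (h₂ : Fin p → Fn Ω₂) {Y : Fn Ω'}
    (hY : ∀ ω, Y ω = h₁ (pmap π₁ ω) * ∏ ℓ, h₂ ℓ (fun j => π₂ j (ω j) ℓ)) :
    S'.E 0 (S'.gam nd par c (fun _ => Y) r) ω' =
      S.E 0 (S.gam nd par c (fun _ => h₁) r) (pmap π₁ ω') *
        ∏ ℓ, S₂.E 0 (S₂.gam nd par c (fun _ => h₂ ℓ) r) ω₃ := by
  have h1 := h.gam nd par c (fun _ => h₁)
    (fun _ ω => ∏ ℓ, h₂ ℓ (pmap (fun _ x => x ℓ) ω)) r
  have h2 := (isPi_pi fun _ : Fin p => S₂).gam nd par c (fun ℓ _ => h₂ ℓ) r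
  rw [show Y = fun ω => h₁ (pmap π₁ ω) * ∏ ℓ, h₂ ℓ (pmap (fun _ x => x ℓ) (pmap π₂ ω)) from
    funext hY]
  rw [h1, h.E, h2, (isPi_pi fun _ : Fin p => S₂).E]
  simp only
  congr 1
  refine prod_congr rfl fun ℓ _ => ?_
  exact congrArg _ (funext fun j => hω j ℓ)

end FL

open FL in
theorem fl_step {p : ℕ} (hp : 1 ≤ p) (μ : Measure (Inter p)) [IsProbabilityMeasure μ]
    (hμ : Integrable (fun θ => supNorm θ) μ) (D : NFac p μ) {L : Lev} {Ω Ω₂ Ω' I Ω₀ : Type}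
    [Fintype Ω] [Fintype Ω₂] [Fintype Ω'] [Fintype I] [Nonempty I] [Fintype Ω₀] [Nonempty Ω₀]
    (S : Sys L Ω) (S₂ : Sys L Ω₂) (S' : Sys L Ω') (π₁ : ℕ → Ω' → Ω) (π₂ : ℕ → Ω' → Fin p → Ω₂)
    (h : IsProd S' S (Sys.pi fun _ : Fin p => S₂) π₁ π₂) (sp : I → (ℕ → Ω) → Bool)
    (msg : Ω₀ → (ℕ → Ω₂) → ℝ) (ω' : ℕ → Ω') (ω₃ : ℕ → Ω₂) (hω : ∀ j ℓ, π₂ j (ω' j) ℓ = ω₃ j) :
    ∫ θ, ((Fintype.card (Fin p → I) : ℝ)⁻¹ * ∑ idx : Fin p → I,
          S'.X 0 (fun ω => θ (fun ℓ => sp (idx ℓ) (pmap π₁ ω))) ω' +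
        (p - 1 : ℝ) * ((Fintype.card (Fin p → Ω₀) : ℝ)⁻¹ * ∑ x₀ : Fin p → Ω₀,
          S'.X 0 (fun ω => Real.log (edgeTerm θ fun ℓ => msg (x₀ ℓ) (fun j => π₂ j (ω j) ℓ))) ω') -
        p * ((Fintype.card I : ℝ)⁻¹ * ∑ i : I, (Fintype.card (Fin p → Ω₀) : ℝ)⁻¹ * ∑ x₀ : Fin p → Ω₀,
          S'.X 0 (fun ω => siteMessage θ
            (fun ℓ => msg (x₀ (Fin.castLE (Nat.sub_le p 1) ℓ))
              (fun j => π₂ j (ω j) (Fin.castLE (Nat.sub_le p 1) ℓ))) (sp i (pmap π₁ ω))) ω')) ∂μ ≤ 0 := by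
  classical
  obtain ⟨n, rfl⟩ : ∃ n, p = n + 1 := ⟨p - 1, by omega⟩
  let _ := D.mΩ
  have := D.hP
  have := D.hρ
  have hA := nice_avg fun idx : Fin (n + 1) → I => nice_X S'
    (fun ω => nice_eval (fun ℓ => sp (idx ℓ) (pmap π₁ ω))) 0 ω'
  have hB := nice_avg fun x₀ : Fin (n + 1) → Ω₀ => nice_X S'
    (Φ := fun ω θ => Real.log (edgeTerm θ fun ℓ => msg (x₀ ℓ) (fun j => π₂ j (ω j) ℓ)))
    (fun ω => nice_lse (fun s => s) _ fun s => prod_pos fun ℓ _ => tilt_pos _ _) 0 ω'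
  have hC := nice_avg fun i : I => nice_avg fun x₀ : Fin (n + 1) → Ω₀ => nice_X S'
    (Φ := fun ω θ => siteMessage θ (fun ℓ => msg (x₀ (Fin.castLE (Nat.sub_le (n + 1) 1) ℓ))
      (fun j => π₂ j (ω j) (Fin.castLE (Nat.sub_le (n + 1) 1) ℓ))) (sp i (pmap π₁ ω)))
    (fun ω => nice_lse _ _ fun s => prod_pos fun ℓ _ => tilt_pos _ _) 0 ω'
  refine reg D hμ _ (2 * (n + 1)) (by positivity) (fun θ θ' => ?_) (fun θ c => ?_)
    fun t ht ht1 => ?_
  · have h1 := abs_le.1 (hA.abs_sub θ θ')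
    have h2 := abs_le.1 (hB.abs_sub θ θ')
    have h3 := abs_le.1 (hC.abs_sub θ θ')
    have hn : (0 : ℝ) ≤ n := n.cast_nonneg
    push_cast at h1 h2 h3 ⊢
    rw [abs_le]
    constructor <;> nlinarith [h1.1, h1.2, h2.1, h2.2, h3.1, h3.2]
  · have h1 := hA.2 θ c
    have h2 := hB.2 θ c
    have h3 := hC.2 θ c
    simp only at h1 h2 h3 ⊢
    rw [h1, h2, h3]
    ring
  have hpos : ∀ ξ (s : Fin (n + 1) → Bool), 0 < 1 + t * D.b ξ * ∏ ℓ, D.f ℓ ξ (s ℓ) := fun ξ s => by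
    rw [mul_assoc]; exact pos_t (one_add_pos D ξ s) ht.le ht1.le
  set cI : ℝ := (Fintype.card I : ℝ)⁻¹ with hcI
  set cJ : ℝ := (Fintype.card (Fin (n + 1) → I) : ℝ)⁻¹ with hcJ
  set cO : ℝ := (Fintype.card (Fin (n + 1) → Ω₀) : ℝ)⁻¹ with hcO
  let K := (Fin (n + 1) → I) ⊕ (Fin (n + 1) → Ω₀) ⊕ (I × (Fin (n + 1) → Ω₀))
  let κ : K → ℝ := Sum.elim (fun _ => cJ)
    (Sum.elim (fun _ => n * cO) (fun _ => -((n + 1) * (cI * cO))))
  let u : K → D.Ω → Fin (n + 1) → (I → Bool) → ℝ := Sum.elim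
    (fun idx ξ ℓ σ => D.f ℓ ξ (σ (idx ℓ))) (Sum.elim (fun _ _ _ _ => 1)
      (fun y ξ ℓ σ => if ℓ = Fin.last n then D.f ℓ ξ (σ y.1) else 1))
  let v : K → D.Ω → Fin (n + 1) → Fn Ω₂ := Sum.elim
    (fun _ _ _ => 1) (Sum.elim (fun x₀ ξ ℓ ω => mean (D.f ℓ ξ) (msg (x₀ ℓ) ω))
      (fun y ξ ℓ => if ℓ = Fin.last n then 1 else fun ω => mean (D.f ℓ ξ) (msg (y.2 ℓ) ω)))
  let Y : K → D.Ω → Fn Ω' := fun k ξ ω =>
    (t * -D.b ξ * ∏ ℓ, u k ξ ℓ (fun i => sp i (pmap π₁ ω))) *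
      ∏ ℓ, v k ξ ℓ (fun j => π₂ j (ω j) ℓ)
  have hu : ∀ k ξ ℓ σ, |u k ξ ℓ σ| ≤ 1 := by
    rintro (idx | x₀ | y) ξ ℓ σ
    · exact D.f_le _ _ _
    · simp [u]
    · simp only [u, Sum.elim_inr]
      split_ifs
      · exact D.f_le _ _ _
      · simp
  have hv : ∀ k ξ ℓ ω, |v k ξ ℓ ω| ≤ 1 := by
    rintro (idx | x₀ | y) ξ ℓ ω
    · simp [v]
    · exact abs_mean_le (D.f_le _ _) _
    · simp only [v, Sum.elim_inr]
      split_ifs
      · simp
      · exact abs_mean_le (D.f_le _ _) _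
  have hY : ∀ k ξ ω, |Y k ξ ω| ≤ t := by
    intro k ξ ω
    simp only [Y, abs_mul, abs_prod, abs_neg, abs_of_pos ht, mul_assoc]
    refine mul_le_of_le_one_right ht.le (mul_le_one₀ (D.b_le ξ) (by positivity)
      (mul_le_one₀ (prod_le_one (fun _ _ => abs_nonneg _) fun ℓ _ => hu _ _ _ _) (by positivity)
        (prod_le_one (fun _ _ => abs_nonneg _) fun ℓ _ => hv _ _ _ _)))
  refine le_trans (le_of_eq (integral_congr_ae (Filter.Eventually.of_forall fun ξ => ?_)))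
    (gen D.P κ S' Y ht.le ht1 hY ω' fun n₀ nd par c hval => ?_)
  · simp only [K, Fintype.sum_sum_type, Fintype.sum_prod_type, κ, Y, u, v, Sum.elim_inl,
      Sum.elim_inr, edge_th (hpos ξ), site_th (hpos ξ), th, Pi.one_apply, prod_const_one,
      mul_one, Fin.prod_univ_castSucc, Fin.castSucc_ne_last, if_true, if_false, one_mul,
      ← mul_sum, mul_neg, neg_mul, sub_neg_eq_add, sum_neg_distrib]
    have hc : ∀ ℓ : Fin (n + 1 - 1), Fin.castLE (Nat.sub_le (n + 1) 1) ℓ =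
      Fin.castSucc (n := n) ℓ := fun _ => rfl
    simp only [hc]
    push_cast
    ring
  obtain ⟨lam, hlam, hmix⟩ := exists_mix S 0 nd par hval c (pmap π₁ ω') (fun ω i => sp i ω)
  set N := insert 0 nd with hN
  let a : (Fin (n₀ + 1) → I → Bool) → I → (Bool → ℝ) → ℝ := fun τ i g => ∏ q ∈ N, g (τ q i)
  let γ : Ω₀ → (Bool → ℝ) → ℝ := fun x g =>
    S₂.E 0 (S₂.gam nd par c (fun _ ω => mean g (msg x ω)) 0) ω₃
  let G : K → (Fin (n₀ + 1) → I → Bool) → Fin (n + 1) → (Bool → ℝ) → ℝ := Sum.elim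
    (fun idx τ ℓ => a τ (idx ℓ)) (Sum.elim (fun x₀ _ ℓ => γ (x₀ ℓ))
      (fun y τ ℓ => if ℓ = Fin.last n then a τ y.1 else γ (y.2 ℓ)))
  have ca : ∀ τ i, Continuous (a τ i) := fun τ i =>
    continuous_finsetProd _ fun q _ => continuous_apply _
  have cγ : ∀ x, Continuous (γ x) := fun x => cont_E S₂ 0 (fun ω => cont_gam S₂ nd par c
    (h := fun g _ ω => mean g (msg x ω)) (fun _ ω => by unfold mean; fun_prop) 0 ω) ω₃
  have cG : ∀ k τ ℓ, Continuous (G k τ ℓ) := by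
    rintro (idx | x₀ | y) τ ℓ
    · exact ca _ _
    · exact cγ _
    · simp only [G, Sum.elim_inr]
      split_ifs
      exacts [ca _ _, cγ _]
  have h1 : S₂.E 0 (S₂.gam nd par c (fun _ => 1) 0) ω₃ = 1 := by rw [gam_one, E_one]; rfl
  have hF : ∀ k ξ, S'.E 0 (S'.gam nd par c (fun _ => Y k ξ) 0) ω' =
      ∑ τ, (lam τ * t ^ N.card) * ((-D.b ξ) ^ N.card * ∏ ℓ, G k τ ℓ (D.f ℓ ξ)) := by
    intro k ξ
    rw [factor h hω nd par c 0 (fun ω => t * -D.b ξ * ∏ ℓ, u k ξ ℓ (fun i => sp i ω)) (v k ξ)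
      (fun _ => rfl), hmix (fun σ => t * -D.b ξ * ∏ ℓ, u k ξ ℓ σ), sum_mul]
    refine sum_congr rfl fun τ _ => ?_
    have h2 : ∀ ℓ, G k τ ℓ (D.f ℓ ξ) = (∏ q ∈ N, u k ξ ℓ (τ q)) *
        S₂.E 0 (S₂.gam nd par c (fun _ => v k ξ ℓ) 0) ω₃ := by
      intro ℓ
      rcases k with idx | x₀ | y
      · simp only [G, u, v, Sum.elim_inl, h1, mul_one, a]
      · simp only [G, u, v, Sum.elim_inl, Sum.elim_inr, prod_const_one, one_mul, γ]
      · simp only [G, u, v, Sum.elim_inr]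
        split_ifs
        · simp only [h1, mul_one, a]
        · simp only [prod_const_one, one_mul, γ]
    simp only [h2, prod_mul_distrib, prod_const]
    rw [prod_comm]
    ring
  have hint := fun k => mix_int D (fun τ => lam τ * t ^ N.card) N.card (G k) (cG k) (hF k)
  refine ⟨fun k => (hint k).1, ?_⟩
  simp only [fun k => (hint k).2, mul_sum]
  rw [sum_comm]
  refine sum_nonneg fun τ _ => ?_
  have hb := D.mom N.card (card_pos.2 (insert_nonempty _ _))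
  set Eb := ∫ ξ, (-D.b ξ) ^ N.card ∂D.P
  set R : ℝ := cI * ∑ i, ∫ g, a τ i g ∂D.ρ with hR
  set q : ℝ := (Fintype.card Ω₀ : ℝ)⁻¹ * ∑ x, ∫ g, γ x g ∂D.ρ with hq
  have hO : (Fintype.card Ω₀ : ℝ)⁻¹ * (Fintype.card Ω₀ : ℝ) = 1 :=
    inv_mul_cancel₀ (by exact_mod_cast Fintype.card_ne_zero)
  have e1 : cJ * ∑ idx : Fin (n + 1) → I, ∏ ℓ, ∫ g, a τ (idx ℓ) g ∂D.ρ = R ^ (n + 1) := by
    rw [hcJ, avg_prod (fun _ i => ∫ g, a τ i g ∂D.ρ)]; simp [hR, hcI]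
  have e2 : cO * ∑ x₀ : Fin (n + 1) → Ω₀, ∏ ℓ, ∫ g, γ (x₀ ℓ) g ∂D.ρ = q ^ (n + 1) := by
    rw [hcO, avg_prod (fun _ x => ∫ g, γ x g ∂D.ρ)]; simp [hq]
  have e3 : ∀ i, cO * ∑ x₀ : Fin (n + 1) → Ω₀,
      ∏ ℓ, ∫ g, (if ℓ = Fin.last n then a τ i else γ (x₀ ℓ)) g ∂D.ρ =
      q ^ n * ∫ g, a τ i g ∂D.ρ := by
    intro i
    rw [hcO, avg_prod (fun ℓ x => ∫ g, (if ℓ = Fin.last n then a τ i else γ x) g ∂D.ρ),
      Fin.prod_univ_castSucc]
    simp only [Fin.castSucc_ne_last, if_false, if_true, prod_const, card_univ, Fintype.card_fin,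
      sum_const, nsmul_eq_mul, ← hq]
    rw [← mul_assoc ((Fintype.card Ω₀ : ℝ)⁻¹), hO, one_mul]
  have e4 : ∑ k, κ k * (lam τ * t ^ N.card * (Eb * ∏ ℓ, ∫ g, G k τ ℓ g ∂D.ρ)) =
      lam τ * t ^ N.card * Eb * (R ^ (n + 1) + n * q ^ (n + 1) - (n + 1) * (q ^ n * R)) := by
    rw [← e1, ← e2, hR, mul_left_comm (q ^ n), mul_sum _ _ (q ^ n)]
    simp only [← e3]
    simp only [K, Fintype.sum_sum_type, Fintype.sum_prod_type, κ, G, Sum.elim_inl,
      Sum.elim_inr, ← mul_sum]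
    ring
  rw [e4]
  refine mul_nonneg (mul_nonneg (mul_nonneg (hlam τ) (pow_nonneg ht.le _)) hb)
    (conv_ineq n (D.conv.imp id fun hg => ⟨?_, ?_⟩))
  · exact mul_nonneg (by positivity) (sum_nonneg fun i _ => integral_nonneg_of_ae
      (hg.mono fun g hg => prod_nonneg fun _ _ => hg _))
  · exact mul_nonneg (by positivity) (sum_nonneg fun x _ => integral_nonneg_of_ae
      (hg.mono fun g hg => S₂.E_nonneg 0 (fun ω => S₂.gam_nonneg nd par c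
        (fun _ _ => mean_nonneg hg _) 0 ω) ω₃))

end Crest.Agent.R141
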