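import Crest.Agent.R141.UpMain
import Crest.Agent.R141.FLStep

/-! The Franz–Leone upper bound for grid trial functions. -/

set_option autoImplicit false
open Finset Function MeasureTheory Crest.ProbabilityR.Diluted

namespace Crest.Agent.R141
open Sys

lemma Up.FL_of_NFac {p : ℕ} (hp : 1 ≤ p) (μ : Measure (Inter p)) [IsProbabilityMeasure μ]
    (hμ : Integrable (fun θ => supNorm θ) μ) (D : NFac p μ) : Up.FL p μ := by
  intro L Ω Ω₁ Ω₂ Ω₀ I _ _ _ _ _ _ _ _ _ S S₁ S₂ π₁ π₂ h sp ms ω₀ ω₂ hω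
  have key := fl_step hp μ hμ D S₁ S₂ S π₁ π₂ h sp ms ω₀ ω₂ hω
  have hp' : (0 : ℝ) < p := by exact_mod_cast hp
  set A : Inter p → ℝ := fun θ => Up.avg (fun idx : Fin p → I =>
    S.X 0 (fun ω => θ fun ℓ => sp (idx ℓ) (pmap π₁ ω)) ω₀) with hA
  set B : Inter p → ℝ := fun θ => Up.avg (fun x₀ : Fin p → Ω₀ => S.X 0 (fun ω => Real.log
    (edgeTerm θ fun ℓ => ms (x₀ ℓ) fun j => π₂ j (ω j) ℓ)) ω₀) with hB
  set C : Inter p → ℝ := fun θ => Up.avg (fun c : I × (Fin p → Ω₀) => S.X 0 (fun ω => siteMessage θ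
    (fun ℓ => ms (c.2 (Up.cst ℓ)) fun j => π₂ j (ω j) (Up.cst ℓ)) (sp c.1 (pmap π₁ ω))) ω₀) with hC
  have iA : Integrable A μ := Up.integrable_avg fun idx => Up.integrable_of_le μ hμ
    (Up.continuous_Xk S (fun ω => continuous_apply _) _ _ _)
    fun θ => S.abs_X_le 0 (fun ω => Approx.abs_le_supNorm _ _) _
  have iB : Integrable B μ := Up.integrable_avg fun x₀ => Up.integrable_of_le μ hμ
    (Up.continuous_Xk S (fun ω => Up.continuous_logEdge _) _ _ _)
    fun θ => S.abs_X_le 0 (fun ω => Approx.abs_log_le (Approx.edge_bounds _ _)) _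
  have iC : Integrable C μ := Up.integrable_avg fun c => Up.integrable_of_le μ hμ
    (Up.continuous_Xk S (fun ω => (Approx.continuous_siteMessage _).comp
      (continuous_id.prodMk continuous_const)) _ _ _)
    fun θ => S.abs_X_le 0 (fun ω => Approx.abs_siteMessage _ _ _) _
  have key' : ∫ θ, (A θ + (p - 1 : ℝ) * B θ - p * C θ) ∂μ ≤ 0 := by
    refine le_of_eq_of_le (integral_congr_ae (Filter.Eventually.of_forall fun θ => ?_)) key
    simp only [hA, hB, hC, Up.avg_prod]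
    simp only [Up.avg, Up.cst]
  have iAB : Integrable (fun θ => A θ + (p - 1 : ℝ) * B θ) μ := iA.add (iB.const_mul _)
  rw [integral_sub iAB (iC.const_mul _), integral_add iA (iB.const_mul _),
    integral_const_mul, integral_const_mul] at key'
  change (p : ℝ)⁻¹ * ∫ θ, A θ ∂μ + (p - 1) * (p : ℝ)⁻¹ * ∫ θ, B θ ∂μ ≤ ∫ θ, C θ ∂μ
  rw [mul_comm ((p : ℝ) - 1), mul_assoc, ← mul_add, inv_mul_le_iff₀ hp']
  linarith

theorem upper_grid (p : ℕ) (hp : 1 ≤ p) (α : ℝ) (hα : 0 ≤ α) (μ : Measure (Inter p))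
    [IsProbabilityMeasure μ] (ν : Measure ℝ) [IsProbabilityMeasure ν]
    (hμ : Integrable (fun θ => supNorm θ) μ) (hν : Integrable (fun x : ℝ => x) ν) (D : NFac p μ)
    (r : ℕ) (m : Fin r → ℝ) (hm : AdmissibleExponents m) (n : ℕ) [NeZero n]
    (g : (Fin (r + 1) → Fin n) → ℝ) (N : ℕ) (hN : 1 ≤ N) :
    pressure p α μ ν N ≤ trialFunctional p α μ ν r m (fun u => g (fun j => grid n (u j))) :=
  Up.upper_of_FL p hp α hα μ ν hμ hν (Up.FL_of_NFac hp μ hμ D) r m hm n g N hN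

end Crest.Agent.R141
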