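import Crest.Agent.R141.Core
import Crest.Agent.R141.ASS
import Crest.Agent.R141.Approx
import Crest.Agent.R141.Cavity
import Crest.Agent.R141.Upper

/-! The Mezard-Parisi formula for factorised interactions. -/

set_option autoImplicit false
open Finset Function MeasureTheory Crest.ProbabilityR.Diluted

namespace Crest.Agent.R141

/-- the set of values of the trial functional -/
def trialSet (p : ℕ) (α : ℝ) (μ : Measure (Inter p)) (ν : Measure ℝ) : Set ℝ :=
  {B : ℝ | ∃ (r : ℕ) (m : Fin r → ℝ) (X : (Fin (r + 1) → unitInterval) → ℝ),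
    AdmissibleExponents m ∧ Measurable X ∧ B = trialFunctional p α μ ν r m X}

theorem trialSet_nonempty (p : ℕ) (α : ℝ) (μ : Measure (Inter p)) (ν : Measure ℝ) :
    (trialSet p α μ ν).Nonempty :=
  ⟨_, 0, fun d => d.elim0, fun _ => 0, ⟨fun d => d.elim0, fun d => d.elim0⟩, measurable_const, rfl⟩

section
variable (p : ℕ) (hp : 1 ≤ p) (α : ℝ) (hα : 0 ≤ α) (μ : Measure (Inter p))
  [IsProbabilityMeasure μ] (ν : Measure ℝ) [IsProbabilityMeasure ν]
  (hμ : Integrable (fun θ => supNorm θ) μ) (hν : Integrable (fun x : ℝ => x) ν)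
  (hfac : HasFacC p μ)
include hp hα hμ hν hfac

/-- the Franz-Leone bound at every size -/
theorem pressure_le_trial (N : ℕ) (hN : 1 ≤ N) : pressure p α μ ν N ∈ lowerBounds (trialSet p α μ ν) := by
  rintro B ⟨r, m, X, hm, hX, rfl⟩
  obtain ⟨D⟩ := hfac.nfac hp
  refine le_of_forall_pos_le_add fun ε hε => ?_
  obtain ⟨n, _, g, hg⟩ := trial_approx p hp α hα μ ν hμ hν r m hm X hX ε hε
  have := upper_grid p hp α hα μ ν hμ hν D r m hm n g N hN
  have := (abs_le.1 hg).2
  linarith

/-- the cavity lower bound; only uniform exponents are needed -/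
theorem pressure_ge_of_trial (c : ℝ)
    (hc : ∀ T a r : ℕ, a + r + 1 = T → ∀ X : (Fin (r + 1) → unitInterval) → ℝ, Measurable X →
      c ≤ trialFunctional p α μ ν r (fun d => ((a + d + 1 : ℕ) : ℝ) / T) X) (ε : ℝ) (hε : 0 < ε) :
    ∀ᶠ N in Filter.atTop, c - ε ≤ pressure p α μ ν N := by
  obtain ⟨D⟩ := cavity core p hp α hα μ ν hμ hν c hc (ε / 2) (by positivity)
  filter_upwards [lower_of_cavity p hp α hα μ ν hμ hν (hfac.symLaw hp hμ) c _ (by positivity) D]
    with N hN
  linarith

theorem mp_general : Filter.Tendsto (pressure p α μ ν) Filter.atTop (nhds (sInf (trialSet p α μ ν))) ∧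
    IsGLB (trialSet p α μ ν) (sInf (trialSet p α μ ν)) := by
  have hb : BddBelow (trialSet p α μ ν) := ⟨_, pressure_le_trial p hp α hα μ ν hμ hν hfac 1 le_rfl⟩
  have hg := isGLB_csInf (trialSet_nonempty p α μ ν) hb
  refine ⟨?_, hg⟩
  rw [tendsto_order]
  refine ⟨fun c hc => ?_, fun c hc => ?_⟩
  · set F := sInf (trialSet p α μ ν)
    have hε : 0 < (F - c) / 3 := by linarith
    have hadm : ∀ T a r : ℕ, a + r + 1 = T →
        AdmissibleExponents (fun d : Fin r => ((a + d + 1 : ℕ) : ℝ) / T) := by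
      intro T a r h
      have hT : (0 : ℝ) < T := by exact_mod_cast (by omega : 0 < T)
      refine ⟨fun d d' hd => ?_, fun d => ⟨by positivity, ?_⟩⟩
      · have : (d : ℕ) < d' := hd
        refine div_lt_div_of_pos_right ?_ hT
        exact_mod_cast (by omega : a + d + 1 < a + d' + 1)
      · rw [div_lt_one hT]
        have := d.2
        exact_mod_cast (by omega : a + d + 1 < T)
    filter_upwards [pressure_ge_of_trial p hp α hα μ ν hμ hν hfac F
      (fun T a r h X hX => hg.1 ⟨r, _, X, hadm T a r h, hX, rfl⟩) _ hε] with N hN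
    linarith
  · filter_upwards [Filter.eventually_ge_atTop 1] with N hN
    exact (hg.2 (pressure_le_trial p hp α hα μ ν hμ hν hfac N hN)).trans_lt hc
end

end Crest.Agent.R141
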