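import Crest.Agent.R141.Tree

/-! Path functionals of replica trees. -/

set_option autoImplicit false
open Finset Function

namespace Crest.Agent.R141
namespace Sys
variable {L : Lev} {Ω ι : Type} [Fintype Ω] [LinearOrder ι] (S : Sys L Ω)

@[simp] theorem gam_empty (par : ι → ι) (c : ι → ℕ) (h : ι → Fn Ω) : S.gam ∅ par c h = h :=
  acc_empty _ _ _

theorem gam_insert_max {nd : Finset ι} {s : ι} (hs : ∀ d ∈ nd, d < s) (par : ι → ι) (c : ι → ℕ)
    (h : ι → Fn Ω) : S.gam (insert s nd) par c h =
      S.gam nd par c (update h (par s) (h (par s) * S.E (c s) (h s))) :=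
  acc_insert_max hs _ _ _

theorem gam_congr {nd : Finset ι} {par par' : ι → ι} {c c' : ι → ℕ}
    (hpar : ∀ d ∈ nd, par d = par' d) (hc : ∀ d ∈ nd, c d = c' d) (h : ι → Fn Ω) :
    S.gam nd par c h = S.gam nd par' c' h :=
  acc_congr hpar (fun d hd => by rw [hc d hd]) h

theorem gam_congr_lab {r : ι} {nd : Finset ι} {par : ι → ι} (hv : Valid r nd par) (c : ι → ℕ)
    {h h' : ι → Fn Ω} (hh : ∀ q ∈ insert r nd, h q = h' q) {q : ι} (hq : q ∈ insert r nd) :
    S.gam nd par c h q = S.gam nd par c h' q := acc_congr_lab hv _ hh hq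

theorem gam_unfold {nd : Finset ι} {par : ι → ι} (hv : ∀ d ∈ nd, par d < d) (c : ι → ℕ)
    (h : ι → Fn Ω) (q : ι) : S.gam nd par c h q =
      h q * ∏ d ∈ nd.filter (fun d => par d = q), S.E (c d) (S.gam nd par c h d) :=
  acc_unfold hv _ h q

theorem abs_gam_le (nd : Finset ι) (par : ι → ι) (c : ι → ℕ) {h : ι → Fn Ω}
    (hh : ∀ q ω, |h q ω| ≤ 1) (q : ι) (ω : ℕ → Ω) : |S.gam nd par c h q ω| ≤ 1 :=
  acc_pred (fun f : Fn Ω => ∀ ω, |f ω| ≤ 1)
    (fun _ _ h1 h2 ω => by
      rw [Pi.mul_apply, abs_mul]; exact mul_le_one₀ (h1 ω) (abs_nonneg _) (h2 ω))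
    (fun d _ _ hf => S.abs_E_le_of_le (c d) hf) hh q ω

theorem gam_nonneg (nd : Finset ι) (par : ι → ι) (c : ι → ℕ) {h : ι → Fn Ω}
    (hh : ∀ q ω, 0 ≤ h q ω) (q : ι) (ω : ℕ → Ω) : 0 ≤ S.gam nd par c h q ω :=
  acc_pred (fun f : Fn Ω => ∀ ω, 0 ≤ f ω) (fun _ _ h1 h2 ω => mul_nonneg (h1 ω) (h2 ω))
    (fun d _ _ hf => S.E_nonneg (c d) hf) hh q ω

/-- the root functional is bounded by the product of the label bounds -/
theorem abs_gam_le_prod {r : ι} {nd : Finset ι} {par : ι → ι} (hv : Valid r nd par) (c : ι → ℕ)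
    {h : ι → Fn Ω} {A : ι → ℝ} (hh : ∀ q ω, |h q ω| ≤ A q) (ω : ℕ → Ω) :
    |S.gam nd par c h r ω| ≤ ∏ q ∈ insert r nd, A q := by
  induction nd using Finset.induction_on_max generalizing h A with
  | empty => simpa using hh r ω
  | insert s nd hs ih =>
    have hsn : s ∉ nd := fun hb => lt_irrefl _ (hs s hb)
    have hsr : s ≠ r := (hv s (mem_insert_self _ _)).1.ne'
    have hs' : s ∉ insert r nd := by simp [hsn, hsr]
    rw [gam_insert_max _ hs]
    refine (ih (hv.of_insert hs) (A := update A (par s) (A (par s) * A s)) fun q ω => ?_).trans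
      (le_of_eq ?_)
    · by_cases hq : q = par s
      · subst hq
        simp only [update_self, Pi.mul_apply, abs_mul]
        exact mul_le_mul (hh _ _) (S.abs_E_le_of_le _ (hh s) ω) (abs_nonneg _)
          ((abs_nonneg _).trans (hh _ ω))
      · simp only [update_of_ne hq]; exact hh q ω
    · rw [Finset.insert_comm, prod_insert hs', prod_update_of_mem hv.par_mem,
        ← mul_prod_erase _ A hv.par_mem, sdiff_singleton_eq_erase]
      ring

/-- the root functional is linear in every label -/
theorem exists_gam_linear {r : ι} {nd : Finset ι} {par : ι → ι} (hv : Valid r nd par) (c : ι → ℕ)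
    (h : ι → Fn Ω) {q : ι} (hq : q ∈ insert r nd) :
    ∃ Λ : Fn Ω →ₗ[ℝ] Fn Ω, ∀ f, S.gam nd par c (update h q f) r = Λ f := by
  induction nd using Finset.induction_on_max generalizing h q with
  | empty =>
    have : q = r := by simpa using hq
    subst this
    exact ⟨LinearMap.id, fun f => by simp⟩
  | insert s nd hs ih =>
    have hsn : s ∉ nd := fun hb => lt_irrefl _ (hs s hb)
    have hps := hv.lt s (mem_insert_self _ _)
    have hv' := hv.of_insert hs
    by_cases hqs : q = s
    · subst hqs
      obtain ⟨Λ, hΛ⟩ := ih hv' h hv.par_mem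
      refine ⟨Λ ∘ₗ LinearMap.mulLeft ℝ (h (par q)) ∘ₗ S.E (c q), fun f => ?_⟩
      rw [gam_insert_max _ hs, update_self, update_of_ne hps.ne, LinearMap.comp_apply,
        LinearMap.comp_apply, LinearMap.mulLeft_apply, ← hΛ]
      refine S.gam_congr_lab hv' c (fun q' hq' => ?_) (mem_insert_self _ _)
      have : q' ≠ q := by
        rintro rfl
        rcases mem_insert.1 hq' with h1 | h1
        · exact (hv q' (mem_insert_self _ _)).1.ne' h1
        · exact hsn h1
      by_cases h1 : q' = par q
      · subst h1; simp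
      · simp [h1, this]
    · have hq' : q ∈ insert r nd := by
        rw [Finset.insert_comm] at hq
        exact (mem_insert.1 hq).resolve_left hqs
      by_cases hqp : q = par s
      · subst hqp
        obtain ⟨Λ, hΛ⟩ := ih hv' h hq'
        refine ⟨Λ ∘ₗ LinearMap.mulRight ℝ (S.E (c s) (h s)), fun f => ?_⟩
        rw [gam_insert_max _ hs, update_self, update_of_ne hps.ne', update_idem, hΛ]
        rfl
      · obtain ⟨Λ, hΛ⟩ := ih hv' (update h (par s) (h (par s) * S.E (c s) (h s))) hq'
        refine ⟨Λ, fun f => ?_⟩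
        rw [gam_insert_max _ hs, update_of_ne (Ne.symm hqp), update_of_ne (Ne.symm hqs),
          update_comm hqp, hΛ]

theorem gam_root_mul {r : ι} {nd : Finset ι} {par : ι → ι} (hv : Valid r nd par) (c : ι → ℕ)
    (h : ι → Fn Ω) (g : Fn Ω) :
    S.gam nd par c (update h r (g * h r)) r = g * S.gam nd par c h r := by
  induction nd using Finset.induction_on_max generalizing h with
  | empty => simp
  | insert s nd hs ih =>
    have hsr : s ≠ r := (hv s (mem_insert_self _ _)).1.ne'
    rw [gam_insert_max _ hs, gam_insert_max _ hs, ← ih (hv.of_insert hs), update_of_ne hsr]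
    congr 1
    by_cases hp : par s = r
    · simp only [hp, update_self, update_idem, mul_assoc]
    · rw [update_of_ne hp, update_comm (Ne.symm hp), update_of_ne (Ne.symm hp)]

/-- a factor measurable at the birth level of `q` can be moved to the parent -/
theorem gam_move {r : ι} {nd : Finset ι} {par : ι → ι} (hv : Valid r nd par) (c : ι → ℕ)
    (h : ι → Fn Ω) {q : ι} (hq : q ∈ nd) {φ : Fn Ω} (hφ : Meas L (c q) φ) :
    S.gam nd par c (update h q (h q * φ)) r =
      S.gam nd par c (update h (par q) (h (par q) * φ)) r := by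
  induction nd using Finset.induction_on_max generalizing h with
  | empty => simp at hq
  | insert s nd hs ih =>
    have hsn : s ∉ nd := fun hb => lt_irrefl _ (hs s hb)
    have hps := hv.lt s (mem_insert_self _ _)
    have hv' := hv.of_insert hs
    rw [gam_insert_max _ hs, gam_insert_max _ hs]
    rcases mem_insert.1 hq with rfl | hq'
    · rw [update_self, update_of_ne hps.ne, update_self, update_of_ne hps.ne', update_idem,
        S.E_mul' hφ]
      refine S.gam_congr_lab hv' c (fun q' hq' => ?_) (mem_insert_self _ _)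
      have : q' ≠ q := by
        rintro rfl
        rcases mem_insert.1 hq' with h1 | h1
        · exact (hv q' (mem_insert_self _ _)).1.ne' h1
        · exact hsn h1
      by_cases h1 : q' = par q
      · subst h1; simp only [update_self]; ring
      · simp [h1, this]
    · have key : ∀ x : ι, x < s → update (update h x (h x * φ)) (par s)
          (update h x (h x * φ) (par s) * S.E (c s) (update h x (h x * φ) s)) =
          update (update h (par s) (h (par s) * S.E (c s) (h s))) x
            (update h (par s) (h (par s) * S.E (c s) (h s)) x * φ) := by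
        intro x hx
        rw [update_of_ne hx.ne']
        by_cases h1 : par s = x
        · subst h1; simp only [update_self, update_idem]; congr 1; ring
        · rw [update_of_ne h1, update_of_ne (Ne.symm h1), update_comm (Ne.symm h1)]
      rw [key q (hs q hq'), key (par q) ((hv'.lt q hq').trans (hs q hq')), ih hv' _ hq']

theorem gam_move_top [WellFoundedLT ι] {r : ι} {nd : Finset ι} {par : ι → ι} (hv : Valid r nd par)
    (c : ι → ℕ) (h : ι → Fn Ω) (b : ℕ) {φ : Fn Ω} (hφ : Meas L b φ) (q : ι) :
    S.gam nd par c (update h q (h q * φ)) r =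
      S.gam nd par c (update h (top nd par c b q) (h (top nd par c b q) * φ)) r := by
  induction q using WellFoundedLT.induction with
  | ind q ih =>
    rw [top]
    split_ifs with h1
    · rw [S.gam_move hv c h h1.1 (hφ.mono h1.2.2), ih _ h1.2.1]
    · rfl

/-- flipping the labels on a set of nodes which is a union of level-`b` clusters -/
theorem gam_flip {nd : Finset ι} {par : ι → ι} (c : ι → ℕ) {fl : ℕ → Ω → Ω} (hfl : IsProj S S fl)
    {b : ℕ} (hb : b ≤ L.T) (hco : ∀ i x, i + 1 ≠ b → fl i x = x) (A : ι → Prop) [DecidablePred A]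
    (hA : ∀ d ∈ nd, b ≤ c d → (A d ↔ A (par d))) (h : ι → Fn Ω) (q : ι) :
    S.gam nd par c (fun q => if A q then (fun ω => h q (pmap fl ω)) else h q) q =
      if A q then (fun ω => S.gam nd par c h q (pmap fl ω)) else S.gam nd par c h q := by
  refine acc_rel (fun q (f f' : Fn Ω) => f = if A q then (fun ω => f' (pmap fl ω)) else f')
    (fun q f g f' g' h1 h2 => ?_) (fun d hd f f' h1 => ?_) (fun _ => rfl) q
  · rw [h1, h2]; split_ifs <;> rfl
  · have hE : S.E (c d) (fun ω => f' (pmap fl ω)) = fun ω => S.E (c d) f' (pmap fl ω) := hfl.E _ _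
    by_cases hbc : b ≤ c d
    · rw [h1]
      by_cases h2 : A d
      · rw [if_pos h2, if_pos ((hA d hd hbc).1 h2)]; exact hE
      · rw [if_neg h2, if_neg (fun h3 => h2 ((hA d hd hbc).2 h3))]
    · have hinv : (fun ω => S.E (c d) f' (pmap fl ω)) = S.E (c d) f' := by
        ext ω
        have : pmap fl ω = update ω (b - 1) (fl (b - 1) (ω (b - 1))) := by
          ext i
          by_cases hi : i = b - 1
          · subst hi; simp [pmap]
          · rw [update_of_ne hi]; exact hco i _ (by omega)
        rw [this]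
        exact S.E_meas _ _ ω _ _ (by omega) (by omega)
      rw [h1]
      split_ifs
      exacts [hE, hE.trans hinv, hinv.symm, rfl]

/-- `E a` is invariant under a flip of a coordinate `≥ a` -/
theorem E_flip {fl : ℕ → Ω → Ω} (hfl : IsProj S S fl) {a b : ℕ} (hab : a < b) (hb : b ≤ L.T)
    (hco : ∀ i x, i + 1 ≠ b → fl i x = x) (f : Fn Ω) :
    S.E a (fun ω => f (pmap fl ω)) = S.E a f := by
  rw [hfl.E]
  ext ω
  have : pmap fl ω = update ω (b - 1) (fl (b - 1) (ω (b - 1))) := by
    ext i
    by_cases hi : i = b - 1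
    · subst hi; simp [pmap]
    · rw [update_of_ne hi]; exact hco i _ (by omega)
  rw [this]
  exact S.E_meas _ _ ω _ _ (by omega) (by omega)

/-- inserting a new leaf `s` below `q` -/
theorem gam_insert_leaf {r s q : ι} {nd : Finset ι} {par : ι → ι} (hv : Valid r nd par)
    (hs : ∀ d ∈ insert r nd, d < s) (hq : q ∈ insert r nd) {c c' : ι → ℕ}
    (hc : ∀ d ∈ nd, c' d = c d) (h : ι → Fn Ω) (V : Fn Ω) :
    S.gam (insert s nd) (update par s q) c' (update h s V) r =
      S.gam nd par c (update h q (h q * S.E (c' s) V)) r := by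
  rw [gam_insert_max _ (fun d hd => hs d (mem_insert_of_mem hd)), update_self, update_self,
    update_of_ne (hs q hq).ne,
    S.gam_congr (par' := par) (c' := c)
      (fun d hd => update_of_ne (hs d (mem_insert_of_mem hd)).ne _ _) hc]
  refine S.gam_congr_lab hv c (fun q' hq' => ?_) (mem_insert_self _ _)
  by_cases h1 : q' = q
  · subst h1; simp
  · simp [h1, (hs q' hq').ne]

theorem _root_.Crest.Agent.R141.Valid.insert_leaf {r s q : ι} {nd : Finset ι} {par : ι → ι}
    (hv : Valid r nd par) (hs : ∀ d ∈ insert r nd, d < s) (hq : q ∈ insert r nd) :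
    Valid r (insert s nd) (update par s q) := by
  intro d hd
  rcases mem_insert.1 hd with rfl | hd
  · rw [update_self]
    exact ⟨hs r (mem_insert_self _ _), hs q hq, (mem_insert.1 hq).imp id mem_insert_of_mem⟩
  · rw [update_of_ne (hs d (mem_insert_of_mem hd)).ne]
    exact ⟨(hv d hd).1, (hv d hd).2.1, (hv d hd).2.2.imp id mem_insert_of_mem⟩

/-- derivative of a tree expectation along a path of Hamiltonians and labels -/
theorem hasDerivAt_E_gam {r : ι} {nd : Finset ι} {par : ι → ι} (hv : Valid r nd par) (c : ι → ℕ)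
    {H : ℝ → Fn Ω} {V : Fn Ω} {h : ℝ → ι → Fn Ω} {h' : ι → Fn Ω} {t : ℝ}
    (hH : ∀ ω, HasDerivAt (fun s => H s ω) (V ω) t)
    (hh : ∀ q ω, HasDerivAt (fun s => h s q ω) (h' q ω) t) (ω : ℕ → Ω) :
    HasDerivAt (fun s => (S.tilt (H s)).E (c r) ((S.tilt (H s)).gam nd par c (h s) r) ω)
      (∑ q ∈ insert r nd, (S.tilt (H t)).E (c r) ((S.tilt (H t)).gam nd par c
        (update (h t) q (h' q + h t q * (S.tilt (H t)).score (c q) V)) r) ω) t := by
  induction nd using Finset.induction_on_max generalizing h h' with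
  | empty => simpa using S.hasDerivAt_tilt_E (c r) hH (hh r) ω
  | insert s nd hs ih =>
    have hsn : s ∉ nd := fun hb => lt_irrefl _ (hs s hb)
    have hsr : s ≠ r := (hv s (mem_insert_self _ _)).1.ne'
    have hs' : s ∉ insert r nd := by simp [hsn, hsr]
    have hps := hv.lt s (mem_insert_self _ _)
    have hv' := hv.of_insert hs
    set St := S.tilt (H t) with hSt
    simp only [gam_insert_max _ hs]
    have hd := ih hv' (h := fun u => update (h u) (par s)
        (h u (par s) * (S.tilt (H u)).E (c s) (h u s)))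
      (h' := update h' (par s) (h' (par s) * St.E (c s) (h t s) +
        h t (par s) * St.E (c s) (h' s + h t s * St.score (c s) V))) (fun q ω => by
        by_cases hq : q = par s
        · subst hq
          simp only [update_self, Pi.mul_apply, Pi.add_apply]
          exact (hh _ ω).mul (S.hasDerivAt_tilt_E (c s) hH (hh s) ω)
        · simp only [update_of_ne hq]; exact hh q ω)
    refine hd.congr_deriv ?_
    rw [Finset.insert_comm, sum_insert hs', ← add_sum_erase _ _ hv.par_mem,
      ← add_sum_erase _ _ hv.par_mem, ← add_assoc]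
    congr 1
    · obtain ⟨Λ, hΛ⟩ := St.exists_gam_linear hv' c (h t) hv.par_mem
      simp only [update_self, update_idem, update_of_ne hps.ne, update_of_ne hps.ne']
      have h1 : St.gam nd par c (update (update (h t) s (h' s + h t s * St.score (c s) V)) (par s)
          (h t (par s) * St.E (c s) (h' s + h t s * St.score (c s) V))) r =
          Λ (h t (par s) * St.E (c s) (h' s + h t s * St.score (c s) V)) := by
        rw [← hΛ]
        refine St.gam_congr_lab hv' c (fun q' hq' => ?_) (mem_insert_self _ _)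
        have : q' ≠ s := fun h0 => hs' (h0 ▸ hq')
        by_cases h1 : q' = par s
        · subst h1; simp
        · simp [h1, this]
      rw [h1, hΛ, hΛ, ← Pi.add_apply, ← map_add, ← map_add]
      refine congrArg (fun f => St.E (c r) (Λ f) ω) ?_
      rw [← hSt]
      ring
    · refine sum_congr rfl fun q hq => ?_
      have h1 : q ≠ par s := ne_of_mem_erase hq
      have h2 : q ≠ s := fun h0 => hs' (h0 ▸ mem_of_mem_erase hq)
      simp only [update_of_ne h1, update_of_ne (Ne.symm h1), update_of_ne (Ne.symm h2)]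
      rw [update_comm h1]

/-! ### compatibility with projections and products -/

/-- composition with a path map, as a monoid homomorphism -/
def compHom {Ω Ω' : Type} (π : ℕ → Ω → Ω') : Fn Ω' →* Fn Ω where
  toFun f := fun ω => f (pmap π ω)
  map_one' := rfl
  map_mul' _ _ := rfl

theorem IsProj.gam {Ω' : Type} [Fintype Ω'] {S : Sys L Ω} {S' : Sys L Ω'} {π : ℕ → Ω → Ω'}
    (hπ : IsProj S S' π) (nd : Finset ι) (par : ι → ι) (c : ι → ℕ) (h : ι → Fn Ω') (q : ι) :
    S.gam nd par c (fun q ω => h q (pmap π ω)) q = fun ω => S'.gam nd par c h q (pmap π ω) :=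
  (acc_hom (compHom π) (fun d _ f => (hπ.E (c d) f).symm) h q).symm

theorem IsProd.gam {Ω₁ Ω₂ : Type} [Fintype Ω₁] [Fintype Ω₂] {S : Sys L Ω} {S₁ : Sys L Ω₁}
    {S₂ : Sys L Ω₂} {π₁ : ℕ → Ω → Ω₁} {π₂ : ℕ → Ω → Ω₂} (hπ : IsProd S S₁ S₂ π₁ π₂)
    (nd : Finset ι) (par : ι → ι) (c : ι → ℕ) (h₁ : ι → Fn Ω₁) (h₂ : ι → Fn Ω₂) (q : ι) :
    S.gam nd par c (fun q ω => h₁ q (pmap π₁ ω) * h₂ q (pmap π₂ ω)) q =
      fun ω => S₁.gam nd par c h₁ q (pmap π₁ ω) * S₂.gam nd par c h₂ q (pmap π₂ ω) := by
  induction nd using Finset.induction_on_max generalizing h₁ h₂ with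
  | empty => simp
  | insert s nd hs ih =>
    simp only [gam_insert_max _ hs]
    rw [← ih, hπ.E]
    congr 1
    ext q' ω
    by_cases h1 : q' = par s
    · subst h1; simp only [update_self, Pi.mul_apply]; ring
    · simp only [update_of_ne h1]

theorem IsPi.gam {Lab : Type} {Ω' : Lab → Type} [Fintype Lab] [∀ s, Fintype (Ω' s)] {S : Sys L Ω}
    {S' : ∀ s, Sys L (Ω' s)} {π : ∀ s, ℕ → Ω → Ω' s} (hπ : IsPi S S' π)
    (nd : Finset ι) (par : ι → ι) (c : ι → ℕ) (h : ∀ s, ι → Fn (Ω' s)) (q : ι) :
    S.gam nd par c (fun q ω => ∏ s, h s q (pmap (π s) ω)) q =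
      fun ω => ∏ s, (S' s).gam nd par c (h s) q (pmap (π s) ω) := by
  induction nd using Finset.induction_on_max generalizing h with
  | empty => simp
  | insert s nd hs ih =>
    simp only [gam_insert_max _ hs]
    rw [← ih, hπ.E]
    congr 1
    ext q' ω
    by_cases h1 : q' = par s
    · subst h1; simp only [update_self, Pi.mul_apply, prod_mul_distrib]
    · simp only [update_of_ne h1]

theorem gam_desc [WellFoundedLT ι] {nd : Finset ι} {par : ι → ι} (hv : ∀ d ∈ nd, par d < d)
    (x : ℕ) (J : ι → ℕ) (h : ι → Fn Ω) (q : ι) :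
    S.gam nd par (lev nd par x J) h q =
      S.gam (desc nd par q) par (lev (desc nd par q) par (lev nd par x J q) J) h q :=
  acc_desc hv h q fun d hd => by rw [lev_desc hv x J q (mem_insert_of_mem hd)]

end Sys
end Crest.Agent.R141
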