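import Crest.Agent.R141.Sys

/-! Projections, products, symmetries of hierarchical systems; the covariance seminorm `N`. -/

set_option autoImplicit false
open Finset Function

namespace Crest.Agent.R141

/-- coordinatewise image of a path -/
def pmap {Ω Ω' : Type} (π : ℕ → Ω → Ω') (ω : ℕ → Ω) : ℕ → Ω' := fun j => π j (ω j)

theorem pmap_update {Ω Ω' : Type} (π : ℕ → Ω → Ω') (ω : ℕ → Ω) (j : ℕ) (x : Ω) :
    pmap π (update ω j x) = update (pmap π ω) j (π j x) := by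
  ext k
  by_cases h : k = j
  · subst h; simp [pmap]
  · simp [pmap, update_of_ne h]

namespace Sys
variable {L : Lev}

/-- the uniform system -/
noncomputable def unif (L : Lev) (Ω : Type) [Fintype Ω] [Nonempty Ω] : Sys L Ω where
  w _ _ := (Fintype.card Ω : ℝ)⁻¹
  pos _ _ := inv_pos.2 (by exact_mod_cast Fintype.card_pos)
  sum_one _ _ := by
    have : (Fintype.card Ω : ℝ) ≠ 0 := by exact_mod_cast Fintype.card_ne_zero
    simp [this]
  meas _ _ _ _ _ _ := rfl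

/-- independent product of systems -/
noncomputable def pi {Lab Ω : Type} [Fintype Lab] [DecidableEq Lab] [Fintype Ω]
    (S : Lab → Sys L Ω) : Sys L (Lab → Ω) where
  w j ω := ∏ s, (S s).w j (pmap (fun _ x => x s) ω)
  pos j ω := prod_pos fun s _ => (S s).pos _ _
  sum_one j ω := by
    simp only [pmap_update]
    rw [← Fintype.piFinset_univ, ← Finset.prod_univ_sum (fun _ => univ)
      (fun s x => (S s).w j (update (pmap (fun _ x => x s) ω) j x))]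
    simp [Sys.sum_one]
  meas j k ω x h1 h2 := by
    simp only [pmap_update, Sys.meas _ j k _ _ h1 h2]

section Proj
variable {Ω Ω' : Type} [Fintype Ω] [Fintype Ω']

/-- `S'` is the image of `S` under the coordinatewise map `π` -/
def IsProj (S : Sys L Ω) (S' : Sys L Ω') (π : ℕ → Ω → Ω') : Prop :=
  ∀ j, j < L.T → ∀ (ω : ℕ → Ω) (F : Ω' → ℝ), ∑ x, S.w j (update ω j x) * F (π j x) =
    ∑ y, S'.w j (update (pmap π ω) j y) * F y

variable {S : Sys L Ω} {S' : Sys L Ω'} {π : ℕ → Ω → Ω'}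

theorem IsProj.P (h : IsProj S S' π) {j : ℕ} (hj : j < L.T) (f : Fn Ω') :
    S.P j (fun ω => f (pmap π ω)) = fun ω => S'.P j f (pmap π ω) := by
  ext ω
  simp only [P_apply, pmap_update]
  exact h j hj ω (fun y => f (update (pmap π ω) j y))

theorem IsProj.E (h : IsProj S S' π) (c : ℕ) (f : Fn Ω') :
    S.E c (fun ω => f (pmap π ω)) = fun ω => S'.E c f (pmap π ω) := by
  induction c using down_ind L.T with
  | h1 c hc => simp only [E_of_le _ hc]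
  | h2 c hc ih => rw [E_of_lt _ hc, ih, h.P hc, E_of_lt _ hc]

theorem IsProj.Xk (h : IsProj S S' π) (k c : ℕ) (hk : c + k ≤ L.T) (V : Fn Ω') :
    S.Xk k c (fun ω => V (pmap π ω)) = fun ω => S'.Xk k c V (pmap π ω) := by
  induction k generalizing c with
  | zero => rfl
  | succ k ih =>
    simp only [Sys.Xk]
    rw [ih (c + 1) (by omega)]
    ext ω
    simp only [Q]
    rw [h.P (show c < L.T by omega) (fun ω' => Real.exp (L.m c * S'.Xk k (c + 1) V ω'))]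

theorem IsProj.X (h : IsProj S S' π) (c : ℕ) (V : Fn Ω') :
    S.X c (fun ω => V (pmap π ω)) = fun ω => S'.X c V (pmap π ω) := by
  by_cases hc : c ≤ L.T
  · exact h.Xk _ c (by omega) V
  · simp only [X_of_le _ (show L.T ≤ c by omega)]

theorem IsProj.tilt (h : IsProj S S' π) (V : Fn Ω') :
    IsProj (S.tilt fun ω => V (pmap π ω)) (S'.tilt V) π := by
  intro j hj ω F
  simp only [Sys.tilt, if_pos hj, h.X, pmap_update, mul_assoc]
  exact h j hj ω (fun y => Real.exp (L.m j * (S'.X (j + 1) V (update (pmap π ω) j y) -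
    S'.X j V (update (pmap π ω) j y))) * F y)

/-- a coordinatewise permutation preserving the weights is a symmetry -/
theorem isProj_of_perm (S : Sys L Ω) (π : ℕ → Equiv.Perm Ω)
    (h : ∀ j ω, S.w j (pmap (fun j => π j) ω) = S.w j ω) : IsProj S S (fun j => π j) := by
  intro j _ ω F
  rw [← Equiv.sum_comp (π j) (fun y => S.w j (update (pmap (fun j => π j) ω) j y) * F y)]
  refine sum_congr rfl fun x _ => ?_
  rw [← pmap_update (fun j => π j), h]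

theorem isProj_unif [Nonempty Ω] [Nonempty Ω'] (π : ℕ → Ω → Ω')
    (h : ∀ j (F : Ω' → ℝ), (Fintype.card Ω : ℝ)⁻¹ * ∑ x, F (π j x) =
      (Fintype.card Ω' : ℝ)⁻¹ * ∑ y, F y) : IsProj (unif L Ω) (unif L Ω') π := by
  intro j _ ω F
  simp only [unif, ← mul_sum]
  exact h j F

theorem isProj_unif_perm [Nonempty Ω] (π : ℕ → Equiv.Perm Ω) :
    IsProj (unif L Ω) (unif L Ω) (fun j => π j) := isProj_of_perm _ π fun _ _ => rfl

theorem IsProj.tilt_self {π : ℕ → Ω → Ω} (h : IsProj S S π) {V : Fn Ω}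
    (hV : ∀ ω, V (pmap π ω) = V ω) : IsProj (S.tilt V) (S.tilt V) π := by
  have := h.tilt V
  simp only [hV] at this
  exact this

theorem IsProj.Cov (h : IsProj S S' π) (c : ℕ) (f g : Fn Ω') :
    S.Cov c (fun ω => f (pmap π ω)) (fun ω => g (pmap π ω)) = fun ω => S'.Cov c f g (pmap π ω) := by
  ext ω
  simp only [Cov_apply, h.E]
  have := congrFun (h.E c (f * g)) ω
  rw [← this]; rfl
end Proj

section Prod
variable {Ω Ω₁ Ω₂ : Type} [Fintype Ω] [Fintype Ω₁] [Fintype Ω₂]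

/-- under `S` the images under `π₁`, `π₂` are independent with laws `S₁`, `S₂` -/
def IsProd (S : Sys L Ω) (S₁ : Sys L Ω₁) (S₂ : Sys L Ω₂) (π₁ : ℕ → Ω → Ω₁) (π₂ : ℕ → Ω → Ω₂) :
    Prop :=
  ∀ j, j < L.T → ∀ (ω : ℕ → Ω) (F : Ω₁ → ℝ) (G : Ω₂ → ℝ),
    ∑ x, S.w j (update ω j x) * (F (π₁ j x) * G (π₂ j x)) =
      (∑ y, S₁.w j (update (pmap π₁ ω) j y) * F y) * ∑ z, S₂.w j (update (pmap π₂ ω) j z) * G z

variable {S : Sys L Ω} {S₁ : Sys L Ω₁} {S₂ : Sys L Ω₂} {π₁ : ℕ → Ω → Ω₁} {π₂ : ℕ → Ω → Ω₂}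

theorem IsProd.fst (h : IsProd S S₁ S₂ π₁ π₂) : IsProj S S₁ π₁ := by
  intro j hj ω F
  have := h j hj ω F (fun _ => 1)
  simpa [S₂.sum_one] using this

theorem IsProd.snd (h : IsProd S S₁ S₂ π₁ π₂) : IsProj S S₂ π₂ := by
  intro j hj ω G
  have := h j hj ω (fun _ => 1) G
  simpa [S₁.sum_one] using this

theorem IsProd.P (h : IsProd S S₁ S₂ π₁ π₂) {j : ℕ} (hj : j < L.T) (f : Fn Ω₁) (g : Fn Ω₂) :
    S.P j (fun ω => f (pmap π₁ ω) * g (pmap π₂ ω)) =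
      fun ω => S₁.P j f (pmap π₁ ω) * S₂.P j g (pmap π₂ ω) := by
  ext ω
  simp only [P_apply, pmap_update]
  exact h j hj ω (fun y => f (update (pmap π₁ ω) j y)) (fun z => g (update (pmap π₂ ω) j z))

theorem IsProd.E (h : IsProd S S₁ S₂ π₁ π₂) (c : ℕ) (f : Fn Ω₁) (g : Fn Ω₂) :
    S.E c (fun ω => f (pmap π₁ ω) * g (pmap π₂ ω)) =
      fun ω => S₁.E c f (pmap π₁ ω) * S₂.E c g (pmap π₂ ω) := by
  induction c using down_ind L.T with
  | h1 c hc => simp only [E_of_le _ hc]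
  | h2 c hc ih => rw [E_of_lt _ hc, ih, h.P hc, E_of_lt _ hc, E_of_lt _ hc]

theorem IsProd.Xk (h : IsProd S S₁ S₂ π₁ π₂) (k c : ℕ) (hk : c + k ≤ L.T) (V₁ : Fn Ω₁)
    (V₂ : Fn Ω₂) : S.Xk k c (fun ω => V₁ (pmap π₁ ω) + V₂ (pmap π₂ ω)) =
      fun ω => S₁.Xk k c V₁ (pmap π₁ ω) + S₂.Xk k c V₂ (pmap π₂ ω) := by
  induction k generalizing c with
  | zero => rfl
  | succ k ih =>
    simp only [Sys.Xk]
    rw [ih (c + 1) (by omega)]
    ext ω
    simp only [Q, mul_add, Real.exp_add]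
    rw [h.P (show c < L.T by omega) (fun ω' => Real.exp (L.m c * S₁.Xk k (c + 1) V₁ ω'))
      (fun ω' => Real.exp (L.m c * S₂.Xk k (c + 1) V₂ ω'))]
    simp only
    rw [Real.log_mul (S₁.P_pos (fun _ => Real.exp_pos _) _).ne'
      (S₂.P_pos (fun _ => Real.exp_pos _) _).ne', mul_add]

theorem IsProd.X (h : IsProd S S₁ S₂ π₁ π₂) (c : ℕ) (V₁ : Fn Ω₁) (V₂ : Fn Ω₂) :
    S.X c (fun ω => V₁ (pmap π₁ ω) + V₂ (pmap π₂ ω)) =
      fun ω => S₁.X c V₁ (pmap π₁ ω) + S₂.X c V₂ (pmap π₂ ω) := by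
  by_cases hc : c ≤ L.T
  · exact h.Xk _ c (by omega) V₁ V₂
  · simp only [X_of_le _ (show L.T ≤ c by omega)]

theorem IsProd.tilt (h : IsProd S S₁ S₂ π₁ π₂) (V₁ : Fn Ω₁) (V₂ : Fn Ω₂) :
    IsProd (S.tilt fun ω => V₁ (pmap π₁ ω) + V₂ (pmap π₂ ω)) (S₁.tilt V₁) (S₂.tilt V₂) π₁ π₂ := by
  intro j hj ω F G
  simp only [Sys.tilt, if_pos hj, h.X, pmap_update, mul_assoc]
  rw [← h j hj ω (fun y => Real.exp (L.m j * (S₁.X (j + 1) V₁ (update (pmap π₁ ω) j y) -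
    S₁.X j V₁ (update (pmap π₁ ω) j y))) * F y)
    (fun y => Real.exp (L.m j * (S₂.X (j + 1) V₂ (update (pmap π₂ ω) j y) -
    S₂.X j V₂ (update (pmap π₂ ω) j y))) * G y)]
  refine sum_congr rfl fun x _ => ?_
  congr 1
  rw [mul_mul_mul_comm, ← Real.exp_add]
  congr 2; ring

theorem IsProd.tilt_left (h : IsProd S S₁ S₂ π₁ π₂) (V₁ : Fn Ω₁) :
    IsProd (S.tilt fun ω => V₁ (pmap π₁ ω)) (S₁.tilt V₁) S₂ π₁ π₂ := by
  have := h.tilt V₁ 0
  simpa only [Pi.zero_apply, add_zero, tilt_zero] using this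

theorem isProd_unif [Nonempty Ω] [Nonempty Ω₁] [Nonempty Ω₂] (e : Ω ≃ Ω₁ × Ω₂) :
    IsProd (unif L Ω) (unif L Ω₁) (unif L Ω₂) (fun _ x => (e x).1) (fun _ x => (e x).2) := by
  intro j _ ω F G
  simp only [unif, ← mul_sum]
  rw [Equiv.sum_comp e (fun y => F y.1 * G y.2), Fintype.sum_prod_type, Fintype.card_congr e,
    Fintype.card_prod]
  simp only [← mul_sum, ← sum_mul]
  push_cast
  rw [mul_inv]; ring
end Prod

section Pi
variable {Ω Lab : Type} {Ω' : Lab → Type} [Fintype Ω] [Fintype Lab] [∀ s, Fintype (Ω' s)]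

/-- under `S` the images under `π s` are independent with laws `S' s` -/
def IsPi (S : Sys L Ω) (S' : ∀ s, Sys L (Ω' s)) (π : ∀ s, ℕ → Ω → Ω' s) : Prop :=
  ∀ j, j < L.T → ∀ (ω : ℕ → Ω) (F : ∀ s, Ω' s → ℝ),
    ∑ x, S.w j (update ω j x) * ∏ s, F s (π s j x) =
      ∏ s, ∑ y, (S' s).w j (update (pmap (π s) ω) j y) * F s y

variable {S : Sys L Ω} {S' : ∀ s, Sys L (Ω' s)} {π : ∀ s, ℕ → Ω → Ω' s}

theorem IsPi.P (h : IsPi S S' π) {j : ℕ} (hj : j < L.T) (f : ∀ s, Fn (Ω' s)) :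
    S.P j (fun ω => ∏ s, f s (pmap (π s) ω)) = fun ω => ∏ s, (S' s).P j (f s) (pmap (π s) ω) := by
  ext ω
  simp only [P_apply, pmap_update]
  exact h j hj ω (fun s y => f s (update (pmap (π s) ω) j y))

theorem IsPi.E (h : IsPi S S' π) (c : ℕ) (f : ∀ s, Fn (Ω' s)) :
    S.E c (fun ω => ∏ s, f s (pmap (π s) ω)) = fun ω => ∏ s, (S' s).E c (f s) (pmap (π s) ω) := by
  induction c using down_ind L.T with
  | h1 c hc => simp only [E_of_le _ hc]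
  | h2 c hc ih => rw [E_of_lt _ hc, ih, h.P hc]; simp only [E_of_lt _ hc]

theorem IsPi.Xk (h : IsPi S S' π) (k c : ℕ) (hk : c + k ≤ L.T) (V : ∀ s, Fn (Ω' s)) :
    S.Xk k c (fun ω => ∑ s, V s (pmap (π s) ω)) =
      fun ω => ∑ s, (S' s).Xk k c (V s) (pmap (π s) ω) := by
  induction k generalizing c with
  | zero => rfl
  | succ k ih =>
    simp only [Sys.Xk]
    rw [ih (c + 1) (by omega)]
    ext ω
    simp only [Q, mul_sum, Real.exp_sum]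
    rw [h.P (show c < L.T by omega)
      (fun s ω' => Real.exp (L.m c * (S' s).Xk k (c + 1) (V s) ω'))]
    simp only
    rw [Real.log_prod (fun s _ => ((S' s).P_pos (fun _ => Real.exp_pos _) _).ne'), mul_sum]

theorem IsPi.X (h : IsPi S S' π) (c : ℕ) (V : ∀ s, Fn (Ω' s)) :
    S.X c (fun ω => ∑ s, V s (pmap (π s) ω)) = fun ω => ∑ s, (S' s).X c (V s) (pmap (π s) ω) := by
  by_cases hc : c ≤ L.T
  · exact h.Xk _ c (by omega) V
  · simp only [X_of_le _ (show L.T ≤ c by omega)]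

theorem isPi_pi {Ω : Type} [Fintype Ω] [DecidableEq Lab] (S : Lab → Sys L Ω) :
    IsPi (Ω' := fun _ => Ω) (pi S) S (fun s _ x => x s) := by
  intro j _ ω F
  simp only [pi, pmap_update, ← prod_mul_distrib]
  rw [← Fintype.piFinset_univ, ← Finset.prod_univ_sum (fun _ => univ)
      (fun s y => (S s).w j (update (pmap (fun _ x => x s) ω) j y) * F s y)]

/-- blocks of a product over `A × B` -/
theorem isPi_pi_curry {Ω A B : Type} [Fintype Ω] [Fintype A] [Fintype B] [DecidableEq A]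
    [DecidableEq B] (S : A × B → Sys L Ω) :
    IsPi (Ω' := fun _ : A => B → Ω) (pi S) (fun a => pi fun b => S (a, b))
      (fun a _ x b => x (a, b)) := by
  intro j _ ω F
  simp only [pi, pmap_update]
  rw [Finset.prod_univ_sum (fun _ => univ), Fintype.piFinset_univ,
    ← Equiv.sum_comp (Equiv.curry A B Ω)]
  refine sum_congr rfl fun x _ => ?_
  rw [Fintype.prod_prod_type, ← prod_mul_distrib]
  rfl

theorem pi_unif {Ω : Type} [Fintype Ω] [Nonempty Ω] [DecidableEq Lab] :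
    pi (fun _ : Lab => unif L Ω) = unif L (Lab → Ω) := by
  ext j ω
  simp [pi, unif]
end Pi

/-! ### the covariance seminorm -/
section N
variable {Ω I : Type} [Fintype Ω] [Fintype I] (S : Sys L Ω) (ω₀ : ℕ → Ω) (a : ℕ)

/-- `N S ω₀ a γ = sup_{|Z| ≤ 1} avg_i 𝔼 |Cov_a (γ i, Z)|` -/
noncomputable def N (γ : I → Fn Ω) : ℝ :=
  ⨆ Z : {Z : Fn Ω // ∀ ω, |Z ω| ≤ 1},
    (Fintype.card I : ℝ)⁻¹ * ∑ i, S.E 0 (fun ω => |S.Cov a (γ i) Z.1 ω|) ω₀

/-- average `L¹` norm of a family -/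
noncomputable def L1 (γ : I → Fn Ω) : ℝ :=
  (Fintype.card I : ℝ)⁻¹ * ∑ i, S.E 0 (fun ω => |γ i ω|) ω₀

instance : Nonempty {Z : Fn Ω // ∀ ω, |Z ω| ≤ 1} := ⟨⟨0, by simp⟩⟩

theorem cov_avg_le_L1 (γ : I → Fn Ω) {Z : Fn Ω} (hZ : ∀ ω, |Z ω| ≤ 1) :
    (Fintype.card I : ℝ)⁻¹ * ∑ i, S.E 0 (fun ω => |S.Cov a (γ i) Z ω|) ω₀ ≤ 2 * S.L1 ω₀ γ := by
  unfold L1
  rw [mul_left_comm, mul_sum _ _ (2 : ℝ)]
  refine mul_le_mul_of_nonneg_left (sum_le_sum fun i _ => ?_) (by positivity)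
  calc S.E 0 (fun ω => |S.Cov a (γ i) Z ω|) ω₀
      ≤ S.E 0 (fun ω => 2 * 1 * S.E a (fun ω' => |γ i ω'|) ω) ω₀ :=
        S.E_mono 0 (fun ω => S.abs_Cov_le a (γ i) hZ ω) ω₀
    _ = _ := by rw [E_const_mul, mul_one]; congr 1; exact congrFun (S.E_E (Nat.zero_le a) _) ω₀

theorem N_bdd (γ : I → Fn Ω) : BddAbove (Set.range fun Z : {Z : Fn Ω // ∀ ω, |Z ω| ≤ 1} =>
    (Fintype.card I : ℝ)⁻¹ * ∑ i, S.E 0 (fun ω => |S.Cov a (γ i) Z.1 ω|) ω₀) :=
  ⟨2 * S.L1 ω₀ γ, by rintro _ ⟨Z, rfl⟩; exact S.cov_avg_le_L1 ω₀ a γ Z.2⟩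

theorem N_le {γ : I → Fn Ω} {δ : ℝ} (h : ∀ Z : Fn Ω, (∀ ω, |Z ω| ≤ 1) →
    (Fintype.card I : ℝ)⁻¹ * ∑ i, S.E 0 (fun ω => |S.Cov a (γ i) Z ω|) ω₀ ≤ δ) :
    S.N ω₀ a γ ≤ δ := ciSup_le fun Z => h Z.1 Z.2

theorem le_N (γ : I → Fn Ω) {Z : Fn Ω} (hZ : ∀ ω, |Z ω| ≤ 1) :
    (Fintype.card I : ℝ)⁻¹ * ∑ i, S.E 0 (fun ω => |S.Cov a (γ i) Z ω|) ω₀ ≤ S.N ω₀ a γ :=
  le_ciSup (S.N_bdd ω₀ a γ) ⟨Z, hZ⟩

theorem le_mul_N (γ : I → Fn Ω) {Z : Fn Ω} {A : ℝ} (hA : 0 < A) (hZ : ∀ ω, |Z ω| ≤ A) :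
    (Fintype.card I : ℝ)⁻¹ * ∑ i, S.E 0 (fun ω => |S.Cov a (γ i) Z ω|) ω₀ ≤ A * S.N ω₀ a γ := by
  have h := S.le_N ω₀ a γ (Z := A⁻¹ • Z) (fun ω => by
    rw [Pi.smul_apply, smul_eq_mul, abs_mul, abs_of_pos (inv_pos.2 hA), inv_mul_le_iff₀ hA]
    simpa using hZ ω)
  have h2 : ∀ i, S.E 0 (fun ω => |S.Cov a (γ i) (A⁻¹ • Z) ω|) ω₀ =
      A⁻¹ * S.E 0 (fun ω => |S.Cov a (γ i) Z ω|) ω₀ := by
    intro i
    rw [← E_const_mul, Cov_comm, Cov_smul_left, Cov_comm]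
    simp only [Pi.smul_apply, smul_eq_mul, abs_mul, abs_of_pos (inv_pos.2 hA)]
  simp only [h2, ← mul_sum] at h
  rw [mul_left_comm, inv_mul_le_iff₀ hA] at h
  exact h

theorem N_nonneg (γ : I → Fn Ω) : 0 ≤ S.N ω₀ a γ :=
  le_trans (mul_nonneg (by positivity) (sum_nonneg fun _ _ => S.E_nonneg 0 (fun _ => abs_nonneg _) _))
    (S.le_N ω₀ a γ (Z := 0) (by simp))

theorem N_le_L1 (γ : I → Fn Ω) : S.N ω₀ a γ ≤ 2 * S.L1 ω₀ γ :=
  S.N_le ω₀ a fun _ hZ => S.cov_avg_le_L1 ω₀ a γ hZ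

theorem L1_nonneg (γ : I → Fn Ω) : 0 ≤ S.L1 ω₀ γ :=
  mul_nonneg (by positivity) (sum_nonneg fun _ _ => S.E_nonneg 0 (fun _ => abs_nonneg _) _)

theorem L1_le {γ : I → Fn Ω} {A : ℝ} (hA : 0 ≤ A) (h : ∀ i ω, |γ i ω| ≤ A) : S.L1 ω₀ γ ≤ A := by
  unfold L1
  rcases isEmpty_or_nonempty I with hI | hI
  · simpa using hA
  · have : (0 : ℝ) < Fintype.card I := by exact_mod_cast Fintype.card_pos
    rw [inv_mul_le_iff₀ this]
    calc _ ≤ ∑ _i : I, A := sum_le_sum fun i _ => S.E_le 0 (h i) ω₀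
      _ = _ := by simp

theorem N_le_two_mul {γ : I → Fn Ω} {A : ℝ} (hA : 0 ≤ A) (h : ∀ i ω, |γ i ω| ≤ A) :
    S.N ω₀ a γ ≤ 2 * A :=
  (S.N_le_L1 ω₀ a γ).trans (mul_le_mul_of_nonneg_left (S.L1_le ω₀ hA h) (by norm_num))

theorem N_add_le (γ γ' : I → Fn Ω) : S.N ω₀ a (γ + γ') ≤ S.N ω₀ a γ + S.N ω₀ a γ' := by
  refine S.N_le ω₀ a fun Z hZ => le_trans ?_ (add_le_add (S.le_N ω₀ a γ hZ) (S.le_N ω₀ a γ' hZ))
  rw [← mul_add, ← sum_add_distrib]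
  refine mul_le_mul_of_nonneg_left (sum_le_sum fun i _ => ?_) (by positivity)
  rw [← E_add_apply]
  refine S.E_mono 0 (fun ω => ?_) ω₀
  rw [Pi.add_apply, Cov_add_left]
  exact abs_add_le _ _

theorem N_smul (x : ℝ) (γ : I → Fn Ω) : S.N ω₀ a (x • γ) = |x| * S.N ω₀ a γ := by
  unfold N
  rw [Real.mul_iSup_of_nonneg (abs_nonneg x)]
  congr 1
  ext Z
  rw [mul_left_comm, mul_sum _ _ (|x|)]
  congr 1
  refine sum_congr rfl fun i _ => ?_
  rw [← E_const_mul, Pi.smul_apply, Cov_smul_left]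
  simp only [Pi.smul_apply, smul_eq_mul, abs_mul]

theorem N_zero : S.N ω₀ a (0 : I → Fn Ω) = 0 := by
  have := S.N_smul ω₀ a 0 (0 : I → Fn Ω)
  simpa using this

theorem N_neg (γ : I → Fn Ω) : S.N ω₀ a (-γ) = S.N ω₀ a γ := by
  have := S.N_smul ω₀ a (-1) γ
  simpa using this

theorem N_sum_le {κ : Type} (s : Finset κ) (γ : κ → I → Fn Ω) :
    S.N ω₀ a (∑ k ∈ s, γ k) ≤ ∑ k ∈ s, S.N ω₀ a (γ k) := by
  classical
  induction s using Finset.induction_on with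
  | empty => simp [N_zero]
  | insert k s hk ih =>
    rw [sum_insert hk, sum_insert hk]
    exact (S.N_add_le ω₀ a _ _).trans (add_le_add le_rfl ih)

theorem N_le_add_L1 (γ γ' : I → Fn Ω) : S.N ω₀ a γ ≤ S.N ω₀ a γ' + 2 * S.L1 ω₀ (γ - γ') := by
  have h := S.N_add_le ω₀ a γ' (γ - γ')
  rw [add_sub_cancel] at h
  exact h.trans (add_le_add le_rfl (S.N_le_L1 ω₀ a _))

/-- measurable weights are absorbed -/
theorem N_mul_le (u γ : I → Fn Ω) (hu : ∀ i, Meas L a (u i)) (hu1 : ∀ i ω, |u i ω| ≤ 1) :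
    S.N ω₀ a (u * γ) ≤ S.N ω₀ a γ := by
  refine S.N_le ω₀ a fun Z hZ => le_trans ?_ (S.le_N ω₀ a γ hZ)
  refine mul_le_mul_of_nonneg_left (sum_le_sum fun i _ => ?_) (by positivity)
  refine S.E_mono 0 (fun ω => ?_) ω₀
  rw [Pi.mul_apply, S.Cov_mul_left (hu i), Pi.mul_apply, abs_mul]
  exact mul_le_of_le_one_left (abs_nonneg _) (hu1 i ω)

/-- pointwise bound: the average absolute covariance with `Z` is at most the root of a variance -/
theorem avg_abs_Cov_sq_le (γ : I → Fn Ω) {Z : Fn Ω} (hZ : ∀ ω, |Z ω| ≤ 1) (ω : ℕ → Ω) :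
    ∃ e : I → ℝ, (∀ i, |e i| ≤ 1) ∧ (∑ i, |S.Cov a (γ i) Z ω|) ^ 2 ≤
      S.Cov a (∑ i, e i • γ i) (∑ i, e i • γ i) ω := by
  refine ⟨fun i => if 0 ≤ S.Cov a (γ i) Z ω then 1 else -1, fun i => by
    dsimp only; split_ifs <;> simp, ?_⟩
  set e : I → ℝ := fun i => if 0 ≤ S.Cov a (γ i) Z ω then 1 else -1 with he
  have h1 : ∑ i, |S.Cov a (γ i) Z ω| = S.Cov a (∑ i, e i • γ i) Z ω := by
    rw [Cov_sum_left, Finset.sum_apply]
    refine sum_congr rfl fun i _ => ?_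
    rw [Cov_smul_left, Pi.smul_apply, smul_eq_mul, he]
    simp only
    split_ifs with h
    · rw [abs_of_nonneg h, one_mul]
    · rw [abs_of_neg (not_le.1 h)]; ring
  rw [h1]
  refine (S.Cov_sq_le a _ _ ω).trans ?_
  have h2 := S.Cov_self_le a hZ ω
  rw [one_pow] at h2
  exact mul_le_of_le_one_right (S.Cov_self_nonneg a _ ω) h2

theorem E_le_sqrt (c : ℕ) {f g : Fn Ω} (hf : ∀ ω, f ω ^ 2 ≤ g ω) (ω : ℕ → Ω) :
    S.E c f ω ≤ Real.sqrt (S.E c g ω) := by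
  refine Real.le_sqrt_of_sq_le ?_
  have h := S.E_mul_sq_le c f 1 ω
  rw [mul_one, mul_one, E_one, Pi.one_apply, mul_one] at h
  exact h.trans (S.E_mono c (fun ω' => by simpa [sq] using hf ω') ω)

/-- `N` is controlled by the pair covariances -/
theorem N_le_sqrt (γ : I → Fn Ω) : S.N ω₀ a γ ≤ Real.sqrt ((Fintype.card I : ℝ)⁻¹ * ∑ i,
    (Fintype.card I : ℝ)⁻¹ * ∑ i', S.E 0 (fun ω => |S.Cov a (γ i) (γ i') ω|) ω₀) := by
  refine S.N_le ω₀ a fun Z hZ => ?_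
  rw [← E_sum_apply, ← E_const_mul]
  simp only [← E_sum_apply, ← E_const_mul]
  refine S.E_le_sqrt 0 (fun ω => ?_) ω₀
  obtain ⟨e, he, h⟩ := S.avg_abs_Cov_sq_le a γ hZ ω
  rw [mul_pow, ← mul_sum, ← mul_assoc, ← sq]
  refine mul_le_mul_of_nonneg_left (h.trans ?_) (by positivity)
  rw [Cov_sum_left, Finset.sum_apply]
  refine sum_le_sum fun i _ => ?_
  rw [Cov_smul_left, Cov_comm, Cov_sum_left, Pi.smul_apply, Finset.sum_apply, smul_eq_mul, mul_sum]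
  refine sum_le_sum fun i' _ => ?_
  rw [Cov_smul_left, Cov_comm, Pi.smul_apply, smul_eq_mul]
  refine (le_abs_self _).trans ?_
  rw [abs_mul, abs_mul, ← mul_assoc]
  exact mul_le_of_le_one_left (abs_nonneg _) (mul_le_one₀ (he i) (abs_nonneg _) (he i'))

/-- change of system -/
theorem N_tilt_le {V : Fn Ω} {B : ℝ} (hV : ∀ ω, |V ω| ≤ B) (γ : I → Fn Ω) :
    (S.tilt V).N ω₀ a γ ≤ 2 * Real.exp (4 * B) * S.N ω₀ a γ := by
  refine (S.tilt V).N_le ω₀ a fun Z hZ => ?_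
  have hρ : ∀ ω, |S.rho a V ω| ≤ Real.exp (2 * B) := fun ω => by
    rw [abs_of_pos (S.rho_pos a V ω)]; exact S.rho_le a hV ω
  have hρZ : ∀ ω, |(S.rho a V * Z) ω| ≤ Real.exp (2 * B) := fun ω => by
    rw [Pi.mul_apply, abs_mul]
    exact (mul_le_of_le_one_right (abs_nonneg _) (hZ ω)).trans (hρ ω)
  have key : ∀ i ω, |(S.tilt V).Cov a (γ i) Z ω| ≤
      |S.Cov a (γ i) (S.rho a V * Z) ω| + |S.Cov a (γ i) (S.rho a V) ω| := by
    intro i ω
    have h1 : (S.tilt V).Cov a (γ i) Z ω = S.Cov a (γ i) (S.rho a V * Z) ω -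
        S.Cov a (γ i) (S.rho a V) ω * (S.tilt V).E a Z ω := by
      simp only [Cov_apply, tilt_E, E_rho, Pi.one_apply]
      rw [mul_left_comm (S.rho a V), mul_comm (S.rho a V) (γ i)]
      ring
    rw [h1]
    refine (abs_sub _ _).trans (add_le_add le_rfl ?_)
    rw [abs_mul]
    exact mul_le_of_le_one_right (abs_nonneg _) ((S.tilt V).abs_E_le_of_le a hZ ω)
  have h1 := S.le_mul_N ω₀ a γ (Real.exp_pos _) hρZ
  have h2 := S.le_mul_N ω₀ a γ (Real.exp_pos _) hρ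
  calc _ ≤ (Fintype.card I : ℝ)⁻¹ * ∑ i, Real.exp (2 * B) *
        (S.E 0 (fun ω => |S.Cov a (γ i) (S.rho a V * Z) ω|) ω₀ +
          S.E 0 (fun ω => |S.Cov a (γ i) (S.rho a V) ω|) ω₀) := by
        refine mul_le_mul_of_nonneg_left (sum_le_sum fun i _ => ?_) (by positivity)
        refine (S.tilt_E_le 0 hV (fun _ => abs_nonneg _) ω₀).trans
          (mul_le_mul_of_nonneg_left ?_ (Real.exp_pos _).le)
        rw [← E_add_apply]
        exact S.E_mono 0 (key i) ω₀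
    _ = Real.exp (2 * B) * ((Fintype.card I : ℝ)⁻¹ *
          ∑ i, S.E 0 (fun ω => |S.Cov a (γ i) (S.rho a V * Z) ω|) ω₀ +
        (Fintype.card I : ℝ)⁻¹ * ∑ i, S.E 0 (fun ω => |S.Cov a (γ i) (S.rho a V) ω|) ω₀) := by
        rw [← mul_sum, sum_add_distrib]; ring
    _ ≤ Real.exp (2 * B) * (Real.exp (2 * B) * S.N ω₀ a γ + Real.exp (2 * B) * S.N ω₀ a γ) :=
        mul_le_mul_of_nonneg_left (add_le_add h1 h2) (Real.exp_pos _).le
    _ = _ := by rw [show 4 * B = 2 * B + 2 * B by ring, Real.exp_add]; ring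
end N

end Sys
end Crest.Agent.R141
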