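import Crest.Agent.R141.TreeDefs

/-! Marker bits force small conditional covariances at a typical level. -/

set_option autoImplicit false
open Finset Function MeasureTheory Crest.ProbabilityR.Diluted
namespace Crest.Agent.R141
open Sys

namespace Pin
variable {L : Lev} {Ω : Type} [Fintype Ω] (S : Sys L Ω)

lemma tilt_close (c : ℕ) {V : Fn Ω} (hV : ∀ ω, |V ω| ≤ 1) {t : ℝ} (h0 : 0 ≤ t) (h1 : t ≤ 1 / 2)
    {f : Fn Ω} {A : ℝ} (hf : ∀ ω, |f ω| ≤ A) (ω : ℕ → Ω) :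
    |(S.tilt (t • V)).E c f ω - S.E c f ω| ≤ 4 * t * A := by
  have h2 := S.abs_tilt_E_sub_le c (V := t • V) (B := t) (fun ω' => by
    rw [Pi.smul_apply, smul_eq_mul, abs_mul, abs_of_nonneg h0]
    exact mul_le_of_le_one_right h0 (hV ω')) hf ω
  have h3 := Real.abs_exp_sub_one_le (x := 2 * t) (by rw [abs_of_nonneg (by linarith)]; linarith)
  rw [abs_of_nonneg (show 0 ≤ 2 * t by linarith)] at h3
  have h4 : 0 ≤ A := (abs_nonneg _).trans (hf ω)
  refine h2.trans (mul_le_mul_of_nonneg_right ?_ h4)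
  linarith [le_abs_self (Real.exp (2 * t) - 1)]

lemma score_close (c : ℕ) {V : Fn Ω} (hV : ∀ ω, |V ω| ≤ 1) {t : ℝ} (h0 : 0 ≤ t) (h1 : t ≤ 1 / 2)
    {W : Fn Ω} (hW : ∀ ω, |W ω| ≤ 1) (ω : ℕ → Ω) :
    |(S.tilt (t • V)).score c W ω - S.score c W ω| ≤ 4 * t := by
  have : (S.tilt (t • V)).score c W ω - S.score c W ω =
      -∑ J ∈ range L.T, L.p J * ((S.tilt (t • V)).E (max c J) W ω - S.E (max c J) W ω) := by
    simp only [score, mul_sub, sum_sub_distrib]; ring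
  rw [this, abs_neg]
  refine (abs_sum_le_sum_abs _ _).trans ?_
  calc _ ≤ ∑ J ∈ range L.T, L.p J * (4 * t) := by
        refine sum_le_sum fun J _ => ?_
        rw [abs_mul, abs_of_nonneg (L.p_nonneg J)]
        refine mul_le_mul_of_nonneg_left ?_ (L.p_nonneg J)
        simpa using tilt_close S (max c J) hV h0 h1 hW ω
    _ = _ := by rw [← sum_mul, L.sum_p_T, one_mul]

lemma B_close (c : ℕ) {V : Fn Ω} (hV : ∀ ω, |V ω| ≤ 1) {t : ℝ} (h0 : 0 ≤ t) (h1 : t ≤ 1 / 2)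
    {W Z : Fn Ω} (hW : ∀ ω, |W ω| ≤ 1) (hZ : ∀ ω, |Z ω| ≤ 1) (ω : ℕ → Ω) :
    |(S.tilt (t • V)).E c (Z * (S.tilt (t • V)).score c W) ω - S.E c (Z * S.score c W) ω|
      ≤ 12 * t := by
  have h2 : |(S.tilt (t • V)).E c (Z * S.score c W) ω - S.E c (Z * S.score c W) ω| ≤ 4 * t * 2 :=
    tilt_close S c hV h0 h1 (fun ω' => by
      rw [Pi.mul_apply, abs_mul]
      have := S.abs_score_le c hW ω'
      nlinarith [hZ ω', abs_nonneg (Z ω'), abs_nonneg (S.score c W ω')]) ω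
  have h3 : |(S.tilt (t • V)).E c (Z * (S.tilt (t • V)).score c W) ω -
      (S.tilt (t • V)).E c (Z * S.score c W) ω| ≤ 4 * t := by
    rw [← E_sub_apply]
    refine (S.tilt (t • V)).abs_E_le_of_le c (fun ω' => ?_) ω
    rw [Pi.mul_apply, Pi.mul_apply, ← mul_sub, abs_mul]
    have := score_close S c hV h0 h1 hW ω'
    nlinarith [hZ ω', abs_nonneg (Z ω'),
      abs_nonneg ((S.tilt (t • V)).score c W ω' - S.score c W ω')]
  rw [abs_le] at h2 h3 ⊢
  constructor <;> linarith [h2.1, h2.2, h3.1, h3.2]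

lemma taylor (c : ℕ) {V : Fn Ω} (hV : ∀ ω, |V ω| ≤ 1) {t : ℝ} (h0 : 0 ≤ t) (h1 : t ≤ 1 / 2)
    {g : Fn Ω} (hg : ∀ ω, |g ω| ≤ 1) (ω : ℕ → Ω) :
    |(S.tilt (t • V)).E c g ω - S.E c g ω - t * S.E c (g * S.score c V) ω| ≤ 12 * t ^ 2 := by
  have hd : ∀ s : ℝ, HasDerivAt
      (fun s => (S.tilt (s • V)).E c g ω - s * S.E c (g * S.score c V) ω)
      ((S.tilt (s • V)).E c (g * (S.tilt (s • V)).score c V) ω - S.E c (g * S.score c V) ω) s := by
    intro s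
    have h2 := S.hasDerivAt_tilt_E c (H := fun s => s • V) (f := fun _ => g) (V := V) (f' := 0)
      (t := s) (fun ω' => by simpa using (hasDerivAt_id s).mul_const (V ω'))
      (fun ω' => hasDerivAt_const s (g ω')) ω
    rw [zero_add] at h2
    have h3 := (hasDerivAt_id s).mul_const (S.E c (g * S.score c V) ω)
    rw [one_mul] at h3
    exact h2.sub h3
  have h2 := norm_image_sub_le_of_norm_deriv_le_segment' (a := 0) (b := t) (C := 12 * t)
    (fun s _ => (hd s).hasDerivWithinAt) (fun s hs => by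
      rw [Real.norm_eq_abs]
      have := B_close S c hV hs.1 (hs.2.le.trans h1) hV hg ω
      linarith [hs.2]) t ⟨h0, le_rfl⟩
  simp only [zero_smul, tilt_zero, zero_mul, sub_zero, Real.norm_eq_abs] at h2
  calc _ = |(S.tilt (t • V)).E c g ω - t * S.E c (g * S.score c V) ω - S.E c g ω| := by
        congr 1; ring
    _ ≤ _ := h2
    _ = _ := by ring

lemma E_score (c : ℕ) (W : Fn Ω) (ω : ℕ → Ω) : S.E c (S.score c W) ω = 0 := by
  have : S.score c W = fun ω => W ω - ∑ J ∈ range L.T, L.p J * S.E (max c J) W ω := rfl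
  rw [this, E_sub_apply, E_sum_apply]
  have h : ∀ J ∈ range L.T, S.E c (fun ω => L.p J * S.E (max c J) W ω) ω = L.p J * S.E c W ω := by
    intro J _
    rw [E_const_mul]
    congr 1
    exact congrFun (S.E_E (le_max_left c J) W) ω
  rw [sum_congr rfl h, ← sum_mul, L.sum_p_T, one_mul]
  exact sub_self _

section sym
variable {S} {a : ℕ} {π : ℕ → Ω → Ω}

lemma E_inv (hπ : IsProj S S π) {f : Fn Ω} (hf : ∀ ω, f (pmap π ω) = f ω) (c : ℕ) (ω : ℕ → Ω) :
    S.E c f (pmap π ω) = S.E c f ω := by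
  have := congrFun (hπ.E c f) ω
  simp only [hf] at this
  exact this.symm

lemma E_odd (ha : a < L.T) (hπ : IsProj S S π) (hπa : ∀ i x, i ≠ a → π i x = x) {f : Fn Ω}
    (hf : ∀ ω, f (pmap π ω) = -f ω) (ω : ℕ → Ω) : S.E a f ω = 0 := by
  have h1 := congrFun (hπ.E a f) ω
  simp only [hf] at h1
  have h2 : pmap π ω = update ω a (π a (ω a)) := by
    ext i
    by_cases h : i = a
    · subst h; simp [pmap]
    · simp [pmap, update_of_ne h, hπa i _ h]
  rw [h2, S.E_meas a f ω a _ le_rfl ha] at h1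
  have h3 : (fun ω => -f ω) = -f := rfl
  rw [h3, map_neg, Pi.neg_apply] at h1
  linarith

lemma score_inv (hπ : IsProj S S π) {f : Fn Ω} (hf : ∀ ω, f (pmap π ω) = f ω) (c : ℕ)
    (ω : ℕ → Ω) : S.score c f (pmap π ω) = S.score c f ω := by
  simp only [score, hf, E_inv hπ hf]

lemma theta_score (ha : a < L.T) (hπ : IsProj S S π) (hπa : ∀ i x, i ≠ a → π i x = x)
    {θ τ : Fn Ω} (hθ : ∀ ω, |θ ω| = 1) (hm : Meas L (a + 1) θ)
    (hθπ : ∀ ω, θ (pmap π ω) = -θ ω) (hτπ : ∀ ω, τ (pmap π ω) = τ ω) :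
    θ * S.score a (θ * τ) = S.score a τ + L.m a • S.E a τ := by
  ext ω
  have h1 : θ ω * θ ω = 1 := by rw [← sq, ← sq_abs, hθ]; norm_num
  have h2 : ∀ J ∈ range L.T, θ ω * (L.p J * S.E (max a J) (θ * τ) ω) =
      L.p J * S.E (max a J) τ ω - (if J < a + 1 then L.p J else 0) * S.E a τ ω := by
    intro J _
    split_ifs with h
    · rw [max_eq_left (by omega), E_odd ha hπ hπa (f := θ * τ)
        (fun ω' => by simp only [Pi.mul_apply, hθπ, hτπ]; ring)]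
      ring
    · rw [S.E_mul (hm.mono (le_max_of_le_right (by omega))), Pi.mul_apply]
      linear_combination (L.p J * S.E (max a J) τ ω) * h1
  have h3 : ∑ J ∈ range L.T, (if J < a + 1 then L.p J else 0) = L.m a := by
    rw [← sum_filter, ← L.sum_p a]
    congr 1
    ext J; simp only [mem_filter, mem_range]; omega
  simp only [Pi.mul_apply, Pi.add_apply, Pi.smul_apply, smul_eq_mul, score]
  rw [mul_sub, mul_sum, sum_congr rfl h2, sum_sub_distrib, ← sum_mul, h3]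
  linear_combination (τ ω) * h1

/-- step (i) -/
lemma cov_theta (ha : a < L.T) (hπ : IsProj S S π) (hπa : ∀ i x, i ≠ a → π i x = x)
    {θ τ Z : Fn Ω} (hθ : ∀ ω, |θ ω| = 1) (hm : Meas L (a + 1) θ) (hτ : ∀ ω, |τ ω| ≤ 1)
    (hZ : ∀ ω, |Z ω| ≤ 1) (hθπ : ∀ ω, θ (pmap π ω) = -θ ω) (hτπ : ∀ ω, τ (pmap π ω) = τ ω)
    (hZπ : ∀ ω, Z (pmap π ω) = Z ω) {t : ℝ} (h0 : 0 ≤ t) (h1 : t ≤ 1 / 2) (ω : ℕ → Ω) :
    |(S.tilt (t • (θ * τ))).Cov a θ Z ω -
      t * (S.tilt (t • (θ * τ))).E a (Z * (S.tilt (t • (θ * τ))).score a τ) ω| ≤ 44 * t ^ 2 := by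
  have hV : ∀ ω, |(θ * τ) ω| ≤ 1 := fun ω' => by
    rw [Pi.mul_apply, abs_mul, hθ, one_mul]; exact hτ ω'
  have e1 := taylor S a hV h0 h1 (g := θ * Z)
    (fun ω' => by rw [Pi.mul_apply, abs_mul, hθ, one_mul]; exact hZ ω') ω
  have e2 := taylor S a hV h0 h1 (g := θ) (fun ω' => (hθ ω').le) ω
  have e3 := tilt_close S a hV h0 h1 hZ ω
  have e4 := B_close S a hV h0 h1 hτ hZ ω
  have e5 := (S.tilt (t • (θ * τ))).abs_E_le_of_le a hZ ω
  have e6 := S.abs_E_le_of_le a hτ ω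
  have hs := theta_score ha hπ hπa hθ hm hθπ hτπ
  rw [E_odd ha hπ hπa (f := θ * Z) (fun ω' => by simp only [Pi.mul_apply, hθπ, hZπ]; ring),
    mul_comm θ Z, mul_assoc, hs, mul_add, map_add, mul_smul_comm, map_smul,
    S.E_mul' (S.E_meas a τ), mul_comm Z θ] at e1
  rw [E_odd ha hπ hπa hθπ, hs, map_add, map_smul, S.E_E le_rfl] at e2
  simp only [Pi.add_apply, Pi.smul_apply, Pi.mul_apply, smul_eq_mul, E_score, sub_zero,
    zero_add] at e1 e2
  rw [Cov_apply]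
  have hm0 := (L.m_pos a).le
  have hm1 := L.m_le_one ha
  set x1 := (S.tilt (t • (θ * τ))).E a (θ * Z) ω
  set x2 := (S.tilt (t • (θ * τ))).E a θ ω
  set x3 := (S.tilt (t • (θ * τ))).E a Z ω
  set x4 := (S.tilt (t • (θ * τ))).E a (Z * (S.tilt (t • (θ * τ))).score a τ) ω
  set b := S.E a (Z * S.score a τ) ω
  set z := S.E a Z ω
  set u := L.m a * S.E a τ ω with hu
  have hu1 : |u| ≤ 1 := by
    rw [hu, abs_mul, abs_of_nonneg hm0]
    exact mul_le_one₀ hm1 (abs_nonneg _) e6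
  have key : x1 - x2 * x3 - t * x4 =
      (x1 - t * (b + L.m a * (z * S.E a τ ω))) - (x2 - t * u) * x3 - t * (u * (x3 - z))
        - t * (x4 - b) := by rw [hu]; ring
  have f2 : |(x2 - t * u) * x3| ≤ 12 * t ^ 2 := by
    rw [abs_mul]
    exact (mul_le_of_le_one_right (abs_nonneg _) e5).trans e2
  have f3 : |t * (u * (x3 - z))| ≤ 4 * t ^ 2 := by
    rw [abs_mul, abs_mul, abs_of_nonneg h0]
    have : |u| * |x3 - z| ≤ 4 * t := by
      have := mul_le_of_le_one_left (abs_nonneg (x3 - z)) hu1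
      linarith
    nlinarith
  have f4 : |t * (x4 - b)| ≤ 12 * t ^ 2 := by
    rw [abs_mul, abs_of_nonneg h0]; nlinarith
  rw [key]
  rw [abs_le] at e1 f2 f3 f4 ⊢
  have := sq_nonneg t
  constructor <;> linarith [e1.1, e1.2, f2.1, f2.2, f3.1, f3.2, f4.1, f4.2]

lemma B_theta (ha : a < L.T) (hπ : IsProj S S π) (hπa : ∀ i x, i ≠ a → π i x = x)
    {θ τ W : Fn Ω} (hθ : ∀ ω, |θ ω| = 1) (hτ : ∀ ω, |τ ω| ≤ 1)
    (hW : ∀ ω, |W ω| ≤ 1) (hθπ : ∀ ω, θ (pmap π ω) = -θ ω)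
    (hWπ : ∀ ω, W (pmap π ω) = W ω) {t : ℝ} (h0 : 0 ≤ t) (h1 : t ≤ 1 / 2) (ω : ℕ → Ω) :
    |(S.tilt (t • (θ * τ))).E a (θ * (S.tilt (t • (θ * τ))).score a W) ω| ≤ 12 * t := by
  have hV : ∀ ω, |(θ * τ) ω| ≤ 1 := fun ω' => by
    rw [Pi.mul_apply, abs_mul, hθ, one_mul]; exact hτ ω'
  have e := B_close S a hV h0 h1 hW (fun ω' => (hθ ω').le) ω
  rwa [E_odd ha hπ hπa (f := θ * S.score a W)
    (fun ω' => by simp only [Pi.mul_apply, hθπ, score_inv hπ hWπ]; ring), sub_zero] at e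
end sym

lemma Cov_sum_sum {A : Type} [Fintype A] (c : ℕ) (e : A → ℝ) (γ : A → Fn Ω) (ω : ℕ → Ω) :
    S.Cov c (∑ i, e i • γ i) (∑ i, e i • γ i) ω =
      ∑ i, ∑ i', e i * e i' * S.Cov c (γ i) (γ i') ω := by
  rw [Cov_sum_left, Finset.sum_apply]
  refine sum_congr rfl fun i _ => ?_
  rw [Cov_smul_left, Cov_comm, Cov_sum_left, Pi.smul_apply, Finset.sum_apply, smul_eq_mul, mul_sum]
  refine sum_congr rfl fun i' _ => ?_
  rw [Cov_smul_left, Cov_comm, Pi.smul_apply, smul_eq_mul, mul_assoc]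

/-- step (iii): Bessel-type inequality for almost orthogonal markers -/
lemma bessel {A : Type} [Fintype A] (a : ℕ) (θ : A → Fn Ω) (hθ : ∀ k ω, |θ k ω| ≤ 1)
    (hm : ∀ k, Meas L (a + 1) (θ k)) {κ : ℝ} (hκ : 0 ≤ κ) (ω : ℕ → Ω)
    (ho : ∀ k k', k ≠ k' → |S.Cov a (θ k) (θ k') ω| ≤ κ) (W : Fn Ω) :
    ∑ k, (S.Cov a (θ k) W ω) ^ 2 ≤
      (1 + κ * Fintype.card A) * S.Cov a (S.E (a + 1) W) (S.E (a + 1) W) ω := by
  classical
  set c : A → ℝ := fun k => S.Cov a (θ k) W ω with hc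
  have hΘ : Meas L (a + 1) (∑ k, c k • θ k) :=
    Meas.sum _ fun k _ => (hm k).map fun y => c k * y
  have h1 : ∑ k, c k ^ 2 = S.Cov a (∑ k, c k • θ k) (S.E (a + 1) W) ω := by
    have : S.Cov a (∑ k, c k • θ k) (S.E (a + 1) W) = S.Cov a (∑ k, c k • θ k) W := by
      unfold Cov
      rw [← S.E_mul hΘ, S.E_E (Nat.le_succ a), S.E_E (Nat.le_succ a)]
    rw [this, Cov_sum_left, Finset.sum_apply]
    refine sum_congr rfl fun k _ => ?_
    rw [Cov_smul_left, Pi.smul_apply, smul_eq_mul, sq]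
  have h2 : S.Cov a (∑ k, c k • θ k) (∑ k, c k • θ k) ω ≤
      (1 + κ * Fintype.card A) * ∑ k, c k ^ 2 := by
    rw [Cov_sum_sum]
    have h3 : ∀ k k', c k * c k' * S.Cov a (θ k) (θ k') ω ≤
        (if k' = k then c k ^ 2 else 0) + κ * (c k ^ 2 + c k' ^ 2) / 2 := by
      intro k k'
      split_ifs with h
      · subst h
        have := S.Cov_self_le a (hθ k') ω
        nlinarith [sq_nonneg (c k'), mul_nonneg hκ (sq_nonneg (c k'))]
      · have h4 := ho k k' (Ne.symm h)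
        have h5 : c k * c k' * S.Cov a (θ k) (θ k') ω ≤ |c k * c k'| * κ := by
          refine (le_abs_self _).trans ?_
          rw [abs_mul]
          exact mul_le_mul_of_nonneg_left h4 (abs_nonneg _)
        have h6 : |c k * c k'| ≤ (c k ^ 2 + c k' ^ 2) / 2 := by
          rw [abs_le]; constructor <;> nlinarith [sq_nonneg (c k + c k'), sq_nonneg (c k - c k')]
        nlinarith
    refine (sum_le_sum fun k _ => sum_le_sum fun k' _ => h3 k k').trans (le_of_eq ?_)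
    simp only [sum_add_distrib, sum_ite_eq', mem_univ, if_true, ← sum_div, ← mul_sum, sum_const,
      card_univ, nsmul_eq_mul]
    ring
  have h3 := S.Cov_sq_le a (∑ k, c k • θ k) (S.E (a + 1) W) ω
  have h4 := S.Cov_self_nonneg a (S.E (a + 1) W) ω
  rw [← h1] at h3
  have h5 : 0 ≤ ∑ k, c k ^ 2 := sum_nonneg fun k _ => sq_nonneg _
  rcases h5.eq_or_lt with h6 | h6
  · change ∑ k, c k ^ 2 ≤ _
    rw [← h6]; positivity
  · refine le_of_mul_le_mul_left ?_ h6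
    have := mul_le_mul_of_nonneg_right h2 h4
    change (∑ k, c k ^ 2) * ∑ k, c k ^ 2 ≤ _
    nlinarith

/-- step (iv) -/
lemma telescope {W : Fn Ω} (hW : ∀ ω, |W ω| ≤ 1) (n : ℕ) (ω : ℕ → Ω) :
    ∑ a ∈ range n, S.E 0 (S.Cov a (S.E (a + 1) W) (S.E (a + 1) W)) ω ≤ 1 := by
  have h1 : ∀ a, S.E 0 (S.Cov a (S.E (a + 1) W) (S.E (a + 1) W)) ω =
      S.E 0 (S.E (a + 1) W * S.E (a + 1) W) ω - S.E 0 (S.E a W * S.E a W) ω := by
    intro a
    unfold Cov
    rw [map_sub, S.E_E (Nat.zero_le a), S.E_E (Nat.le_succ a)]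
    rfl
  simp only [h1]
  rw [sum_range_sub (fun a => S.E 0 (S.E a W * S.E a W) ω)]
  have h2 := S.E_nonneg 0 (f := S.E 0 W * S.E 0 W) (fun _ => mul_self_nonneg _) ω
  have h3 := S.E_le 0 (f := S.E n W * S.E n W) (B := 1) (fun ω' => by
    have := S.abs_E_le_of_le n hW ω'
    rw [Pi.mul_apply, ← sq, ← sq_abs]
    nlinarith [abs_nonneg (S.E n W ω')]) ω
  linarith

/-- step (v) -/
lemma var_le {a : ℕ} (ha : a < L.T) (G : Fn Ω) (ω : ℕ → Ω) :
    L.m a * S.Cov a G G ω ≤ S.E a (G * S.score a G) ω := by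
  have h1 : G * S.score a G =
      fun ω => ∑ J ∈ range L.T, L.p J * (G * G - G * S.E (max a J) G) ω := by
    ext ω'
    simp only [score, Pi.mul_apply, Pi.sub_apply, mul_sub, sum_sub_distrib, ← sum_mul, L.sum_p_T,
      mul_sum, one_mul]
    congr 1
    exact sum_congr rfl fun _ _ => by ring
  have h2 : ∀ J, S.E a (G * G - G * S.E (max a J) G) = S.E a (S.Cov (max a J) G G) := by
    intro J
    unfold Cov
    rw [map_sub, map_sub, S.E_E (le_max_left a J), ← S.E_mul' (S.E_meas (max a J) G),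
      S.E_E (le_max_left a J)]
  rw [h1, E_sum_apply, ← L.sum_p a, sum_mul]
  simp only [E_const_mul]
  calc _ = ∑ J ∈ range (a + 1), L.p J * S.E a (S.Cov (max a J) G G) ω := by
        refine sum_congr rfl fun J hJ => ?_
        rw [max_eq_left (by have := mem_range.1 hJ; omega), S.E_of_meas (S.Cov_meas a G G)]
    _ ≤ ∑ J ∈ range L.T, L.p J * S.E a (S.Cov (max a J) G G) ω :=
        sum_le_sum_of_subset_of_nonneg (range_subset_range.2 ha) fun J _ _ =>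
          mul_nonneg (L.p_nonneg J) (S.E_nonneg a (S.Cov_self_nonneg _ G) ω)
    _ = _ := sum_congr rfl fun J _ => by rw [← h2]

lemma B_bilin {A : Type} [Fintype A] (a : ℕ) (e : A → ℝ) (τ : A → Fn Ω) (ω : ℕ → Ω) :
    S.E a ((∑ k, e k • τ k) * S.score a (∑ k, e k • τ k)) ω =
      ∑ l, ∑ k, e l * e k * S.E a (τ l * S.score a (τ k)) ω := by
  have h1 : S.score a (∑ k, e k • τ k) = ∑ k, e k • S.score a (τ k) := by
    ext ω'
    simp only [score, map_sum, map_smul, Finset.sum_apply, Pi.smul_apply, smul_eq_mul, mul_sub,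
      sum_sub_distrib, mul_sum]
    congr 1
    rw [sum_comm]
    exact sum_congr rfl fun _ _ => sum_congr rfl fun _ _ => by ring
  rw [h1, sum_mul_sum]
  simp only [map_sum, Finset.sum_apply, smul_mul_smul_comm, map_smul, Pi.smul_apply, smul_eq_mul]

/-- from the bound on `B` to a pointwise bound on the averaged covariances -/
lemma avg_pow_four {A : Type} [Fintype A] (hA : 0 < Fintype.card A) {a : ℕ} (ha : a < L.T)
    (τ : A → Fn Ω) {Z : Fn Ω} (hZ : ∀ ω, |Z ω| ≤ 1) (ω : ℕ → Ω) :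
    L.m a ^ 2 * ((Fintype.card A : ℝ)⁻¹ * ∑ k, |S.Cov a (τ k) Z ω|) ^ 4 ≤
      (Fintype.card A : ℝ)⁻¹ * ∑ l, (Fintype.card A : ℝ)⁻¹ *
        ∑ k, (S.E a (τ l * S.score a (τ k)) ω) ^ 2 := by
  obtain ⟨e, he, h⟩ := S.avg_abs_Cov_sq_le a τ hZ ω
  have h1 := var_le S ha (∑ k, e k • τ k) ω
  rw [B_bilin] at h1
  have hm := (L.m_pos a).le
  have h2 : L.m a * (∑ k, |S.Cov a (τ k) Z ω|) ^ 2 ≤
      ∑ q : A × A, |S.E a (τ q.1 * S.score a (τ q.2)) ω| := by
    refine (mul_le_mul_of_nonneg_left h hm).trans (h1.trans ?_)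
    rw [Fintype.sum_prod_type]
    refine sum_le_sum fun l _ => sum_le_sum fun k _ => (le_abs_self _).trans ?_
    rw [abs_mul, abs_mul]
    exact mul_le_of_le_one_left (abs_nonneg _) (mul_le_one₀ (he l) (abs_nonneg _) (he k))
  have h3 := sq_sum_le_card_mul_sum_sq (s := (univ : Finset (A × A)))
    (f := fun q => |S.E a (τ q.1 * S.score a (τ q.2)) ω|)
  have h4 := pow_le_pow_left₀ (by positivity) h2 2
  rw [card_univ, Fintype.card_prod, Fintype.sum_prod_type (f := fun q : A × A =>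
    |S.E a (τ q.1 * S.score a (τ q.2)) ω| ^ 2)] at h3
  simp only [sq_abs] at h3
  push_cast at h3
  have hA' : (0 : ℝ) < Fintype.card A := by exact_mod_cast hA
  rw [← mul_sum]
  have h5 := h4.trans h3
  calc _ = (Fintype.card A : ℝ)⁻¹ ^ 4 * (L.m a * (∑ k, |S.Cov a (τ k) Z ω|) ^ 2) ^ 2 := by ring
    _ ≤ (Fintype.card A : ℝ)⁻¹ ^ 4 * ((Fintype.card A : ℝ) * Fintype.card A *
        ∑ l, ∑ k, (S.E a (τ l * S.score a (τ k)) ω) ^ 2) :=
        mul_le_mul_of_nonneg_left h5 (by positivity)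
    _ = _ := by field_simp

lemma le_add_pow_four {x ε : ℝ} (hε : 0 < ε) : x ≤ ε + x ^ 4 / ε ^ 3 := by
  rcases le_or_gt x ε with h | h
  · have : 0 ≤ x ^ 4 / ε ^ 3 := by positivity
    linarith
  · have h1 : x ≤ x ^ 4 / ε ^ 3 := by
      rw [le_div_iff₀ (by positivity)]
      have : ε ^ 3 ≤ x ^ 3 := pow_le_pow_left₀ hε.le h.le 3
      nlinarith
    linarith

end Pin

open Pin in
theorem pin (δ : ℝ) (hδ : 0 < δ) : ∃ T₀ M₀ : ℕ, ∀ (L : Lev), L.Unif → T₀ ≤ L.T →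
    ∀ (Ω A : Type) [Fintype Ω] [Fintype A] (S : Sys L Ω), M₀ ≤ Fintype.card A →
    ∀ (η : ℝ), 0 < η → η ^ 2 * Fintype.card A = 1 →
    ∀ (τ : A → Fn Ω) (θ : A → ℕ → Fn Ω) (H : Fn Ω) (fl : A → ℕ → ℕ → Ω → Ω),
    (∀ k ω, |τ k ω| ≤ 1) → (∀ k j ω, |θ k j ω| = 1) → (∀ k j, j < L.T → Meas L (j + 1) (θ k j)) →
    (∀ k j, j < L.T → IsProj S S (fl k j)) → (∀ k j i x, i ≠ j → fl k j i x = x) →
    (∀ k j ω, j < L.T → θ k j (pmap (fl k j) ω) = -θ k j ω) →
    (∀ k k' j ω, j < L.T → k' ≠ k → θ k' j (pmap (fl k j) ω) = θ k' j ω) →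
    (∀ k l j ω, j < L.T → τ l (pmap (fl k j) ω) = τ l ω) →
    (∀ k j ω, j < L.T → H (pmap (fl k j) ω) - η * (θ k j (pmap (fl k j) ω) * τ k (pmap (fl k j) ω)) =
      H ω - η * (θ k j ω * τ k ω)) →
    ∀ ω₀, (L.T : ℝ)⁻¹ * ∑ a ∈ range L.T, (S.tilt H).N ω₀ a τ ≤ δ := by
  set K : ℝ := 1024 / δ ^ 5 with hK
  have hK0 : 0 < K := by positivity
  refine ⟨⌈K * 114 * 8 / δ⌉₊, max 4 ⌈K * 3872 * 8 / δ⌉₊, ?_⟩
  intro L hL hT Ω A _ _ S hM η hη hηA τ θ H fl hτ hθ hm hfl hfa hθπ hθπ' hτπ hH ω₀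
  have hA4 : (4 : ℝ) ≤ Fintype.card A := by exact_mod_cast (le_max_left _ _).trans hM
  have hA : 0 < Fintype.card A := by exact_mod_cast (show (0 : ℝ) < Fintype.card A by linarith)
  have hη2 : η ≤ 1 / 2 := by nlinarith
  have hAη : (Fintype.card A : ℝ)⁻¹ = η ^ 2 := by
    rw [inv_eq_iff_eq_inv, eq_comm, inv_eq_iff_eq_inv]
    exact eq_inv_of_mul_eq_one_left hηA
  have hT0 : (0 : ℝ) < L.T := by exact_mod_cast L.T_pos
  set R := S.tilt H with hR
  have hsplit : ∀ k a, R = (S.tilt (H - η • (θ k a * τ k))).tilt (η • (θ k a * τ k)) := by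
    intro k a; rw [tilt_tilt, sub_add_cancel]
  have hproj : ∀ k a, a < L.T → IsProj (S.tilt (H - η • (θ k a * τ k)))
      (S.tilt (H - η • (θ k a * τ k))) (fl k a) := fun k a ha =>
    (hfl k a ha).tilt_self fun ω => hH k a ω ha
  have hi : ∀ k a, a < L.T → ∀ Z : Fn Ω, (∀ ω, |Z ω| ≤ 1) → (∀ ω, Z (pmap (fl k a) ω) = Z ω) →
      ∀ ω, |R.Cov a (θ k a) Z ω - η * R.E a (Z * R.score a (τ k)) ω| ≤ 44 * η ^ 2 := by
    intro k a ha Z hZ hZπ ω
    rw [hsplit k a]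
    exact cov_theta ha (hproj k a ha) (hfa k a) (hθ k a) (hm k a ha) (hτ k) hZ
      (fun ω => hθπ k a ω ha) (fun ω => hτπ k k a ω ha) hZπ hη.le hη2 ω
  have hii : ∀ a, a < L.T → ∀ ω k k', k ≠ k' → |R.Cov a (θ k a) (θ k' a) ω| ≤ 56 * η ^ 2 := by
    intro a ha ω k k' hk
    have h1 := hi k a ha (θ k' a) (fun ω => (hθ k' a ω).le) (fun ω => hθπ' k k' a ω ha hk.symm) ω
    have h2 : |R.E a (θ k' a * R.score a (τ k)) ω| ≤ 12 * η := by
      rw [hsplit k' a]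
      exact B_theta ha (hproj k' a ha) (hfa k' a) (hθ k' a) (hτ k') (hτ k)
        (fun ω => hθπ k' a ω ha) (fun ω => hτπ k' k a ω ha) hη.le hη2 ω
    rw [abs_le] at h1 h2 ⊢
    constructor <;> nlinarith [h1.1, h1.2, h2.1, h2.2]
  let D : ℕ → A → Fn Ω := fun a l => R.Cov a (R.E (a + 1) (τ l)) (R.E (a + 1) (τ l))
  have hiii : ∀ a, a < L.T → ∀ ω l, (Fintype.card A : ℝ)⁻¹ *
      ∑ k, (R.E a (τ l * R.score a (τ k)) ω) ^ 2 ≤ 114 * D a l ω + 3872 * η ^ 2 := by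
    intro a ha ω l
    have h1 := bessel R a (fun k => θ k a) (fun k ω => (hθ k a ω).le) (fun k => hm k a ha)
      (κ := 56 * η ^ 2) (by positivity) ω (hii a ha ω) (τ l)
    rw [mul_assoc, hηA] at h1
    have h2 : ∀ k, η ^ 2 * (R.E a (τ l * R.score a (τ k)) ω) ^ 2 ≤
        2 * (R.Cov a (θ k a) (τ l) ω) ^ 2 + 3872 * η ^ 2 * η ^ 2 := by
      intro k
      have h3 := hi k a ha (τ l) (hτ l) (fun ω => hτπ k l a ω ha) ω
      have h4 := pow_le_pow_left₀ (abs_nonneg _) h3 2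
      rw [sq_abs] at h4
      nlinarith [sq_nonneg (2 * R.Cov a (θ k a) (τ l) ω - η * R.E a (τ l * R.score a (τ k)) ω)]
    rw [hAη, mul_sum]
    refine (sum_le_sum fun k _ => h2 k).trans ?_
    rw [sum_add_distrib, ← mul_sum, sum_const, card_univ, nsmul_eq_mul]
    have : (Fintype.card A : ℝ) * (3872 * η ^ 2 * η ^ 2) = 3872 * η ^ 2 := by
      linear_combination (3872 * η ^ 2) * hηA
    simp only [D]
    linarith
  have hN : ∀ a ∈ range L.T, R.N ω₀ a τ ≤ (if a + 1 < L.T * (δ / 4) then 2 else 0) + δ / 4 +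
      K * (114 * ((Fintype.card A : ℝ)⁻¹ * ∑ l, R.E 0 (D a l) ω₀) + 3872 * η ^ 2) := by
    intro a ha
    have ha := mem_range.1 ha
    have hD0 : 0 ≤ (Fintype.card A : ℝ)⁻¹ * ∑ l, R.E 0 (D a l) ω₀ :=
      mul_nonneg (by positivity) (sum_nonneg fun l _ => R.E_nonneg 0 (R.Cov_self_nonneg _ _) ω₀)
    split_ifs with h
    · have := R.N_le_two_mul ω₀ a (γ := τ) (A := 1) zero_le_one hτ
      have h2 : 0 ≤ K * (114 * ((Fintype.card A : ℝ)⁻¹ * ∑ l, R.E 0 (D a l) ω₀) + 3872 * η ^ 2) := by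
        positivity
      linarith
    have hma : δ / 4 ≤ L.m a := by
      rw [hL.m_eq ha, le_div_iff₀ hT0]; push Not at h; linarith
    refine R.N_le ω₀ a fun Z hZ => ?_
    rw [← E_sum_apply, ← E_const_mul]
    have hpt : ∀ ω, (Fintype.card A : ℝ)⁻¹ * ∑ k, |R.Cov a (τ k) Z ω| ≤
        δ / 4 + K * (114 * ((Fintype.card A : ℝ)⁻¹ * ∑ l, D a l ω) + 3872 * η ^ 2) := by
      intro ω
      have h1 := avg_pow_four R hA ha τ hZ ω
      have h2 : (Fintype.card A : ℝ)⁻¹ * ∑ l, (Fintype.card A : ℝ)⁻¹ *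
          ∑ k, (R.E a (τ l * R.score a (τ k)) ω) ^ 2 ≤
          114 * ((Fintype.card A : ℝ)⁻¹ * ∑ l, D a l ω) + 3872 * η ^ 2 := by
        refine (mul_le_mul_of_nonneg_left (sum_le_sum fun l _ => hiii a ha ω l)
          (by positivity)).trans (le_of_eq ?_)
        rw [sum_add_distrib, ← mul_sum, sum_const, card_univ, nsmul_eq_mul]
        field_simp
      set x := (Fintype.card A : ℝ)⁻¹ * ∑ k, |R.Cov a (τ k) Z ω|
      refine (le_add_pow_four (x := x) (ε := δ / 4) (by positivity)).trans (add_le_add le_rfl ?_)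
      have h3 : (δ / 4) ^ 2 * x ^ 4 ≤ L.m a ^ 2 * x ^ 4 := by gcongr
      have h4 : x ^ 4 / (δ / 4) ^ 3 = K * ((δ / 4) ^ 2 * x ^ 4) := by rw [hK]; field_simp; ring
      rw [h4]
      exact mul_le_mul_of_nonneg_left (h3.trans (h1.trans h2)) hK0.le
    refine (R.E_mono 0 hpt ω₀).trans (le_of_eq ?_)
    rw [E_add_apply, E_const_mul, E_add_apply, E_const_mul, E_const_mul, E_sum_apply, E_const,
      E_const, zero_add]
  have hcount : ∑ a ∈ range L.T, (if (a : ℝ) + 1 < L.T * (δ / 4) then (2 : ℝ) else 0) ≤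
      L.T * (δ / 2) := by
    rw [← sum_filter, sum_const, nsmul_eq_mul]
    have h1 : (range L.T).filter (fun a : ℕ => (a : ℝ) + 1 < L.T * (δ / 4)) ⊆
        range ⌊L.T * (δ / 4)⌋₊ := by
      intro a ha
      rw [mem_range, ← Nat.add_one_le_iff]
      apply Nat.le_floor
      push_cast
      exact (mem_filter.1 ha).2.le
    have h2 := card_le_card h1
    rw [card_range] at h2
    have h3 : ((((range L.T).filter (fun a : ℕ => (a : ℝ) + 1 < L.T * (δ / 4))).card : ℕ) : ℝ) ≤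
        L.T * (δ / 4) :=
      le_trans (by exact_mod_cast h2) (Nat.floor_le (by positivity))
    linarith
  have htel : ∑ a ∈ range L.T, (Fintype.card A : ℝ)⁻¹ * ∑ l, R.E 0 (D a l) ω₀ ≤ 1 := by
    rw [← mul_sum, sum_comm, inv_mul_le_iff₀ (by linarith)]
    calc _ ≤ ∑ _l : A, (1 : ℝ) := sum_le_sum fun l _ => telescope R (hτ l) L.T ω₀
      _ = _ := by simp
  have h1 := sum_le_sum hN
  rw [sum_add_distrib, sum_add_distrib, ← mul_sum, sum_add_distrib, ← mul_sum, sum_const,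
    sum_const, card_range, nsmul_eq_mul, nsmul_eq_mul] at h1
  have hT1 : K * 114 * 8 / δ ≤ L.T := (Nat.le_ceil _).trans (by exact_mod_cast hT)
  have hM1 : K * 3872 * 8 / δ ≤ Fintype.card A :=
    (Nat.le_ceil _).trans (by exact_mod_cast (le_max_right _ _).trans hM)
  rw [div_le_iff₀ hδ] at hT1 hM1
  have hM2 : K * 3872 * η ^ 2 ≤ δ / 8 := by
    have := mul_le_mul_of_nonneg_left hM1 (sq_nonneg η)
    nlinarith
  rw [inv_mul_le_iff₀ hT0]
  have h2 := mul_le_mul_of_nonneg_left hM2 hT0.le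
  have h3 := mul_le_mul_of_nonneg_left htel hK0.le
  nlinarith

end Crest.Agent.R141
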