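import Crest.Agent.R141.Gam

/-! The replica expansion of `X a (log (1 - Y))` over random recursive trees. -/

set_option autoImplicit false
open Finset Function MeasureTheory Crest.ProbabilityR.Diluted
namespace Crest.Agent.R141
open Sys

theorem kap_nonneg {n₀ : ℕ} (d q : Fin (n₀ + 1)) : 0 ≤ kap d q := by
  unfold kap
  split_ifs <;> positivity

theorem sum_kap {n₀ : ℕ} (d : Fin (n₀ + 1)) : ∑ q, kap d q = 1 := by
  unfold kap
  by_cases hd : d = 0
  · simp [hd]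
  · have h0 : ((d : ℕ) : ℝ) ≠ 0 := by
      rw [Nat.cast_ne_zero]
      exact fun h => hd (Fin.ext h)
    simp only [if_neg hd]
    rw [← sum_filter, sum_const, show univ.filter (fun q => q < d) = Iio d by ext; simp,
      Fin.card_Iio, nsmul_eq_mul, mul_inv_cancel₀ h0]

theorem sum_prod_kap (n₀ : ℕ) :
    ∑ par : Fin (n₀ + 1) → Fin (n₀ + 1), ∏ d, kap d (par d) = 1 := by
  rw [← Fintype.piFinset_univ, ← Finset.prod_univ_sum (fun _ => univ) (fun d q => kap d q)]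
  simp [sum_kap]

theorem mem_nodes {n₀ n : ℕ} {d : Fin (n₀ + 1)} : d ∈ nodes n₀ n ↔ 0 < d ∧ (d : ℕ) < n := by
  simp [nodes]

theorem valid_of_kap {n₀ : ℕ} {par : Fin (n₀ + 1) → Fin (n₀ + 1)} (h : ∏ d, kap d (par d) ≠ 0)
    (n : ℕ) : Valid 0 (nodes n₀ n) par := by
  intro d hd
  obtain ⟨h1, h2⟩ := mem_nodes.1 hd
  have h3 := prod_ne_zero_iff.1 h d (mem_univ d)
  have h4 : par d < d := by
    by_contra hn
    exact h3 (by simp [kap, h1.ne', hn])
  refine ⟨h1, h4, ?_⟩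
  rcases (Fin.zero_le (par d)).eq_or_lt with h5 | h5
  · exact Or.inl h5.symm
  · exact Or.inr (mem_nodes.2 ⟨h5, (Fin.lt_def.1 h4).trans h2⟩)

theorem mem_insert_nodes {n₀ n : ℕ} (hn : 1 ≤ n) {d : Fin (n₀ + 1)} :
    d ∈ insert 0 (nodes n₀ n) ↔ (d : ℕ) < n := by
  rw [mem_insert, mem_nodes, Fin.lt_def, Fin.ext_iff]
  simp only [Fin.val_zero]
  omega

theorem card_insert_nodes {n₀ n : ℕ} (hn : 1 ≤ n) (hn' : n ≤ n₀ + 1) :
    (insert 0 (nodes n₀ n)).card = n := by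
  have : insert 0 (nodes n₀ n) = univ.filter fun d : Fin (n₀ + 1) => (d : ℕ) < n := by
    ext d; rw [mem_insert_nodes hn]; simp
  rw [this, Fin.card_filter_val_lt]
  omega

theorem nodes_one (n₀ : ℕ) : nodes n₀ 1 = ∅ := by
  ext d
  rw [mem_nodes, Fin.lt_def]
  simp only [Fin.val_zero, notMem_empty, iff_false]
  omega

theorem nodes_succ {n₀ n : ℕ} (hn : 1 ≤ n) (hn' : n < n₀ + 1) :
    nodes n₀ (n + 1) = insert ⟨n, hn'⟩ (nodes n₀ n) := by
  ext d
  rw [mem_insert, mem_nodes, mem_nodes, Fin.lt_def, Fin.ext_iff]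
  simp only [Fin.val_zero]
  omega

section
variable {L : Lev} {Ω : Type} [Fintype Ω] (S : Sys L Ω)

theorem rep_one (a n₀ : ℕ) (h : Fin (n₀ + 1) → Fn Ω) (ω : ℕ → Ω) :
    S.rep a n₀ 1 h ω = S.E a (h 0) ω := by
  unfold Sys.rep
  simp only [nodes_one, gam_empty, avgJ_const]
  rw [← sum_mul, sum_prod_kap, one_mul]

theorem abs_rep_le (a : ℕ) {n₀ n : ℕ} (hn : 1 ≤ n) (hn' : n ≤ n₀ + 1) {h : Fin (n₀ + 1) → Fn Ω}
    {z : ℝ} (hh : ∀ q ω, |h q ω| ≤ z) (ω : ℕ → Ω) : |S.rep a n₀ n h ω| ≤ z ^ n := by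
  unfold Sys.rep
  refine (abs_sum_le_sum_abs _ _).trans ?_
  rw [← one_mul (z ^ n), ← sum_prod_kap n₀, sum_mul]
  refine sum_le_sum fun par _ => ?_
  have h0 : 0 ≤ ∏ d, kap d (par d) := prod_nonneg fun d _ => kap_nonneg _ _
  rw [abs_mul, abs_of_nonneg h0]
  rcases h0.eq_or_lt with h1 | h1
  · rw [← h1, zero_mul, zero_mul]
  · refine mul_le_mul_of_nonneg_left ((abs_avgJ_le _).trans (avgJ_le fun J _ => ?_)) h0
    refine S.abs_E_le_of_le a (fun ω' => ?_) ω
    have := S.abs_gam_le_prod (valid_of_kap h1.ne' n) (lev (nodes n₀ n) par a J)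
      (A := fun _ => z) hh ω'
    rwa [prod_const, card_insert_nodes hn hn'] at this

theorem hasDerivAt_avgJ {ι : Type} [Fintype ι] [DecidableEq ι] {Φ : ℝ → (ι → ℕ) → ℝ}
    {Φ' : (ι → ℕ) → ℝ} {t : ℝ} (h : ∀ J, HasDerivAt (fun s => Φ s J) (Φ' J) t) :
    HasDerivAt (fun s => avgJ L ι (Φ s)) (avgJ L ι Φ') t :=
  HasDerivAt.fun_sum fun _ _ => (h _).const_mul _

/-- adding one replica -/
theorem E_gam_score {ι : Type} [LinearOrder ι] [WellFoundedLT ι] {r s q : ι} {nd : Finset ι}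
    {par : ι → ι} (hv : Valid r nd par) (hs : ∀ d ∈ insert r nd, d < s) (hq : q ∈ insert r nd)
    (a : ℕ) (J : ι → ℕ) (Z : Fn Ω) (ω : ℕ → Ω) :
    S.E a (S.gam nd par (lev nd par a J) (update (fun _ => Z) q
      (Z * Z + Z * S.score (lev nd par a J q) (-Z))) r) ω =
    ∑ x ∈ range L.T, L.p x * S.E a (S.gam (insert s nd) (update par s q)
      (lev (insert s nd) (update par s q) a (update J s x)) (fun _ => Z) r) ω := by
  obtain ⟨Λ, hΛ⟩ := S.exists_gam_linear hv (lev nd par a J) (fun _ => Z) hq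
  have h1 : Z * Z + Z * S.score (lev nd par a J q) (-Z) =
      ∑ x ∈ range L.T, L.p x • (Z * S.E (max (lev nd par a J q) x) Z) := by
    ext ω'
    simp only [score, map_neg, Pi.add_apply, Pi.mul_apply, Pi.neg_apply, Finset.sum_apply,
      Pi.smul_apply, smul_eq_mul, mul_neg, sum_neg_distrib, mul_sub, mul_sum]
    rw [sub_neg_eq_add, add_neg_cancel_left]
    exact sum_congr rfl fun x _ => by ring
  rw [hΛ, h1, map_sum, map_sum, Finset.sum_apply]
  refine sum_congr rfl fun x _ => ?_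
  rw [map_smul, map_smul, Pi.smul_apply, smul_eq_mul, ← hΛ]
  have h2 := S.gam_insert_leaf hv hs hq (c := lev nd par a J)
    (c' := lev (insert s nd) (update par s q) a (update J s x))
    (fun d hd => lev_insert_of_lt (hs d (mem_insert_of_mem hd)) a x J) (fun _ => Z) Z
  rw [update_eq_self, lev_insert_self (hs q hq)] at h2
  rw [h2]

theorem hasDerivAt_rep (a : ℕ) {n₀ n : ℕ} (hn : 1 ≤ n) (hn' : n ≤ n₀) {H Z : ℝ → Fn Ω} {t : ℝ}
    (hH : ∀ ω, HasDerivAt (fun s => H s ω) ((-Z t) ω) t)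
    (hZ : ∀ ω, HasDerivAt (fun s => Z s ω) ((Z t * Z t) ω) t) (ω : ℕ → Ω) :
    HasDerivAt (fun s => (S.tilt (H s)).rep a n₀ n (fun _ => Z s) ω)
      (n * (S.tilt (H t)).rep a n₀ (n + 1) (fun _ => Z t) ω) t := by
  set s₀ : Fin (n₀ + 1) := ⟨n, by omega⟩ with hs₀
  set St := S.tilt (H t) with hSt
  set Ψ : (Fin (n₀ + 1) → Fin (n₀ + 1)) → ℝ := fun par => avgJ L (Fin (n₀ + 1)) fun J =>
    St.E a (St.gam (nodes n₀ (n + 1)) par (lev (nodes n₀ (n + 1)) par a J) (fun _ => Z t) 0) ω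
    with hΨ
  have hs : ∀ d ∈ insert 0 (nodes n₀ n), d < s₀ := fun d hd => (mem_insert_nodes hn).1 hd
  have hn0 : (n : ℝ) ≠ 0 := by positivity
  have hval : (n : ℝ) * St.rep a n₀ (n + 1) (fun _ => Z t) ω =
      ∑ par : Fin (n₀ + 1) → Fin (n₀ + 1), (∏ d, kap d (par d)) *
        ∑ q ∈ insert 0 (nodes n₀ n), Ψ (update par s₀ q) := by
    unfold Sys.rep
    rw [← sum_prod_update (fun d q => kap d q) s₀ (sum_kap s₀) Ψ, mul_sum]
    refine sum_congr rfl fun par _ => ?_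
    rw [mul_left_comm, mul_sum, ← sum_subset (subset_univ (insert 0 (nodes n₀ n)))]
    · congr 1
      refine sum_congr rfl fun q hq => ?_
      have h1 : s₀ ≠ 0 := (hs 0 (mem_insert_self _ _)).ne'
      rw [kap, if_neg h1, if_pos (hs q hq), ← mul_assoc, mul_inv_cancel₀ hn0, one_mul]
    · intro q _ hq
      have h1 : s₀ ≠ 0 := (hs 0 (mem_insert_self _ _)).ne'
      have h2 : ¬ q < s₀ := fun h => hq ((mem_insert_nodes hn).2 h)
      rw [kap, if_neg h1, if_neg h2, zero_mul, mul_zero]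
  rw [hval]
  unfold Sys.rep
  refine HasDerivAt.fun_sum fun par _ => ?_
  by_cases h0 : ∏ d, kap d (par d) = 0
  · simp only [h0, zero_mul]
    exact hasDerivAt_const _ _
  have hv := valid_of_kap h0 n
  refine HasDerivAt.const_mul _ ?_
  have h1 : ∀ J : Fin (n₀ + 1) → ℕ, HasDerivAt (fun s => (S.tilt (H s)).E a
      ((S.tilt (H s)).gam (nodes n₀ n) par (lev (nodes n₀ n) par a J) (fun _ => Z s) 0) ω)
      (∑ q ∈ insert 0 (nodes n₀ n), ∑ x ∈ range L.T, L.p x *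
        St.E a (St.gam (nodes n₀ (n + 1)) (update par s₀ q)
          (lev (nodes n₀ (n + 1)) (update par s₀ q) a (update J s₀ x)) (fun _ => Z t) 0) ω) t := by
    intro J
    have h2 := S.hasDerivAt_E_gam hv (lev (nodes n₀ n) par a J) (h := fun s _ => Z s)
      (h' := fun _ => Z t * Z t) hH (fun _ => hZ) ω
    rw [lev_of_notMem hv.root_notMem] at h2
    refine h2.congr_deriv (sum_congr rfl fun q hq => ?_)
    rw [nodes_succ hn (by omega)]
    exact E_gam_score St hv hs hq a J (Z t) ω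
  refine (hasDerivAt_avgJ h1).congr_deriv ?_
  rw [avgJ_sum]
  exact sum_congr rfl fun q _ => avgJ_update s₀ fun J =>
    St.E a (St.gam (nodes n₀ (n + 1)) (update par s₀ q)
      (lev (nodes n₀ (n + 1)) (update par s₀ q) a J) (fun _ => Z t) 0) ω

end

theorem X_expand {L : Lev} {Ω : Type} [Fintype Ω] (S : Sys L Ω) (a : ℕ) (Y : Fn Ω) (y : ℝ)
    (hy : 0 ≤ y) (hy1 : y < 1) (hY : ∀ ω, |Y ω| ≤ y) (n₀ : ℕ) (ω : ℕ → Ω) :
    |S.X a (fun ω' => Real.log (1 - Y ω')) ω +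
      ∑ k ∈ range n₀, (1 / (k + 1 : ℝ)) * S.rep a n₀ (k + 1) (fun _ => Y) ω| ≤
      y ^ (n₀ + 1) / (1 - y) := by
  set H : ℝ → Fn Ω := fun s ω' => Real.log (1 - s * Y ω') with hH
  set Z : ℝ → Fn Ω := fun s ω' => Y ω' / (1 - s * Y ω') with hZ
  set φ : ℕ → ℝ → ℝ := fun n s => (S.tilt (H s)).rep a n₀ n (fun _ => Z s) ω with hφ
  have hlow : ∀ t ∈ Set.Icc (0 : ℝ) 1, ∀ ω', 1 - t * y ≤ 1 - t * Y ω' := fun t ht ω' =>
    sub_le_sub_left (mul_le_mul_of_nonneg_left (abs_le.1 (hY ω')).2 ht.1) 1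
  have hpos : ∀ t ∈ Set.Icc (0 : ℝ) 1, 0 < 1 - t * y := fun t ht => by nlinarith [ht.1, ht.2]
  have hdH : ∀ t ∈ Set.Icc (0 : ℝ) 1, ∀ ω', HasDerivAt (fun s => H s ω') ((-Z t) ω') t := by
    intro t ht ω'
    have h1 := ((hpos t ht).trans_le (hlow t ht ω')).ne'
    refine ((((hasDerivAt_id t).mul_const (Y ω')).const_sub 1).log h1).congr_deriv ?_
    simp only [hZ, Pi.neg_apply, id]
    ring
  have hdZ : ∀ t ∈ Set.Icc (0 : ℝ) 1, ∀ ω', HasDerivAt (fun s => Z s ω') ((Z t * Z t) ω') t := by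
    intro t ht ω'
    have h1 := ((hpos t ht).trans_le (hlow t ht ω')).ne'
    refine ((hasDerivAt_const t (Y ω')).div
      (((hasDerivAt_id t).mul_const (Y ω')).const_sub 1) h1).congr_deriv ?_
    simp only [hZ, Pi.mul_apply, id]
    field_simp
    ring
  have hd : ∀ t ∈ Set.Icc (0 : ℝ) 1, HasDerivAt
      (fun s => S.X a (H s) ω - ∑ k ∈ range n₀, (1 - s) ^ (k + 1) / (k + 1 : ℝ) * φ (k + 1) s)
      (-((1 - t) ^ n₀ * φ (n₀ + 1) t)) t := by
    intro t ht
    have h1 := S.hasDerivAt_X a (hdH t ht) ω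
    have h2 : HasDerivAt (fun s => ∑ k ∈ range n₀, (1 - s) ^ (k + 1) / (k + 1 : ℝ) * φ (k + 1) s)
        (∑ k ∈ range n₀, ((1 - t) ^ (k + 1) * φ (k + 1 + 1) t - (1 - t) ^ k * φ (k + 1) t)) t := by
      refine HasDerivAt.fun_sum fun k hk => ?_
      have h3 := hasDerivAt_rep S a (n₀ := n₀) (n := k + 1) (by omega) (mem_range.1 hk)
        (hdH t ht) (hdZ t ht) ω
      refine (((((hasDerivAt_id t).const_sub 1).pow (k + 1)).div_const (k + 1 : ℝ)).mul
        h3).congr_deriv ?_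
      have : (k + 1 : ℝ) ≠ 0 := by positivity
      simp only [hφ, id, Pi.pow_apply, Nat.add_sub_cancel]
      push_cast
      field_simp
      ring
    refine (h1.sub h2).congr_deriv ?_
    rw [sum_range_sub (fun k => (1 - t) ^ k * φ (k + 1) t), map_neg]
    simp only [hφ, zero_add, rep_one, pow_zero, Pi.neg_apply]
    ring
  have hb : ∀ t ∈ Set.Ico (0 : ℝ) 1, ‖-((1 - t) ^ n₀ * φ (n₀ + 1) t)‖ ≤ y ^ (n₀ + 1) / (1 - y) := by
    intro t ht'
    have ht : t ∈ Set.Icc (0 : ℝ) 1 := ⟨ht'.1, ht'.2.le⟩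
    have hp := hpos t ht
    have h1 : |φ (n₀ + 1) t| ≤ (y / (1 - t * y)) ^ (n₀ + 1) := by
      refine abs_rep_le _ a (by omega) le_rfl (fun _ ω' => ?_) ω
      simp only [hZ]
      rw [abs_div, abs_of_pos (hp.trans_le (hlow t ht ω'))]
      exact div_le_div₀ hy (hY ω') hp (hlow t ht ω')
    have h2 : 0 ≤ 1 - t := by linarith [ht.2]
    have h3 : (1 - t) ^ n₀ ≤ (1 - t * y) ^ n₀ :=
      pow_le_pow_left₀ h2 (by nlinarith [ht.1]) n₀
    rw [norm_neg, Real.norm_eq_abs, abs_mul, abs_of_nonneg (pow_nonneg h2 _)]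
    calc (1 - t) ^ n₀ * |φ (n₀ + 1) t| ≤ (1 - t * y) ^ n₀ * (y / (1 - t * y)) ^ (n₀ + 1) :=
          mul_le_mul h3 h1 (abs_nonneg _) (pow_nonneg hp.le _)
      _ = y ^ (n₀ + 1) / (1 - t * y) := by
          rw [div_pow]; field_simp; ring
      _ ≤ y ^ (n₀ + 1) / (1 - y) :=
          div_le_div_of_nonneg_left (pow_nonneg hy _) (by linarith) (by nlinarith [ht.2])
  have key := norm_image_sub_le_of_norm_deriv_le_segment_01'
    (fun t ht => (hd t ht).hasDerivWithinAt) hb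
  have e0 : H 0 = 0 := by ext ω'; simp [hH]
  have e1 : Z 0 = Y := by ext ω'; simp [hZ]
  have e2 : H 1 = fun ω' => Real.log (1 - Y ω') := by ext ω'; simp [hH]
  have e3 : S.X a 0 ω = 0 := congrFun (S.X_const a 0) ω
  simp only [hφ, e0, e1, e2, e3, tilt_zero, sub_self, sub_zero, one_pow, zero_sub,
    sub_neg_eq_add, Real.norm_eq_abs, zero_pow (Nat.succ_ne_zero _), zero_div, zero_mul,
    sum_const_zero] at key
  exact key

theorem exists_tup {L : Lev} {Ω ι : Type} [Fintype Ω] [LinearOrder ι] (S : Sys L Ω) (r : ι)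
    (nd : Finset ι) (par : ι → ι) (hv : Valid r nd par) (c : ι → ℕ) (a : ℕ) (ω : ℕ → Ω) :
    ∃ Λ : ((ι → ℕ → Ω) → ℝ) →ₗ[ℝ] ℝ, (∀ F, (∀ x, 0 ≤ F x) → 0 ≤ Λ F) ∧
      ∀ h : ι → Fn Ω, Λ (fun x => ∏ q ∈ insert r nd, h q (x q)) =
        S.E a (S.gam nd par c h r) ω := by
  induction nd using Finset.induction_on_max with
  | empty =>
    refine ⟨LinearMap.proj ω ∘ₗ S.E a ∘ₗ LinearMap.funLeft ℝ ℝ (fun w _ => w),
      fun F hF => S.E_nonneg a (fun w => hF _) ω, fun h => ?_⟩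
    simp only [gam_empty, insert_empty_eq, prod_singleton]
    rfl
  | insert s nd hs ih =>
    obtain ⟨Λ, h0, hΛ⟩ := ih (hv.of_insert hs)
    have hsn : s ∉ nd := fun hb => lt_irrefl _ (hs s hb)
    have hsr : s ≠ r := (hv s (mem_insert_self _ _)).1.ne'
    have hs' : s ∉ insert r nd := by simp [hsn, hsr]
    refine ⟨Λ ∘ₗ LinearMap.pi fun x : ι → ℕ → Ω => LinearMap.proj (x (par s)) ∘ₗ S.E (c s) ∘ₗ
      LinearMap.funLeft ℝ ℝ (fun w => update x s w),
      fun F hF => h0 _ fun x => ?_, fun h => ?_⟩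
    · exact S.E_nonneg (c s) (f := fun w => F (update x s w)) (fun w => hF _) (x (par s))
    rw [gam_insert_max _ hs, ← hΛ, LinearMap.comp_apply]
    congr 1
    ext x
    have h1 : (LinearMap.funLeft ℝ ℝ (fun w => update x s w))
        (fun x => ∏ q ∈ insert r (insert s nd), h q (x q)) =
        (∏ q ∈ insert r nd, h q (x q)) • h s := by
      ext w
      rw [LinearMap.funLeft_apply, Finset.insert_comm, prod_insert hs', update_self,
        Pi.smul_apply, smul_eq_mul, mul_comm]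
      congr 1
      exact prod_congr rfl fun q hq => by rw [update_of_ne fun e : q = s => hs' (e ▸ hq)]
    rw [LinearMap.pi_apply, LinearMap.comp_apply, LinearMap.comp_apply, h1, map_smul,
      LinearMap.proj_apply, Pi.smul_apply, smul_eq_mul, ← mul_prod_erase _ _ hv.par_mem,
      ← mul_prod_erase _ _ hv.par_mem, update_self, Pi.mul_apply,
      prod_congr rfl fun q hq => congrFun (update_of_ne (ne_of_mem_erase hq) _ h) (x q)]
    ring

theorem abs_tilt_E_zero_sub {L : Lev} {Ω : Type} [Fintype Ω] (S : Sys L Ω) (a : ℕ) {W g : Fn Ω}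
    {B A : ℝ} (hW : ∀ ω, |W ω| ≤ B) (hg : Meas L a g) (hA : ∀ ω, |g ω| ≤ A) (ω : ℕ → Ω) :
    |(S.tilt W).E 0 g ω - S.E 0 g ω| ≤ (Real.exp (2 * B * L.m a) - 1) * A := by
  set u : Fn Ω := ∑ J ∈ range L.T, fun ω' => L.p J * (S.X (max a J) W ω' - S.X J W ω') with hu
  have hB : 0 ≤ B := (abs_nonneg _).trans (hW ω)
  have hum : Meas L a u := Meas.sum _ fun J _ => by
    rcases le_total a J with h | h
    · simp only [max_eq_right h, sub_self]
      exact Meas.const _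
    · rw [max_eq_left h]
      exact (S.X_meas a W).map₂ ((S.X_meas J W).mono h) fun x y => L.p J * (x - y)
  have hub : ∀ ω', |u ω'| ≤ 2 * B * L.m a := by
    intro ω'
    rw [hu, Finset.sum_apply]
    refine (abs_sum_le_sum_abs _ _).trans ?_
    calc ∑ J ∈ range L.T, |L.p J * (S.X (max a J) W ω' - S.X J W ω')|
        ≤ ∑ J ∈ range L.T, if J < a + 1 then 2 * B * L.p J else 0 := by
          refine sum_le_sum fun J _ => ?_
          split_ifs with h
          · rw [abs_mul, abs_of_nonneg (L.p_nonneg J), mul_comm]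
            refine mul_le_mul_of_nonneg_right ?_ (L.p_nonneg J)
            have := abs_sub (S.X (max a J) W ω') (S.X J W ω')
            linarith [S.abs_X_le (max a J) hW ω', S.abs_X_le J hW ω']
          · rw [max_eq_right (by omega), sub_self, mul_zero, abs_zero]
      _ ≤ ∑ J ∈ range (a + 1), 2 * B * L.p J := by
          rw [← sum_filter]
          refine sum_le_sum_of_subset_of_nonneg (fun J hJ => mem_range.2 (mem_filter.1 hJ).2)
            fun J _ _ => mul_nonneg (by positivity) (L.p_nonneg J)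
      _ = 2 * B * L.m a := by rw [← mul_sum, L.sum_p]
  have h1 : S.rho 0 W * g = ((fun ω' => Real.exp (u ω')) * g) * S.rho a W := by
    ext ω'
    simp only [rho, Pi.mul_apply, hu, Finset.sum_apply, mul_sub, sum_sub_distrib, Nat.zero_max]
    rw [mul_right_comm, ← Real.exp_add]
    congr 2
    ring
  rw [tilt_E, ← S.E_E (Nat.zero_le a) (S.rho 0 W * g), h1, S.E_mul ((hum.map Real.exp).mul hg),
    E_rho, mul_one, ← E_sub_apply]
  refine S.abs_E_le_of_le 0 (fun ω' => ?_) ω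
  have h2 : |Real.exp (u ω') - 1| ≤ Real.exp (2 * B * L.m a) - 1 := by
    have h3 := Real.exp_le_exp.2 (abs_le.1 (hub ω')).2
    have h4 := Real.exp_le_exp.2 (abs_le.1 (hub ω')).1
    rw [abs_le]
    constructor <;>
      linarith [Real.add_one_le_exp (2 * B * L.m a), Real.add_one_le_exp (-(2 * B * L.m a))]
  rw [Pi.mul_apply, ← sub_one_mul, abs_mul]
  exact mul_le_mul h2 (hA ω') (abs_nonneg _) ((abs_nonneg _).trans h2)

theorem abs_X_zero_sub {L : Lev} {Ω : Type} [Fintype Ω] (S : Sys L Ω) (a : ℕ) {V : Fn Ω} {B : ℝ}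
    (hV : ∀ ω, |V ω| ≤ B) (ω : ℕ → Ω) :
    |S.X 0 V ω - S.E 0 (S.X a V) ω| ≤ (Real.exp (2 * B * L.m a) - 1) * B := by
  have hH : ∀ (t : ℝ) ω', HasDerivAt (fun s : ℝ => (s • V) ω') (V ω') t := fun t ω' => by
    simpa using (hasDerivAt_id t).mul_const (V ω')
  have hd : ∀ t : ℝ, HasDerivAt (fun s : ℝ => S.X 0 (s • V) ω - S.E 0 (S.X a (s • V)) ω)
      ((S.tilt (t • V)).E 0 ((S.tilt (t • V)).E a V) ω - S.E 0 ((S.tilt (t • V)).E a V) ω) t := by
    intro t
    rw [E_E _ (Nat.zero_le a)]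
    exact (S.hasDerivAt_X 0 (hH t) ω).sub (S.hasDerivAt_E 0 (S.hasDerivAt_X a (hH t)) ω)
  have key := norm_image_sub_le_of_norm_deriv_le_segment_01'
    (C := (Real.exp (2 * B * L.m a) - 1) * B) (fun t _ => (hd t).hasDerivWithinAt) fun t ht =>
      abs_tilt_E_zero_sub S a (fun ω' => by
        rw [Pi.smul_apply, smul_eq_mul, abs_mul, abs_of_nonneg ht.1]
        exact (mul_le_of_le_one_left (abs_nonneg _) ht.2.le).trans (hV ω'))
        (E_meas _ _ _) (abs_E_le_of_le _ a hV) ω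
  have e3 : ∀ c, S.X c 0 = 0 := fun c => S.X_const c 0
  simpa only [one_smul, zero_smul, e3, map_zero, Pi.zero_apply, sub_zero, Real.norm_eq_abs]
    using key

end Crest.Agent.R141
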