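import Mathlib

/-! Finite hierarchical systems: power-mean recursion `X`, tilted conditional expectations `E`. -/

set_option autoImplicit false
open Finset Function

namespace Crest.Agent.R141

/-- `T` levels (coordinates `0, …, T-1`), coordinate `j` has exponent `m j`. -/
structure Lev where
  T : ℕ
  m : ℕ → ℝ
  T_pos : 0 < T
  m_pos : ∀ j, 0 < m j
  mono : Monotone m
  last : m (T - 1) = 1

/-- branching weights -/
def Lev.p (L : Lev) (J : ℕ) : ℝ := if J = 0 then L.m 0 else L.m J - L.m (J - 1)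

theorem Lev.p_nonneg (L : Lev) (J : ℕ) : 0 ≤ L.p J := by
  unfold Lev.p
  split_ifs with h
  · exact (L.m_pos 0).le
  · exact sub_nonneg.2 (L.mono (Nat.sub_le _ _))

theorem Lev.sum_p (L : Lev) (c : ℕ) : ∑ J ∈ range (c + 1), L.p J = L.m c := by
  induction c with
  | zero => simp [Lev.p]
  | succ c ih => rw [sum_range_succ, ih]; simp [Lev.p]

theorem Lev.sum_p_T (L : Lev) : ∑ J ∈ range L.T, L.p J = 1 := by
  have := L.sum_p (L.T - 1)
  rwa [Nat.sub_add_cancel L.T_pos, L.last] at this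

theorem Lev.m_le_one (L : Lev) {j : ℕ} (hj : j < L.T) : L.m j ≤ 1 := by
  rw [← L.last]; exact L.mono (by omega)

/-- functions of paths -/
abbrev Fn (Ω : Type) := (ℕ → Ω) → ℝ

/-- transition weights: `w j ω` is the weight of `ω j` given `ω 0, …, ω (j-1)`. -/
structure Sys (L : Lev) (Ω : Type) [Fintype Ω] where
  w : ℕ → (ℕ → Ω) → ℝ
  pos : ∀ j ω, 0 < w j ω
  sum_one : ∀ j ω, ∑ x, w j (update ω j x) = 1
  meas : ∀ j k ω x, j < k → k < L.T → w j (update ω k x) = w j ω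

/-- `f` does not depend on the coordinates in `[c, T)`. -/
def Meas (L : Lev) {Ω : Type} (c : ℕ) (f : Fn Ω) : Prop :=
  ∀ ω j x, c ≤ j → j < L.T → f (update ω j x) = f ω

theorem down_ind (T : ℕ) {P : ℕ → Prop} (h1 : ∀ c, T ≤ c → P c) (h2 : ∀ c, c < T → P (c + 1) → P c)
    (c : ℕ) : P c := by
  by_cases h : T ≤ c
  · exact h1 c h
  · have : ∀ k, k ≤ T → P (T - k) := by
      intro k
      induction k with
      | zero => intro _; exact h1 _ (by simp)
      | succ k ih =>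
        intro hk
        apply h2 _ (by omega)
        have := ih (by omega)
        rwa [show T - (k + 1) + 1 = T - k by omega]
    have := this (T - c) (by omega)
    rwa [show T - (T - c) = c by omega] at this

section Meas
variable {L : Lev} {Ω : Type} {c : ℕ} {f g : Fn Ω}

theorem Meas.mono (h : Meas L c f) {c' : ℕ} (hc : c ≤ c') : Meas L c' f :=
  fun ω j x h1 h2 => h ω j x (hc.trans h1) h2

theorem Meas.const (a : ℝ) : Meas L c (fun _ : ℕ → Ω => a) := fun _ _ _ _ _ => rfl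

theorem Meas.of_le (h : L.T ≤ c) : Meas L c f := fun _ _ _ h1 h2 => by omega

theorem Meas.map₂ (hf : Meas L c f) (hg : Meas L c g) (F : ℝ → ℝ → ℝ) :
    Meas L c (fun ω => F (f ω) (g ω)) := fun ω j x h1 h2 => by
  simp only [hf ω j x h1 h2, hg ω j x h1 h2]

theorem Meas.map (hf : Meas L c f) (F : ℝ → ℝ) : Meas L c (fun ω => F (f ω)) :=
  fun ω j x h1 h2 => by simp only [hf ω j x h1 h2]

theorem Meas.mul (hf : Meas L c f) (hg : Meas L c g) : Meas L c (f * g) := hf.map₂ hg (· * ·)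
theorem Meas.add (hf : Meas L c f) (hg : Meas L c g) : Meas L c (f + g) := hf.map₂ hg (· + ·)
theorem Meas.sub (hf : Meas L c f) (hg : Meas L c g) : Meas L c (f - g) := hf.map₂ hg (· - ·)

theorem Meas.sum {ι : Type} (s : Finset ι) {F : ι → Fn Ω} (h : ∀ i ∈ s, Meas L c (F i)) :
    Meas L c (∑ i ∈ s, F i) := fun ω j x h1 h2 => by
  simp only [Finset.sum_apply]
  exact sum_congr rfl fun i hi => h i hi ω j x h1 h2

theorem Meas.prod {ι : Type} (s : Finset ι) {F : ι → Fn Ω} (h : ∀ i ∈ s, Meas L c (F i)) :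
    Meas L c (∏ i ∈ s, F i) := fun ω j x h1 h2 => by
  simp only [Finset.prod_apply]
  exact prod_congr rfl fun i hi => h i hi ω j x h1 h2

/-- a function of coordinate `j` -/
theorem Meas.coord {j : ℕ} (hj : j < c) (F : Ω → ℝ) : Meas L c (fun ω : ℕ → Ω => F (ω j)) :=
  fun ω k x h1 _ => by simp only [update_of_ne (show j ≠ k by omega)]
end Meas

namespace Sys
variable {L : Lev} {Ω : Type} [Fintype Ω] (S : Sys L Ω)

/-- one-step conditional expectation over coordinate `j` -/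
def P (j : ℕ) : Fn Ω →ₗ[ℝ] Fn Ω where
  toFun f := fun ω => ∑ x, S.w j (update ω j x) * f (update ω j x)
  map_add' f g := by ext ω; simp [mul_add, sum_add_distrib]
  map_smul' a f := by ext ω; simp [mul_sum, mul_left_comm]

theorem P_apply (j : ℕ) (f : Fn Ω) (ω : ℕ → Ω) :
    S.P j f ω = ∑ x, S.w j (update ω j x) * f (update ω j x) := rfl

def Ek : ℕ → ℕ → (Fn Ω →ₗ[ℝ] Fn Ω)
  | 0, _ => LinearMap.id
  | k + 1, c => S.P c ∘ₗ Ek k (c + 1)

/-- conditional expectation given the coordinates `< c` (integrates coordinates `c, …, T-1`) -/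
def E (c : ℕ) : Fn Ω →ₗ[ℝ] Fn Ω := S.Ek (L.T - c) c

theorem E_of_le {c : ℕ} (h : L.T ≤ c) (f : Fn Ω) : S.E c f = f := by
  simp [E, Nat.sub_eq_zero_of_le h, Ek]

theorem E_of_lt {c : ℕ} (h : c < L.T) (f : Fn Ω) : S.E c f = S.P c (S.E (c + 1) f) := by
  simp only [E]
  rw [show L.T - c = (L.T - (c + 1)) + 1 by omega]
  rfl

/-- one power-mean step -/
noncomputable def Q (m : ℝ) (j : ℕ) (V : Fn Ω) : Fn Ω :=
  fun ω => (1 / m) * Real.log (S.P j (fun ω' => Real.exp (m * V ω')) ω)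

/-- power-mean recursion over the coordinates `c, …, c+k-1` -/
noncomputable def Xk : ℕ → ℕ → Fn Ω → Fn Ω
  | 0, _, V => V
  | k + 1, c, V => S.Q (L.m c) c (Xk k (c + 1) V)

/-- power-mean recursion over the coordinates `c, …, T-1` -/
noncomputable def X (c : ℕ) (V : Fn Ω) : Fn Ω := S.Xk (L.T - c) c V

theorem X_of_le {c : ℕ} (h : L.T ≤ c) (V : Fn Ω) : S.X c V = V := by
  simp [X, Nat.sub_eq_zero_of_le h, Xk]

theorem X_of_lt {c : ℕ} (h : c < L.T) (V : Fn Ω) : S.X c V = S.Q (L.m c) c (S.X (c + 1) V) := by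
  simp only [X]
  rw [show L.T - c = (L.T - (c + 1)) + 1 by omega]
  rfl

theorem Xk_X (k c : ℕ) (h : c + k ≤ L.T) (V : Fn Ω) : S.Xk k c (S.X (c + k) V) = S.X c V := by
  induction k generalizing c with
  | zero => rfl
  | succ k ih =>
    rw [X_of_lt S (show c < L.T by omega), Xk, show c + (k + 1) = (c + 1) + k by omega,
      ih (c + 1) (by omega)]

/-! ### basic properties of `P` and `E` -/

theorem P_mono {j : ℕ} {f g : Fn Ω} (h : ∀ ω, f ω ≤ g ω) (ω : ℕ → Ω) : S.P j f ω ≤ S.P j g ω :=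
  sum_le_sum fun _ _ => mul_le_mul_of_nonneg_left (h _) (S.pos _ _).le

theorem P_const (j : ℕ) (a : ℝ) : S.P j (fun _ => a) = fun _ => a := by
  ext ω; rw [P_apply, ← sum_mul, S.sum_one, one_mul]

theorem P_pos {j : ℕ} {f : Fn Ω} (h : ∀ ω, 0 < f ω) (ω : ℕ → Ω) : 0 < S.P j f ω := by
  have hne : (univ : Finset Ω).Nonempty := ⟨ω 0, mem_univ _⟩
  exact sum_pos (fun _ _ => mul_pos (S.pos _ _) (h _)) hne

theorem P_meas {c : ℕ} {f : Fn Ω} (hf : Meas L (c + 1) f) : Meas L c (S.P c f) := by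
  intro ω j x h1 h2
  simp only [P_apply]
  refine sum_congr rfl fun y _ => ?_
  rcases h1.eq_or_lt with rfl | h1
  · simp
  · rw [update_comm (show j ≠ c by omega), S.meas c j _ _ h1 h2, hf _ _ _ h1 h2]

theorem P_mul {c : ℕ} (hc : c < L.T) {g : Fn Ω} (hg : Meas L c g) (f : Fn Ω) :
    S.P c (g * f) = g * S.P c f := by
  ext ω
  simp only [P_apply, Pi.mul_apply, mul_sum, hg ω c _ le_rfl hc]
  exact sum_congr rfl fun _ _ => by ring

theorem E_mono (c : ℕ) {f g : Fn Ω} (h : ∀ ω, f ω ≤ g ω) (ω : ℕ → Ω) : S.E c f ω ≤ S.E c g ω := by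
  induction c using down_ind L.T generalizing ω with
  | h1 c hc => simpa [S.E_of_le hc] using h ω
  | h2 c hc ih => rw [S.E_of_lt hc, S.E_of_lt hc]; exact S.P_mono ih ω

theorem E_const (c : ℕ) (a : ℝ) : S.E c (fun _ => a) = fun _ => a := by
  induction c using down_ind L.T with
  | h1 c hc => exact S.E_of_le hc _
  | h2 c hc ih => rw [S.E_of_lt hc, ih, P_const]

theorem E_one (c : ℕ) : S.E c 1 = 1 := S.E_const c 1

theorem E_nonneg (c : ℕ) {f : Fn Ω} (h : ∀ ω, 0 ≤ f ω) (ω : ℕ → Ω) : 0 ≤ S.E c f ω := by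
  have := S.E_mono c (f := fun _ => 0) h ω
  rwa [E_const] at this

theorem E_pos (c : ℕ) {f : Fn Ω} (h : ∀ ω, 0 < f ω) (ω : ℕ → Ω) : 0 < S.E c f ω := by
  induction c using down_ind L.T generalizing ω with
  | h1 c hc => simpa [S.E_of_le hc] using h ω
  | h2 c hc ih => rw [S.E_of_lt hc]; exact S.P_pos ih ω

theorem E_le (c : ℕ) {f : Fn Ω} {B : ℝ} (h : ∀ ω, f ω ≤ B) (ω : ℕ → Ω) : S.E c f ω ≤ B := by
  have := S.E_mono c (g := fun _ => B) h ω
  rwa [E_const] at this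

theorem le_E (c : ℕ) {f : Fn Ω} {B : ℝ} (h : ∀ ω, B ≤ f ω) (ω : ℕ → Ω) : B ≤ S.E c f ω := by
  have := S.E_mono c (f := fun _ => B) h ω
  rwa [E_const] at this

theorem abs_E_le (c : ℕ) (f : Fn Ω) (ω : ℕ → Ω) : |S.E c f ω| ≤ S.E c (fun ω' => |f ω'|) ω := by
  rw [abs_le]
  refine ⟨?_, S.E_mono c (fun ω' => le_abs_self _) ω⟩
  have := S.E_mono c (f := -fun ω' => |f ω'|) (g := f) (fun ω' => neg_abs_le _) ω
  rwa [map_neg] at this

theorem abs_E_le_of_le (c : ℕ) {f : Fn Ω} {B : ℝ} (h : ∀ ω, |f ω| ≤ B) (ω : ℕ → Ω) :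
    |S.E c f ω| ≤ B := (S.abs_E_le c f ω).trans (S.E_le c h ω)

theorem E_meas (c : ℕ) (f : Fn Ω) : Meas L c (S.E c f) := by
  induction c using down_ind L.T with
  | h1 c hc => exact Meas.of_le hc
  | h2 c hc ih => rw [S.E_of_lt hc]; exact S.P_meas ih

/-- pull-out property -/
theorem E_mul {c : ℕ} {g : Fn Ω} (hg : Meas L c g) (f : Fn Ω) : S.E c (g * f) = g * S.E c f := by
  induction c using down_ind L.T with
  | h1 c hc => rw [S.E_of_le hc, S.E_of_le hc]
  | h2 c hc ih =>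
    rw [S.E_of_lt hc, S.E_of_lt hc, ih (hg.mono (Nat.le_succ c)), S.P_mul hc hg]

theorem E_mul' {c : ℕ} {g : Fn Ω} (hg : Meas L c g) (f : Fn Ω) : S.E c (f * g) = S.E c f * g := by
  rw [mul_comm, S.E_mul hg, mul_comm]

theorem E_of_meas {c : ℕ} {g : Fn Ω} (hg : Meas L c g) : S.E c g = g := by
  have := S.E_mul hg 1
  rwa [mul_one, E_one, mul_one] at this

/-- tower property -/
theorem E_E {c c' : ℕ} (h : c ≤ c') (f : Fn Ω) : S.E c (S.E c' f) = S.E c f := by
  induction c using down_ind L.T with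
  | h1 c hc => rw [S.E_of_le hc, S.E_of_le hc, S.E_of_le (hc.trans h)]
  | h2 c hc ih =>
    rcases h.eq_or_lt with rfl | h
    · exact S.E_of_meas (S.E_meas _ _)
    · rw [S.E_of_lt hc, S.E_of_lt hc, ih h]

theorem E_E' {c c' : ℕ} (h : c ≤ c') (f : Fn Ω) : S.E c' (S.E c f) = S.E c f :=
  S.E_of_meas ((S.E_meas c f).mono h)

theorem E_sum_apply {ι : Type} (s : Finset ι) (c : ℕ) (F : ι → Fn Ω) (ω : ℕ → Ω) :
    S.E c (fun ω' => ∑ i ∈ s, F i ω') ω = ∑ i ∈ s, S.E c (F i) ω := by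
  have : (fun ω' => ∑ i ∈ s, F i ω') = ∑ i ∈ s, F i := by ext; simp
  rw [this, map_sum]; simp

theorem E_const_mul (c : ℕ) (a : ℝ) (f : Fn Ω) (ω : ℕ → Ω) :
    S.E c (fun ω' => a * f ω') ω = a * S.E c f ω := by
  have : (fun ω' => a * f ω') = a • f := rfl
  rw [this, map_smul]; rfl

theorem E_add_apply (c : ℕ) (f g : Fn Ω) (ω : ℕ → Ω) :
    S.E c (fun ω' => f ω' + g ω') ω = S.E c f ω + S.E c g ω := by
  have : (fun ω' => f ω' + g ω') = f + g := rfl
  rw [this, map_add]; rfl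

theorem E_sub_apply (c : ℕ) (f g : Fn Ω) (ω : ℕ → Ω) :
    S.E c (fun ω' => f ω' - g ω') ω = S.E c f ω - S.E c g ω := by
  have : (fun ω' => f ω' - g ω') = f - g := rfl
  rw [this, map_sub]; rfl

/-- differentiation under `E` -/
theorem hasDerivAt_E (c : ℕ) {g : ℝ → Fn Ω} {g' : Fn Ω} {t : ℝ}
    (h : ∀ ω, HasDerivAt (fun s => g s ω) (g' ω) t) (ω : ℕ → Ω) :
    HasDerivAt (fun s => S.E c (g s) ω) (S.E c g' ω) t := by
  induction c using down_ind L.T generalizing ω with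
  | h1 c hc => simpa only [S.E_of_le hc] using h ω
  | h2 c hc ih =>
    simp only [S.E_of_lt hc, P_apply]
    exact HasDerivAt.fun_sum fun x _ => (ih _).const_mul _

/-! ### the recursion `X` -/

theorem exp_Q {m : ℝ} (hm : 0 < m) (j : ℕ) (V : Fn Ω) (ω : ℕ → Ω) :
    Real.exp (m * S.Q m j V ω) = S.P j (fun ω' => Real.exp (m * V ω')) ω := by
  unfold Q
  rw [← mul_assoc, mul_one_div_cancel hm.ne', one_mul,
    Real.exp_log (S.P_pos (fun _ => Real.exp_pos _) ω)]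

theorem Q_mono {m : ℝ} (hm : 0 < m) (j : ℕ) {V V' : Fn Ω} (h : ∀ ω, V ω ≤ V' ω) (ω : ℕ → Ω) :
    S.Q m j V ω ≤ S.Q m j V' ω := by
  unfold Q
  refine mul_le_mul_of_nonneg_left ?_ (by positivity)
  exact Real.log_le_log (S.P_pos (fun _ => Real.exp_pos _) ω)
    (S.P_mono (fun ω' => Real.exp_le_exp.2 (mul_le_mul_of_nonneg_left (h ω') hm.le)) ω)

theorem Q_add_meas {m : ℝ} (hm : 0 < m) {j : ℕ} (hj : j < L.T) (V : Fn Ω) {g : Fn Ω}
    (hg : Meas L j g) : S.Q m j (V + g) = S.Q m j V + g := by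
  ext ω
  have h1 : (fun ω' => Real.exp (m * (V + g) ω')) =
      (fun ω' => Real.exp (m * g ω')) * fun ω' => Real.exp (m * V ω') := by
    ext ω'; simp [mul_add, Real.exp_add, mul_comm]
  simp only [Q, Pi.add_apply]
  have h2 := S.P_mul hj (hg.map fun y => Real.exp (m * y)) (fun ω' => Real.exp (m * V ω'))
  have h3 : S.P j (fun ω' => Real.exp (m * (V ω' + g ω'))) ω =
      Real.exp (m * g ω) * S.P j (fun ω' => Real.exp (m * V ω')) ω := by
    have := congrFun h2 ω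
    rw [← h1] at this
    exact this
  rw [h3, Real.log_mul (Real.exp_pos _).ne' (S.P_pos (fun _ => Real.exp_pos _) ω).ne',
    Real.log_exp]
  field_simp
  ring

theorem Q_add_const {m : ℝ} (hm : 0 < m) (j : ℕ) (V : Fn Ω) (a : ℝ) (ω : ℕ → Ω) :
    S.Q m j (fun ω' => V ω' + a) ω = S.Q m j V ω + a := by
  have h1 : (fun ω' => Real.exp (m * (V ω' + a))) =
      Real.exp (m * a) • fun ω' => Real.exp (m * V ω') := by
    ext ω'; simp [mul_add, Real.exp_add, mul_comm]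
  simp only [Q]
  rw [h1, map_smul, Pi.smul_apply, smul_eq_mul,
    Real.log_mul (Real.exp_pos _).ne' (S.P_pos (fun _ => Real.exp_pos _) ω).ne', Real.log_exp]
  field_simp
  ring

theorem Q_meas (m : ℝ) {c : ℕ} {V : Fn Ω} (hV : Meas L (c + 1) V) : Meas L c (S.Q m c V) :=
  (S.P_meas (hV.map fun y => Real.exp (m * y))).map fun y => (1 / m) * Real.log y

theorem Xk_mono (k c : ℕ) {V V' : Fn Ω} (h : ∀ ω, V ω ≤ V' ω) (ω : ℕ → Ω) :
    S.Xk k c V ω ≤ S.Xk k c V' ω := by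
  induction k generalizing c ω with
  | zero => exact h ω
  | succ k ih => exact S.Q_mono (L.m_pos c) c (ih (c + 1)) ω

theorem Xk_add_const (k c : ℕ) (V : Fn Ω) (a : ℝ) :
    S.Xk k c (fun ω' => V ω' + a) = fun ω => S.Xk k c V ω + a := by
  induction k generalizing c with
  | zero => rfl
  | succ k ih => ext ω; simp only [Xk]; rw [ih, S.Q_add_const (L.m_pos c)]

theorem Xk_const (k c : ℕ) (a : ℝ) : S.Xk k c (fun _ => a) = fun _ => a := by
  induction k generalizing c with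
  | zero => rfl
  | succ k ih =>
    ext ω; simp only [Xk]; rw [ih]
    simp only [Q, P_const, Real.log_exp]
    have := (L.m_pos c).ne'
    field_simp

theorem abs_Xk_sub_le (k c : ℕ) {V V' : Fn Ω} {B : ℝ} (h : ∀ ω, |V ω - V' ω| ≤ B) (ω : ℕ → Ω) :
    |S.Xk k c V ω - S.Xk k c V' ω| ≤ B := by
  have h1 := S.Xk_mono k c (V := V) (V' := fun ω' => V' ω' + B)
    (fun ω' => by have := (abs_le.1 (h ω')).2; linarith) ω
  have h2 := S.Xk_mono k c (V := V') (V' := fun ω' => V ω' + B)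
    (fun ω' => by have := (abs_le.1 (h ω')).1; linarith) ω
  rw [Xk_add_const] at h1 h2
  rw [abs_le]; constructor <;> simp only at h1 h2 <;> linarith

theorem X_mono (c : ℕ) {V V' : Fn Ω} (h : ∀ ω, V ω ≤ V' ω) (ω : ℕ → Ω) :
    S.X c V ω ≤ S.X c V' ω := S.Xk_mono _ _ h ω

theorem X_add_const (c : ℕ) (V : Fn Ω) (a : ℝ) :
    S.X c (fun ω' => V ω' + a) = fun ω => S.X c V ω + a := S.Xk_add_const _ _ V a

theorem X_const (c : ℕ) (a : ℝ) : S.X c (fun _ => a) = fun _ => a := S.Xk_const _ _ a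

theorem abs_X_sub_le (c : ℕ) {V V' : Fn Ω} {B : ℝ} (h : ∀ ω, |V ω - V' ω| ≤ B) (ω : ℕ → Ω) :
    |S.X c V ω - S.X c V' ω| ≤ B := S.abs_Xk_sub_le _ _ h ω

theorem abs_X_le (c : ℕ) {V : Fn Ω} {B : ℝ} (h : ∀ ω, |V ω| ≤ B) (ω : ℕ → Ω) :
    |S.X c V ω| ≤ B := by
  have := S.abs_X_sub_le c (V := V) (V' := fun _ => 0) (B := B) (by simpa using h) ω
  simpa [X_const] using this

theorem X_meas (c : ℕ) (V : Fn Ω) : Meas L c (S.X c V) := by
  induction c using down_ind L.T with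
  | h1 c hc => exact Meas.of_le hc
  | h2 c hc ih => rw [S.X_of_lt hc]; exact S.Q_meas _ ih

theorem X_add_meas {c : ℕ} (V : Fn Ω) {g : Fn Ω} (hg : Meas L c g) :
    S.X c (V + g) = S.X c V + g := by
  induction c using down_ind L.T with
  | h1 c hc => rw [S.X_of_le hc, S.X_of_le hc]
  | h2 c hc ih =>
    rw [S.X_of_lt hc, S.X_of_lt hc, ih (hg.mono (Nat.le_succ c)), S.Q_add_meas (L.m_pos c) hc _ hg]

/-- the last level is a plain log-average -/
theorem X_last (V : Fn Ω) (ω : ℕ → Ω) :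
    S.X (L.T - 1) V ω = Real.log (S.E (L.T - 1) (fun ω' => Real.exp (V ω')) ω) := by
  have h := L.T_pos
  rw [S.X_of_lt (by omega), S.E_of_lt (by omega), S.X_of_le (by omega), S.E_of_le (by omega),
    L.last]
  simp [Q]

/-! ### tilting -/

/-- the system tilted by the Hamiltonian `V` -/
noncomputable def tilt (V : Fn Ω) : Sys L Ω where
  w j ω := if j < L.T then S.w j ω * Real.exp (L.m j * (S.X (j + 1) V ω - S.X j V ω)) else S.w j ω
  pos j ω := by
    split_ifs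
    · exact mul_pos (S.pos _ _) (Real.exp_pos _)
    · exact S.pos _ _
  sum_one j ω := by
    split_ifs with h
    · have h1 := S.exp_Q (L.m_pos j) j (S.X (j + 1) V) ω
      rw [← S.X_of_lt h, P_apply] at h1
      simp only [S.X_meas j V ω j _ le_rfl h, mul_sub, Real.exp_sub, ← mul_div_assoc, ← sum_div]
      rw [← h1, div_self (Real.exp_pos _).ne']
    · exact S.sum_one j ω
  meas j k ω x h1 h2 := by
    rw [if_pos (by omega), if_pos (by omega), S.meas j k ω x h1 h2,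
      S.X_meas (j + 1) V ω k x h1 h2, S.X_meas j V ω k x h1.le h2]

theorem tilt_P {c : ℕ} (hc : c < L.T) (V f : Fn Ω) :
    (S.tilt V).P c f =
      S.P c ((fun ω => Real.exp (L.m c * (S.X (c + 1) V ω - S.X c V ω))) * f) := by
  ext ω
  simp only [P_apply, tilt, if_pos hc, Pi.mul_apply, mul_assoc]

/-- density of the tilted system given the coordinates `< c` -/
noncomputable def rho (c : ℕ) (V : Fn Ω) : Fn Ω :=
  fun ω => Real.exp (V ω - ∑ J ∈ range L.T, L.p J * S.X (max c J) V ω)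

theorem rho_step {c : ℕ} (hc : c < L.T) (G : ℕ → ℝ) :
    ∑ J ∈ range L.T, L.p J * G (max (c + 1) J) =
      ∑ J ∈ range L.T, L.p J * G (max c J) + L.m c * (G (c + 1) - G c) := by
  obtain ⟨k, hk⟩ : ∃ k, L.T = (c + 1) + k := ⟨L.T - (c + 1), by omega⟩
  rw [hk, sum_range_add _ (c + 1) k, sum_range_add _ (c + 1) k, ← L.sum_p c, sum_mul]
  have h1 : ∀ J ∈ range (c + 1), L.p J * G (max (c + 1) J) =
      L.p J * G (max c J) + L.p J * (G (c + 1) - G c) := by
    intro J hJ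
    have := mem_range.1 hJ
    rw [max_eq_left (by omega), max_eq_left (by omega)]; ring
  have h2 : ∀ J ∈ range k, L.p (c + 1 + J) * G (max (c + 1) (c + 1 + J)) =
      L.p (c + 1 + J) * G (max c (c + 1 + J)) := by
    intro J _
    rw [max_eq_right (by omega), max_eq_right (by omega)]
  rw [sum_congr rfl h1, sum_congr rfl h2, sum_add_distrib]
  ring

theorem tilt_E (c : ℕ) (V f : Fn Ω) : (S.tilt V).E c f = S.E c (S.rho c V * f) := by
  induction c using down_ind L.T with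
  | h1 c hc =>
    rw [E_of_le _ hc, E_of_le _ hc]
    ext ω
    have : ∀ J ∈ range L.T, L.p J * S.X (max c J) V ω = L.p J * V ω := by
      intro J _
      rw [S.X_of_le (le_max_of_le_left hc)]
    simp only [rho, Pi.mul_apply]
    rw [sum_congr rfl this, ← sum_mul, L.sum_p_T]; simp
  | h2 c hc ih =>
    rw [E_of_lt _ hc, E_of_lt _ hc, ih, tilt_P _ hc, ← S.E_mul, ← mul_assoc]
    · congr 3
      ext ω
      simp only [rho, Pi.mul_apply, ← Real.exp_add]
      rw [rho_step hc (fun j => S.X j V ω)]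
      congr 1; ring
    · exact ((S.X_meas (c + 1) V).sub ((S.X_meas c V).mono (Nat.le_succ c))).map
        fun y => Real.exp (L.m c * y)

theorem abs_log_rho_le (c : ℕ) {V : Fn Ω} {B : ℝ} (h : ∀ ω, |V ω| ≤ B) (ω : ℕ → Ω) :
    |V ω - ∑ J ∈ range L.T, L.p J * S.X (max c J) V ω| ≤ 2 * B := by
  have h1 : |∑ J ∈ range L.T, L.p J * S.X (max c J) V ω| ≤ B := by
    refine (abs_sum_le_sum_abs _ _).trans ?_
    calc ∑ J ∈ range L.T, |L.p J * S.X (max c J) V ω| ≤ ∑ J ∈ range L.T, L.p J * B := by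
          refine sum_le_sum fun J _ => ?_
          rw [abs_mul, abs_of_nonneg (L.p_nonneg J)]
          exact mul_le_mul_of_nonneg_left (S.abs_X_le _ h ω) (L.p_nonneg J)
      _ = B := by rw [← sum_mul, L.sum_p_T, one_mul]
  have := abs_sub (V ω) (∑ J ∈ range L.T, L.p J * S.X (max c J) V ω)
  linarith [h ω]

theorem rho_pos (c : ℕ) (V : Fn Ω) (ω : ℕ → Ω) : 0 < S.rho c V ω := Real.exp_pos _

theorem rho_le (c : ℕ) {V : Fn Ω} {B : ℝ} (h : ∀ ω, |V ω| ≤ B) (ω : ℕ → Ω) :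
    S.rho c V ω ≤ Real.exp (2 * B) :=
  Real.exp_le_exp.2 (abs_le.1 (S.abs_log_rho_le c h ω)).2

theorem le_rho (c : ℕ) {V : Fn Ω} {B : ℝ} (h : ∀ ω, |V ω| ≤ B) (ω : ℕ → Ω) :
    Real.exp (-(2 * B)) ≤ S.rho c V ω :=
  Real.exp_le_exp.2 (abs_le.1 (S.abs_log_rho_le c h ω)).1

theorem E_rho (c : ℕ) (V : Fn Ω) : S.E c (S.rho c V) = 1 := by
  have := S.tilt_E c V 1
  rw [mul_one, E_one] at this
  exact this.symm

theorem tilt_E_le (c : ℕ) {V : Fn Ω} {B : ℝ} (h : ∀ ω, |V ω| ≤ B) {f : Fn Ω} (hf : ∀ ω, 0 ≤ f ω)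
    (ω : ℕ → Ω) : (S.tilt V).E c f ω ≤ Real.exp (2 * B) * S.E c f ω := by
  rw [tilt_E, ← E_const_mul]
  exact S.E_mono c (fun ω' => mul_le_mul_of_nonneg_right (S.rho_le c h ω') (hf ω')) ω

theorem le_tilt_E (c : ℕ) {V : Fn Ω} {B : ℝ} (h : ∀ ω, |V ω| ≤ B) {f : Fn Ω} (hf : ∀ ω, 0 ≤ f ω)
    (ω : ℕ → Ω) : S.E c f ω ≤ Real.exp (2 * B) * (S.tilt V).E c f ω := by
  rw [tilt_E, ← E_const_mul]
  refine S.E_mono c (fun ω' => ?_) ω
  have h1 := S.le_rho c h ω'
  have h2 : 1 ≤ Real.exp (2 * B) * S.rho c V ω' := by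
    calc (1 : ℝ) = Real.exp (2 * B) * Real.exp (-(2 * B)) := by rw [← Real.exp_add]; simp
      _ ≤ _ := mul_le_mul_of_nonneg_left h1 (Real.exp_pos _).le
  simp only [Pi.mul_apply]
  nlinarith [hf ω']

theorem abs_rho_sub_one_le (c : ℕ) {V : Fn Ω} {B : ℝ} (h : ∀ ω, |V ω| ≤ B) (ω : ℕ → Ω) :
    |S.rho c V ω - 1| ≤ Real.exp (2 * B) - 1 := by
  have h1 := S.rho_le c h ω
  have h2 := S.le_rho c h ω
  have h3 : 2 ≤ Real.exp (2 * B) + Real.exp (-(2 * B)) := by
    linarith [Real.add_one_le_exp (2 * B), Real.add_one_le_exp (-(2 * B))]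
  rw [abs_le]; constructor <;> linarith

/-- Lipschitz dependence of `E` on the Hamiltonian -/
theorem abs_tilt_E_sub_le (c : ℕ) {V : Fn Ω} {B : ℝ} (h : ∀ ω, |V ω| ≤ B) {f : Fn Ω} {A : ℝ}
    (hf : ∀ ω, |f ω| ≤ A) (ω : ℕ → Ω) :
    |(S.tilt V).E c f ω - S.E c f ω| ≤ (Real.exp (2 * B) - 1) * A := by
  rw [tilt_E, ← E_sub_apply]
  refine S.abs_E_le_of_le c (fun ω' => ?_) ω
  have : (S.rho c V * f) ω' - f ω' = (S.rho c V ω' - 1) * f ω' := by simp only [Pi.mul_apply]; ring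
  rw [this, abs_mul]
  exact mul_le_mul (S.abs_rho_sub_one_le c h ω') (hf ω') (abs_nonneg _)
    ((abs_nonneg _).trans (S.abs_rho_sub_one_le c h ω'))

/-- cocycle property -/
theorem X_add (c : ℕ) (V V' : Fn Ω) : S.X c (V + V') = S.X c V + (S.tilt V).X c V' := by
  induction c using down_ind L.T with
  | h1 c hc => rw [X_of_le _ hc, X_of_le _ hc, X_of_le _ hc]
  | h2 c hc ih =>
    rw [S.X_of_lt hc (V + V'), ih, (S.tilt V).X_of_lt hc]
    ext ω
    have hm := L.m_pos c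
    have key : Real.exp (L.m c * S.Q (L.m c) c (S.X (c + 1) V + (S.tilt V).X (c + 1) V') ω) =
        Real.exp (L.m c * (S.X c V ω + (S.tilt V).Q (L.m c) c ((S.tilt V).X (c + 1) V') ω)) := by
      rw [mul_add, Real.exp_add, exp_Q _ hm, exp_Q _ hm, tilt_P _ hc]
      simp only [P_apply, Pi.mul_apply, Pi.add_apply, mul_sum, S.X_meas c V ω c _ le_rfl hc]
      refine sum_congr rfl fun x _ => ?_
      rw [mul_left_comm, ← mul_assoc (Real.exp _), ← Real.exp_add, ← Real.exp_add]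
      congr 2; ring
    exact mul_left_cancel₀ hm.ne' (Real.exp_injective key)

@[ext] theorem ext' {S S' : Sys L Ω} (h : ∀ j ω, S.w j ω = S'.w j ω) : S = S' := by
  cases S; cases S'; congr; ext j ω; exact h j ω

theorem tilt_tilt (V V' : Fn Ω) : (S.tilt V).tilt V' = S.tilt (V + V') := by
  ext j ω
  by_cases h : j < L.T
  · change (if j < L.T then (if j < L.T then _ else _) * _ else _) = (if j < L.T then _ else _)
    simp only [if_pos h, X_add, Pi.add_apply]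
    rw [mul_assoc, ← Real.exp_add]
    congr 2; ring
  · simp only [tilt, if_neg h]

theorem tilt_zero : S.tilt 0 = S := by
  ext j ω
  have : ∀ c, S.X c 0 = fun _ => 0 := fun c => S.X_const c 0
  simp [tilt, this]

/-! ### derivatives -/

theorem hasDerivAt_X (c : ℕ) {H : ℝ → Fn Ω} {V : Fn Ω} {t : ℝ}
    (h : ∀ ω, HasDerivAt (fun s => H s ω) (V ω) t) (ω : ℕ → Ω) :
    HasDerivAt (fun s => S.X c (H s) ω) ((S.tilt (H t)).E c V ω) t := by
  induction c using down_ind L.T generalizing ω with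
  | h1 c hc => simpa only [X_of_le _ hc, E_of_le _ hc] using h ω
  | h2 c hc ih =>
    have hm := L.m_pos c
    have h1 : HasDerivAt (fun s => S.P c (fun ω' => Real.exp (L.m c * S.X (c + 1) (H s) ω')) ω)
        (∑ x, S.w c (update ω c x) * (Real.exp (L.m c * S.X (c + 1) (H t) (update ω c x)) *
          (L.m c * (S.tilt (H t)).E (c + 1) V (update ω c x)))) t := by
      simp only [P_apply]
      exact HasDerivAt.fun_sum fun x _ => (((ih _).const_mul _).exp).const_mul _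
    have h2 := (h1.log (S.P_pos (fun _ => Real.exp_pos _) ω).ne').const_mul (1 / L.m c)
    simp only [X_of_lt _ hc]
    refine HasDerivAt.congr_deriv h2 ?_
    symm
    rw [E_of_lt _ hc, tilt_P _ hc, ← S.exp_Q hm, ← S.X_of_lt hc]
    simp only [P_apply, Pi.mul_apply, S.X_meas c (H t) ω c _ le_rfl hc, sum_div, mul_sum]
    refine sum_congr rfl fun x _ => ?_
    rw [mul_sub, Real.exp_sub]
    field_simp

/-- the score of a perturbation `V` at birth level `c` -/
noncomputable def score (c : ℕ) (V : Fn Ω) : Fn Ω :=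
  fun ω => V ω - ∑ J ∈ range L.T, L.p J * S.E (max c J) V ω

theorem hasDerivAt_tilt_E (c : ℕ) {H f : ℝ → Fn Ω} {V f' : Fn Ω} {t : ℝ}
    (h : ∀ ω, HasDerivAt (fun s => H s ω) (V ω) t)
    (hf : ∀ ω, HasDerivAt (fun s => f s ω) (f' ω) t) (ω : ℕ → Ω) :
    HasDerivAt (fun s => (S.tilt (H s)).E c (f s) ω)
      ((S.tilt (H t)).E c (f' + f t * (S.tilt (H t)).score c V) ω) t := by
  simp only [tilt_E]
  refine S.hasDerivAt_E c (fun ω' => ?_) ω
  have h1 : HasDerivAt (fun s => S.rho c (H s) ω')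
      (S.rho c (H t) ω' * (S.tilt (H t)).score c V ω') t := by
    unfold rho score
    exact ((h ω').sub (HasDerivAt.fun_sum fun J _ => (S.hasDerivAt_X _ h ω').const_mul _)).exp
  refine HasDerivAt.congr_deriv (h1.mul (hf ω')) ?_
  simp only [Pi.mul_apply, Pi.add_apply]
  ring

theorem abs_score_le (c : ℕ) {V : Fn Ω} {B : ℝ} (h : ∀ ω, |V ω| ≤ B) (ω : ℕ → Ω) :
    |S.score c V ω| ≤ 2 * B := by
  have h1 : |∑ J ∈ range L.T, L.p J * S.E (max c J) V ω| ≤ B := by
    refine (abs_sum_le_sum_abs _ _).trans ?_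
    calc ∑ J ∈ range L.T, |L.p J * S.E (max c J) V ω| ≤ ∑ J ∈ range L.T, L.p J * B := by
          refine sum_le_sum fun J _ => ?_
          rw [abs_mul, abs_of_nonneg (L.p_nonneg J)]
          exact mul_le_mul_of_nonneg_left (S.abs_E_le_of_le _ h ω) (L.p_nonneg J)
      _ = B := by rw [← sum_mul, L.sum_p_T, one_mul]
  have := abs_sub (V ω) (∑ J ∈ range L.T, L.p J * S.E (max c J) V ω)
  unfold score
  linarith [h ω]

/-! ### conditional covariance -/

/-- conditional covariance given the coordinates `< c` -/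
def Cov (c : ℕ) (f g : Fn Ω) : Fn Ω := S.E c (f * g) - S.E c f * S.E c g

theorem Cov_apply (c : ℕ) (f g : Fn Ω) (ω : ℕ → Ω) :
    S.Cov c f g ω = S.E c (f * g) ω - S.E c f ω * S.E c g ω := rfl

theorem Cov_comm (c : ℕ) (f g : Fn Ω) : S.Cov c f g = S.Cov c g f := by
  unfold Cov; rw [mul_comm f g, mul_comm (S.E c f)]

theorem Cov_meas (c : ℕ) (f g : Fn Ω) : Meas L c (S.Cov c f g) :=
  (S.E_meas _ _).sub ((S.E_meas _ _).mul (S.E_meas _ _))

theorem Cov_add_left (c : ℕ) (f f' g : Fn Ω) : S.Cov c (f + f') g = S.Cov c f g + S.Cov c f' g := by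
  unfold Cov; simp only [add_mul, map_add]; ring

theorem Cov_sub_left (c : ℕ) (f f' g : Fn Ω) : S.Cov c (f - f') g = S.Cov c f g - S.Cov c f' g := by
  unfold Cov; simp only [sub_mul, map_sub]; ring

theorem Cov_smul_left (c : ℕ) (a : ℝ) (f g : Fn Ω) : S.Cov c (a • f) g = a • S.Cov c f g := by
  unfold Cov; simp only [smul_mul_assoc, map_smul, smul_sub]

theorem Cov_sum_left {ι : Type} (s : Finset ι) (c : ℕ) (F : ι → Fn Ω) (g : Fn Ω) :
    S.Cov c (∑ i ∈ s, F i) g = ∑ i ∈ s, S.Cov c (F i) g := by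
  unfold Cov; simp only [sum_mul, map_sum, sum_sub_distrib]

theorem Cov_mul_left {c : ℕ} {u : Fn Ω} (hu : Meas L c u) (f g : Fn Ω) :
    S.Cov c (u * f) g = u * S.Cov c f g := by
  unfold Cov; rw [mul_assoc, S.E_mul hu, S.E_mul hu]; ring

theorem Cov_eq_centered (c : ℕ) (f g : Fn Ω) :
    S.Cov c f g = S.E c ((f - S.E c f) * (g - S.E c g)) := by
  have : (f - S.E c f) * (g - S.E c g) =
      f * g - S.E c g * f - S.E c f * g + S.E c f * S.E c g := by ring
  rw [this]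
  simp only [map_add, map_sub, S.E_mul (S.E_meas c _), S.E_E le_rfl]
  unfold Cov; ring

theorem Cov_self_nonneg (c : ℕ) (f : Fn Ω) (ω : ℕ → Ω) : 0 ≤ S.Cov c f f ω := by
  rw [Cov_eq_centered]
  exact S.E_nonneg c (fun ω' => mul_self_nonneg _) ω

/-- Cauchy–Schwarz for `E` -/
theorem E_mul_sq_le (c : ℕ) (f g : Fn Ω) (ω : ℕ → Ω) :
    (S.E c (f * g) ω) ^ 2 ≤ S.E c (f * f) ω * S.E c (g * g) ω := by
  have h : ∀ x : ℝ, 0 ≤ S.E c (f * f) ω * (x * x) + 2 * S.E c (f * g) ω * x + S.E c (g * g) ω := by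
    intro x
    have h1 := S.E_nonneg c (f := (x • f + g) * (x • f + g)) (fun ω' => mul_self_nonneg _) ω
    have h2 : (x • f + g) * (x • f + g) = (x * x) • (f * f) + (2 * x) • (f * g) + g * g := by
      ext ω'; simp; ring
    rw [h2] at h1
    simp only [map_add, map_smul, Pi.add_apply, Pi.smul_apply, smul_eq_mul] at h1
    linarith
  have := discrim_le_zero h
  unfold discrim at this
  nlinarith

theorem Cov_sq_le (c : ℕ) (f g : Fn Ω) (ω : ℕ → Ω) :
    (S.Cov c f g ω) ^ 2 ≤ S.Cov c f f ω * S.Cov c g g ω := by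
  simp only [Cov_eq_centered]
  exact S.E_mul_sq_le c _ _ ω

theorem Cov_self_le (c : ℕ) {f : Fn Ω} {A : ℝ} (hf : ∀ ω, |f ω| ≤ A) (ω : ℕ → Ω) :
    S.Cov c f f ω ≤ A ^ 2 := by
  have h1 : S.E c (f * f) ω ≤ A ^ 2 := S.E_le c (fun ω' => by
    have := hf ω'
    simp only [Pi.mul_apply]
    rw [← sq, ← sq_abs]
    exact pow_le_pow_left₀ (abs_nonneg _) this 2) ω
  rw [Cov_apply]
  nlinarith [mul_self_nonneg (S.E c f ω)]

theorem abs_Cov_le (c : ℕ) (f : Fn Ω) {g : Fn Ω} {A : ℝ} (hg : ∀ ω, |g ω| ≤ A) (ω : ℕ → Ω) :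
    |S.Cov c f g ω| ≤ 2 * A * S.E c (fun ω' => |f ω'|) ω := by
  have h1 : |S.E c (f * g) ω| ≤ A * S.E c (fun ω' => |f ω'|) ω := by
    refine (S.abs_E_le c _ ω).trans ?_
    rw [← E_const_mul]
    refine S.E_mono c (fun ω' => ?_) ω
    simp only [Pi.mul_apply, abs_mul]
    rw [mul_comm]
    exact mul_le_mul_of_nonneg_right (hg ω') (abs_nonneg _)
  have h2 : |S.E c f ω * S.E c g ω| ≤ A * S.E c (fun ω' => |f ω'|) ω := by
    rw [abs_mul, mul_comm]
    exact mul_le_mul (S.abs_E_le_of_le c hg ω) (S.abs_E_le c f ω) (abs_nonneg _)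
      ((abs_nonneg _).trans (hg ω))
  rw [Cov_apply]
  have := abs_sub (S.E c (f * g) ω) (S.E c f ω * S.E c g ω)
  linarith

theorem tilt_E_sub (c : ℕ) (V f : Fn Ω) :
    (S.tilt V).E c f - S.E c f = S.Cov c f (S.rho c V) := by
  unfold Cov
  rw [tilt_E, E_rho, mul_one, mul_comm]

end Sys
end Crest.Agent.R141
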