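import Crest.Agent.R141.TreeDefs

/-! Replica trees: basic lemmas. -/

set_option autoImplicit false
open Finset Function

namespace Crest.Agent.R141

section Acc
variable {ι : Type} [LinearOrder ι] {F : Type} [CommMonoid F]

@[simp] theorem acc_empty (par : ι → ι) (T : ι → F → F) (h : ι → F) : acc ∅ par T h = h := by
  simp [acc]

theorem acc_insert_max {nd : Finset ι} {s : ι} (hs : ∀ d ∈ nd, d < s) (par : ι → ι)
    (T : ι → F → F) (h : ι → F) : acc (insert s nd) par T h = acc nd par T (step par T h s) := by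
  unfold acc
  rw [Finset.sort_insert (r := (· ≥ ·)) (h₁ := fun b hb => (hs b hb).le)
    (h₂ := fun hb => lt_irrefl _ (hs s hb)), List.foldl_cons]

theorem acc_congr {nd : Finset ι} {par par' : ι → ι} {T T' : ι → F → F}
    (hpar : ∀ d ∈ nd, par d = par' d) (hT : ∀ d ∈ nd, T d = T' d) (h : ι → F) :
    acc nd par T h = acc nd par' T' h := by
  induction nd using Finset.induction_on_max generalizing h with
  | empty => simp
  | insert s nd hs ih =>
    rw [acc_insert_max hs, acc_insert_max hs,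
      ih (fun d hd => hpar d (mem_insert_of_mem hd)) (fun d hd => hT d (mem_insert_of_mem hd))]
    unfold step
    rw [hpar s (mem_insert_self _ _), hT s (mem_insert_self _ _)]

/-- relational invariance principle -/
theorem acc_rel {F' : Type} [CommMonoid F'] {nd : Finset ι} {par : ι → ι} {T : ι → F → F}
    {T' : ι → F' → F'} (R : ι → F → F' → Prop)
    (hmul : ∀ q f g f' g', R q f f' → R q g g' → R q (f * g) (f' * g'))
    (hT : ∀ d ∈ nd, ∀ f f', R d f f' → R (par d) (T d f) (T' d f'))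
    {h : ι → F} {h' : ι → F'} (hh : ∀ q, R q (h q) (h' q)) (q : ι) :
    R q (acc nd par T h q) (acc nd par T' h' q) := by
  induction nd using Finset.induction_on_max generalizing h h' with
  | empty => simpa using hh q
  | insert s nd hs ih =>
    rw [acc_insert_max hs, acc_insert_max hs]
    refine ih (fun d hd => hT d (mem_insert_of_mem hd)) fun q' => ?_
    unfold step
    by_cases hq : q' = par s
    · subst hq
      simp only [update_self]
      exact hmul _ _ _ _ _ (hh _) (hT s (mem_insert_self _ _) _ _ (hh s))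
    · simp only [update_of_ne hq]; exact hh q'

theorem acc_pred {nd : Finset ι} {par : ι → ι} {T : ι → F → F} (Pr : F → Prop)
    (hmul : ∀ f g, Pr f → Pr g → Pr (f * g)) (hT : ∀ d ∈ nd, ∀ f, Pr f → Pr (T d f))
    {h : ι → F} (hh : ∀ q, Pr (h q)) (q : ι) : Pr (acc nd par T h q) :=
  acc_rel (T' := T) (h' := h) (fun _ f _ => Pr f) (fun _ f g _ _ => hmul f g)
    (fun d hd f _ => hT d hd f) hh q

theorem acc_hom {F' : Type} [CommMonoid F'] (π : F' →* F) {nd : Finset ι} {par : ι → ι}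
    {T : ι → F → F} {T' : ι → F' → F'} (hT : ∀ d ∈ nd, ∀ f, π (T' d f) = T d (π f)) (h' : ι → F')
    (q : ι) : π (acc nd par T' h' q) = acc nd par T (fun q => π (h' q)) q :=
  (acc_rel (T := T) (T' := T') (fun _ f f' => π f' = f)
    (fun _ f g f' g' h1 h2 => by rw [map_mul, h1, h2])
    (fun d hd f f' h1 => by rw [hT d hd, h1]) (fun _ => rfl) q)

/-- a node which is not a parent keeps its label -/
theorem acc_of_not_par {nd : Finset ι} {par : ι → ι} (T : ι → F → F) (h : ι → F) {q : ι}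
    (hq : ∀ d ∈ nd, par d ≠ q) : acc nd par T h q = h q := by
  induction nd using Finset.induction_on_max generalizing h with
  | empty => simp
  | insert s nd hs ih =>
    rw [acc_insert_max hs, ih _ (fun d hd => hq d (mem_insert_of_mem hd))]
    exact update_of_ne (hq s (mem_insert_self _ _)).symm _ _

theorem acc_unfold {nd : Finset ι} {par : ι → ι} (hv : ∀ d ∈ nd, par d < d) (T : ι → F → F)
    (h : ι → F) (q : ι) :
    acc nd par T h q = h q * ∏ d ∈ nd.filter (fun d => par d = q), T d (acc nd par T h d) := by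
  induction nd using Finset.induction_on_max generalizing h with
  | empty => simp
  | insert s nd hs ih =>
    have hv' : ∀ d ∈ nd, par d < d := fun d hd => hv d (mem_insert_of_mem hd)
    have hsn : s ∉ nd := fun hb => lt_irrefl _ (hs s hb)
    have hps := hv s (mem_insert_self _ _)
    have h1 : acc nd par T (step par T h s) s = h s := by
      rw [acc_of_not_par _ _ (fun d hd => ((hv' d hd).trans (hs d hd)).ne)]
      exact update_of_ne hps.ne' _ _
    rw [acc_insert_max hs, ih hv', filter_insert]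
    split_ifs with hq
    · rw [prod_insert (fun hb => hsn (mem_filter.1 hb).1), h1, ← mul_assoc]
      subst hq
      simp [step]
    · congr 1
      exact update_of_ne (Ne.symm hq) _ _

/-- locality: the accumulated labels on a set closed under children only depend on the data there -/
theorem acc_local {nd nd' : Finset ι} {par par' : ι → ι} (hv : ∀ d ∈ nd, par d < d)
    (hv' : ∀ d ∈ nd', par' d < d) {T T' : ι → F → F} {h h' : ι → F} (D : ι → Prop)
    (hD : ∀ q, D q → nd.filter (fun d => par d = q) = nd'.filter (fun d => par' d = q) ∧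
      h q = h' q ∧ ∀ d ∈ nd, par d = q → D d ∧ T d = T' d) (q : ι) (hq : D q) :
    acc nd par T h q = acc nd' par' T' h' q := by
  induction hn : (nd.filter (fun d => q < d)).card using Nat.strong_induction_on generalizing q with
  | _ n ih =>
    obtain ⟨h1, h2, h3⟩ := hD q hq
    rw [acc_unfold hv, acc_unfold hv', ← h1, h2]
    congr 1
    refine prod_congr rfl fun d hd => ?_
    obtain ⟨hd1, hd2⟩ := mem_filter.1 hd
    have hqd : q < d := hd2 ▸ hv d hd1
    rw [(h3 d hd1 hd2).2, ih _ ?_ d (h3 d hd1 hd2).1 rfl]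
    rw [← hn]
    refine card_lt_card ⟨fun x hx => ?_, fun hsub => ?_⟩
    · exact mem_filter.2 ⟨(mem_filter.1 hx).1, hqd.trans (mem_filter.1 hx).2⟩
    · exact lt_irrefl _ (mem_filter.1 (hsub (mem_filter.2 ⟨hd1, hqd⟩))).2

/-- labels outside the tree are irrelevant -/
theorem acc_congr_lab {r : ι} {nd : Finset ι} {par : ι → ι} (hv : Valid r nd par) (T : ι → F → F)
    {h h' : ι → F} (hh : ∀ q ∈ insert r nd, h q = h' q) {q : ι} (hq : q ∈ insert r nd) :
    acc nd par T h q = acc nd par T h' q :=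
  acc_local (fun d hd => (hv d hd).2.1) (fun d hd => (hv d hd).2.1) (fun q => q ∈ insert r nd)
    (fun q hq => ⟨rfl, hh q hq, fun _ hd _ => ⟨mem_insert_of_mem hd, rfl⟩⟩) q hq

theorem Valid.of_insert {r s : ι} {nd : Finset ι} {par : ι → ι} (hs : ∀ d ∈ nd, d < s)
    (hv : Valid r (insert s nd) par) : Valid r nd par := by
  intro d hd
  obtain ⟨h1, h2, h3⟩ := hv d (mem_insert_of_mem hd)
  refine ⟨h1, h2, h3.imp id fun h => ?_⟩
  rcases mem_insert.1 h with h | h
  · exact absurd (h ▸ h2.trans (hs d hd)) (lt_irrefl _)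
  · exact h

theorem Valid.par_mem {r s : ι} {nd : Finset ι} {par : ι → ι}
    (hv : Valid r (insert s nd) par) : par s ∈ insert r nd := by
  obtain ⟨-, h2, h3⟩ := hv s (mem_insert_self _ _)
  rcases h3 with h | h
  · rw [h]; exact mem_insert_self _ _
  · rcases mem_insert.1 h with h | h
    · exact absurd h h2.ne
    · exact mem_insert_of_mem h

theorem Valid.root_notMem {r : ι} {nd : Finset ι} {par : ι → ι} (hv : Valid r nd par) : r ∉ nd :=
  fun h => lt_irrefl _ (hv r h).1

theorem Valid.par_mem' {r : ι} {nd : Finset ι} {par : ι → ι} (hv : Valid r nd par) {d : ι}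
    (hd : d ∈ nd) : par d ∈ insert r nd := mem_insert.2 (hv d hd).2.2

theorem Valid.lt {r : ι} {nd : Finset ι} {par : ι → ι} (hv : Valid r nd par) :
    ∀ d ∈ nd, par d < d := fun d hd => (hv d hd).2.1

/-- comparison of two accumulation processes in a seminorm -/
theorem acc_compare [Fintype ι] {Ω : Type} {F' : Type} [CommMonoid F'] (π : F' →* Fn Ω)
    (nrm : Fn Ω → ℝ) (hn0 : ∀ f, 0 ≤ nrm f) (hadd : ∀ f g, nrm (f + g) ≤ nrm f + nrm g)
    (hmul : ∀ u f : Fn Ω, (∀ ω, |u ω| ≤ 1) → nrm (u * f) ≤ nrm f)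
    {nd : Finset ι} {par : ι → ι} (hv : ∀ d ∈ nd, par d < d) {T : ι → Fn Ω → Fn Ω}
    {T' : ι → F' → F'} {K : ℝ} (hK : 0 ≤ K)
    (hlip : ∀ d ∈ nd, ∀ f g, nrm (T d f - T d g) ≤ K * nrm (f - g))
    (hT1 : ∀ d ∈ nd, ∀ f : Fn Ω, (∀ ω, |f ω| ≤ 1) → ∀ ω, |T d f ω| ≤ 1)
    (Pr : F' → Prop) (hPr : ∀ f, Pr f → ∀ ω, |π f ω| ≤ 1) (hPm : ∀ f g, Pr f → Pr g → Pr (f * g))
    (hPT : ∀ d ∈ nd, ∀ f, Pr f → Pr (T' d f))
    {h : ι → Fn Ω} {h' : ι → F'} (hh : ∀ q ω, |h q ω| ≤ 1) (hh' : ∀ q, Pr (h' q)) (q : ι) :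
    nrm (π (acc nd par T' h' q) - acc nd par T h q) ≤ (1 + K) ^ nd.card *
      (∑ q', nrm (π (h' q') - h q') +
        ∑ d ∈ nd, nrm (π (T' d (acc nd par T' h' d)) - T d (π (acc nd par T' h' d)))) := by
  induction nd using Finset.induction_on_max generalizing h h' with
  | empty =>
    simp only [acc_empty, card_empty, pow_zero, one_mul, sum_empty, add_zero]
    exact single_le_sum (f := fun q' => nrm (π (h' q') - h q')) (fun _ _ => hn0 _) (mem_univ q)
  | insert s nd hs ih =>
    have hsn : s ∉ nd := fun hb => lt_irrefl _ (hs s hb)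
    have hms := mem_insert_self s nd
    have hv' : ∀ d ∈ nd, par d < d := fun d hd => hv d (mem_insert_of_mem hd)
    have h1 : acc nd par T' (step par T' h' s) s = h' s := by
      rw [acc_of_not_par _ _ (fun d hd => ((hv' d hd).trans (hs d hd)).ne)]
      exact update_of_ne (hv s hms).ne' _ _
    rw [acc_insert_max hs, acc_insert_max hs, card_insert_of_notMem hsn, sum_insert hsn, h1]
    refine (ih hv' (fun d hd => hlip d (mem_insert_of_mem hd))
      (fun d hd => hT1 d (mem_insert_of_mem hd)) (fun d hd => hPT d (mem_insert_of_mem hd))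
      (fun q' ω => ?_) (fun q' => ?_)).trans ?_
    · unfold step
      by_cases hq : q' = par s
      · subst hq
        simp only [update_self, Pi.mul_apply, abs_mul]
        exact mul_le_one₀ (hh _ _) (abs_nonneg _) (hT1 s hms _ (hh s) ω)
      · simp only [update_of_ne hq]; exact hh q' ω
    · unfold step
      by_cases hq : q' = par s
      · subst hq
        simp only [update_self]
        exact hPm _ _ (hh' _) (hPT s hms _ (hh' s))
      · simp only [update_of_ne hq]; exact hh' q'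
    · set D := ∑ q', nrm (π (h' q') - h q') with hD
      set e := nrm (π (T' s (h' s)) - T s (π (h' s))) with he
      have hs1 : nrm (π (h' s) - h s) ≤ D :=
        single_le_sum (f := fun q' => nrm (π (h' q') - h q')) (fun _ _ => hn0 _) (mem_univ s)
      have key : nrm (π (h' (par s) * T' s (h' s)) - h (par s) * T s (h s)) ≤
          nrm (π (h' (par s)) - h (par s)) + (K * D + e) := by
        have h2 : π (h' (par s) * T' s (h' s)) - h (par s) * T s (h s) =
            T s (h s) * (π (h' (par s)) - h (par s)) + π (h' (par s)) *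
              ((T s (π (h' s)) - T s (h s)) + (π (T' s (h' s)) - T s (π (h' s)))) := by
          rw [map_mul]; ring
        rw [h2]
        refine (hadd _ _).trans (add_le_add (hmul _ _ (hT1 s hms _ (hh s))) ?_)
        refine (hmul _ _ (hPr _ (hh' _))).trans ((hadd _ _).trans (add_le_add ?_ le_rfl))
        exact (hlip s hms _ _).trans (mul_le_mul_of_nonneg_left hs1 hK)
      have hsum : ∑ q', nrm (π (step par T' h' s q') - step par T h s q') ≤ D + (K * D + e) := by
        rw [hD, ← add_sum_erase _ _ (mem_univ (par s)), ← add_sum_erase _ _ (mem_univ (par s))]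
        have : ∑ x ∈ univ.erase (par s), nrm (π (step par T' h' s x) - step par T h s x) =
            ∑ x ∈ univ.erase (par s), nrm (π (h' x) - h x) :=
          sum_congr rfl fun x hx => by simp only [step, update_of_ne (ne_of_mem_erase hx)]
        rw [this]
        simp only [step, update_self]
        rw [hD, ← add_sum_erase _ _ (mem_univ (par s))] at key
        linarith
      set R := ∑ d ∈ nd, nrm (π (T' d (acc nd par T' (step par T' h' s) d)) -
        T d (π (acc nd par T' (step par T' h' s) d))) with hR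
      have hR0 : 0 ≤ R := sum_nonneg fun _ _ => hn0 _
      have he0 : 0 ≤ e := hn0 _
      rw [pow_succ, mul_assoc]
      refine mul_le_mul_of_nonneg_left ?_ (by positivity)
      nlinarith [mul_nonneg hK hR0, mul_nonneg hK he0]
end Acc

/-! ### levels and tops -/
section Lev
variable {ι : Type} [LinearOrder ι] [WellFoundedLT ι] {nd : Finset ι} {par : ι → ι}

theorem lev_of_mem {q : ι} (hq : q ∈ nd) (hp : par q < q) (x : ℕ) (J : ι → ℕ) :
    lev nd par x J q = max (lev nd par x J (par q)) (J q) := by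
  rw [lev, dif_pos ⟨hq, hp⟩]

theorem lev_of_notMem {q : ι} (hq : q ∉ nd) (x : ℕ) (J : ι → ℕ) : lev nd par x J q = x := by
  rw [lev, dif_neg fun h => hq h.1]

theorem lev_congr' {nd' : Finset ι} {par' : ι → ι} {x : ℕ} {J J' : ι → ℕ} (q : ι)
    (h : ∀ d, d ≤ q → (d ∈ nd ↔ d ∈ nd') ∧ (d ∈ nd → par d = par' d ∧ J d = J' d)) :
    lev nd par x J q = lev nd' par' x J' q := by
  induction q using WellFoundedLT.induction with
  | ind q ih =>
    obtain ⟨h1, h2⟩ := h q le_rfl
    rw [lev, lev.eq_1 nd']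
    by_cases hq : q ∈ nd ∧ par q < q
    · obtain ⟨h3, h4⟩ := h2 hq.1
      rw [dif_pos hq, dif_pos ⟨h1.1 hq.1, h3 ▸ hq.2⟩, ← h3, ← h4,
        ih _ hq.2 fun d hd => h d (hd.trans hq.2.le)]
    · rw [dif_neg hq, dif_neg]
      rintro ⟨h3, h4⟩
      exact hq ⟨h1.2 h3, (h2 (h1.2 h3)).1 ▸ h4⟩

theorem lev_congr {par' : ι → ι} {x : ℕ} {J J' : ι → ℕ} (hp : ∀ d ∈ nd, par d = par' d)
    (hJ : ∀ d ∈ nd, J d = J' d) : lev nd par x J = lev nd par' x J' :=
  funext fun q => lev_congr' q fun d _ => ⟨Iff.rfl, fun hd => ⟨hp d hd, hJ d hd⟩⟩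

theorem lev_insert_of_lt {s q q₀ : ι} (hq : q < s) (x y : ℕ) (J : ι → ℕ) :
    lev (insert s nd) (update par s q₀) x (update J s y) q = lev nd par x J q := by
  refine lev_congr' q fun d hd => ?_
  have hds : d ≠ s := (hd.trans_lt hq).ne
  simp [hds]

theorem lev_insert_self {s q₀ : ι} (hq : q₀ < s) (x y : ℕ) (J : ι → ℕ) :
    lev (insert s nd) (update par s q₀) x (update J s y) s = max (lev nd par x J q₀) y := by
  rw [lev_of_mem (mem_insert_self _ _) (by simpa using hq), update_self, update_self,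
    lev_insert_of_lt hq]

theorem le_lev (x : ℕ) (J : ι → ℕ) (q : ι) : x ≤ lev nd par x J q := by
  induction q using WellFoundedLT.induction with
  | ind q ih =>
    rw [lev]
    split_ifs with h
    · exact (ih _ h.2).trans (le_max_left _ _)
    · exact le_rfl

/-- the level is the root level or one of the `J u`, `u ≤ q` -/
theorem lev_eq_or (x : ℕ) (J : ι → ℕ) (q : ι) :
    lev nd par x J q = x ∨ ∃ u ∈ nd, u ≤ q ∧ lev nd par x J q = J u := by
  induction q using WellFoundedLT.induction with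
  | ind q ih =>
    rw [lev]
    split_ifs with h
    · rcases le_total (lev nd par x J (par q)) (J q) with h1 | h1
      · exact Or.inr ⟨q, h.1, le_rfl, max_eq_right h1⟩
      · rw [max_eq_left h1]
        exact (ih _ h.2).imp id fun ⟨u, hu, h2, h3⟩ => ⟨u, hu, h2.trans h.2.le, h3⟩
    · exact Or.inl rfl

theorem lev_lt {T x : ℕ} {J : ι → ℕ} (hx : x < T) (hJ : ∀ d, J d < T) (q : ι) :
    lev nd par x J q < T := by
  rcases lev_eq_or (nd := nd) (par := par) x J q with h | ⟨u, -, -, h⟩ <;> rw [h]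
  exacts [hx, hJ u]

theorem lev_map {f : ℕ → ℕ} (hf : Monotone f) (x : ℕ) (J : ι → ℕ) (q : ι) :
    f (lev nd par x J q) = lev nd par (f x) (fun d => f (J d)) q := by
  induction q using WellFoundedLT.induction with
  | ind q ih =>
    rw [lev, lev.eq_1 nd par (f x)]
    split_ifs with h
    · rw [hf.map_max, ih _ h.2]
    · rfl

theorem top_of_le {c : ι → ℕ} {b : ℕ} {q : ι} (hq : q ∈ nd) (hp : par q < q) (hb : b ≤ c q) :
    top nd par c b q = top nd par c b (par q) := by rw [top, dif_pos ⟨hq, hp, hb⟩]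

theorem top_of_lt {c : ι → ℕ} {b : ℕ} {q : ι} (hb : c q < b) : top nd par c b q = q := by
  rw [top, dif_neg fun h => absurd h.2.2 (not_le.2 hb)]

theorem top_of_notMem {c : ι → ℕ} {b : ℕ} {q : ι} (hq : q ∉ nd) : top nd par c b q = q := by
  rw [top, dif_neg fun h => hq h.1]

theorem top_le (c : ι → ℕ) (b : ℕ) (q : ι) : top nd par c b q ≤ q := by
  induction q using WellFoundedLT.induction with
  | ind q ih =>
    rw [top]
    split_ifs with h
    · exact (ih _ h.2.1).trans h.2.1.le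
    · exact le_rfl

theorem top_mem {r : ι} (hv : Valid r nd par) (c : ι → ℕ) (b : ℕ) {q : ι} (hq : q ∈ insert r nd) :
    top nd par c b q ∈ insert r nd := by
  induction q using WellFoundedLT.induction with
  | ind q ih =>
    rw [top]
    split_ifs with h
    · exact ih _ h.2.1 (hv.par_mem' h.1)
    · exact hq

theorem top_congr' {nd' : Finset ι} {par' : ι → ι} {c c' : ι → ℕ} {b b' : ℕ} (q : ι)
    (h : ∀ d, d ≤ q → (d ∈ nd ↔ d ∈ nd') ∧ (d ∈ nd → par d = par' d ∧ (b ≤ c d ↔ b' ≤ c' d))) :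
    top nd par c b q = top nd' par' c' b' q := by
  induction q using WellFoundedLT.induction with
  | ind q ih =>
    obtain ⟨h1, h2⟩ := h q le_rfl
    rw [top, top.eq_1 nd']
    by_cases hq : q ∈ nd ∧ par q < q ∧ b ≤ c q
    · obtain ⟨h3, h4⟩ := h2 hq.1
      rw [dif_pos hq, dif_pos ⟨h1.1 hq.1, h3 ▸ hq.2.1, h4.1 hq.2.2⟩, ← h3,
        ih _ hq.2.1 fun d hd => h d (hd.trans hq.2.1.le)]
    · rw [dif_neg hq, dif_neg]
      rintro ⟨h3, h4, h5⟩
      exact hq ⟨h1.2 h3, (h2 (h1.2 h3)).1 ▸ h4, (h2 (h1.2 h3)).2.2 h5⟩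

/-- tops at a lower level factor through tops at a higher level -/
theorem top_top {c : ι → ℕ} {b b' : ℕ} (hb : b ≤ b') (q : ι) :
    top nd par c b (top nd par c b' q) = top nd par c b q := by
  induction q using WellFoundedLT.induction with
  | ind q ih =>
    rw [top.eq_1 nd par c b']
    split_ifs with h
    · rw [ih _ h.2.1, top_of_le h.1 h.2.1 (hb.trans h.2.2)]
    · rfl

theorem top_eq_root {r : ι} (hv : Valid r nd par) {c : ι → ℕ} {b : ℕ} (hc : ∀ d ∈ nd, b ≤ c d)
    {q : ι} (hq : q ∈ insert r nd) : top nd par c b q = r := by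
  induction q using WellFoundedLT.induction with
  | ind q ih =>
    rcases mem_insert.1 hq with rfl | hq
    · exact top_of_notMem hv.root_notMem
    · rw [top_of_le hq (hv.lt q hq) (hc q hq)]
      exact ih _ (hv.lt q hq) (hv.par_mem' hq)

/-! descendants -/
theorem desc_subset (q : ι) : desc nd par q ⊆ nd.erase q := fun d hd => by
  obtain ⟨h1, h2, -⟩ := mem_filter.1 hd
  exact mem_erase.2 ⟨h2.ne', h1⟩

theorem mem_desc_iff (hv : ∀ d ∈ nd, par d < d) {q d : ι} :
    d ∈ desc nd par q ↔ d ∈ nd ∧ (par d = q ∨ par d ∈ desc nd par q) := by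
  unfold desc
  simp only [mem_filter]
  constructor
  · rintro ⟨h1, h2, h3⟩
    refine ⟨h1, ?_⟩
    rw [top_of_le (mem_erase.2 ⟨h2.ne', h1⟩) (hv d h1) le_rfl] at h3
    by_cases hp : par d = q
    · exact Or.inl hp
    · refine Or.inr ⟨?_, lt_of_le_of_ne (h3 ▸ top_le _ _ _) (Ne.symm hp), h3⟩
      by_contra hn
      rw [top_of_notMem fun h => hn (mem_of_mem_erase h)] at h3
      exact hp h3
  · rintro ⟨h1, h2⟩
    have hqd : q < d := by
      rcases h2 with h | h
      · exact h ▸ hv d h1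
      · exact h.2.1.trans (hv d h1)
    refine ⟨h1, hqd, ?_⟩
    rw [top_of_le (mem_erase.2 ⟨hqd.ne', h1⟩) (hv d h1) le_rfl]
    rcases h2 with h | h
    · rw [h]; exact top_of_notMem (notMem_erase _ _)
    · exact h.2.2

theorem lt_of_mem_desc {q d : ι} (h : d ∈ desc nd par q) : q < d := (mem_filter.1 h).2.1

theorem valid_desc (hv : ∀ d ∈ nd, par d < d) (q : ι) : Valid q (desc nd par q) par := by
  intro d hd
  obtain ⟨h1, h2⟩ := (mem_desc_iff hv).1 hd
  exact ⟨lt_of_mem_desc hd, hv d h1, h2⟩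

theorem card_desc_lt {q : ι} (hq : q ∈ nd) : (desc nd par q).card < nd.card :=
  (card_le_card (desc_subset q)).trans_lt (card_erase_lt_of_mem hq)

theorem lev_desc (hv : ∀ d ∈ nd, par d < d) (x : ℕ) (J : ι → ℕ) (q : ι) {d : ι}
    (hd : d ∈ insert q (desc nd par q)) :
    lev nd par x J d = lev (desc nd par q) par (lev nd par x J q) J d := by
  induction d using WellFoundedLT.induction with
  | ind d ih =>
    rcases mem_insert.1 hd with rfl | hd
    · rw [lev_of_notMem (nd := desc nd par d) fun h => lt_irrefl _ (lt_of_mem_desc h)]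
    · obtain ⟨h1, h2⟩ := (mem_desc_iff hv).1 hd
      rw [lev_of_mem h1 (hv d h1), lev_of_mem hd (hv d h1), ih _ (hv d h1) (mem_insert.2 h2)]

/-- restriction to the subtree of `q` -/
theorem acc_desc {F : Type} [CommMonoid F] (hv : ∀ d ∈ nd, par d < d) {T T' : ι → F → F}
    (h : ι → F) (q : ι) (hT : ∀ d ∈ desc nd par q, T d = T' d) :
    acc nd par T h q = acc (desc nd par q) par T' h q := by
  refine acc_local hv (valid_desc hv q).lt (fun d => d ∈ insert q (desc nd par q))
    (fun q' hq' => ⟨?_, rfl, fun d hd hp => ?_⟩) q (mem_insert_self _ _)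
  · ext d
    simp only [mem_filter]
    constructor
    · rintro ⟨h1, h2⟩
      exact ⟨(mem_desc_iff hv).2 ⟨h1, mem_insert.1 (h2 ▸ hq')⟩, h2⟩
    · rintro ⟨h1, h2⟩
      exact ⟨mem_of_mem_erase (desc_subset q h1), h2⟩
  · have : d ∈ desc nd par q := (mem_desc_iff hv).2 ⟨hd, mem_insert.1 (hp ▸ hq')⟩
    exact ⟨mem_insert_of_mem this, hT d this⟩
end Lev

/-! ### averages over levels -/
section AvgJ
variable {L : Lev} {ι : Type} [Fintype ι] [DecidableEq ι]

theorem sum_p_fin (L : Lev) (G : ℕ → ℝ) :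
    ∑ x : Fin L.T, L.p x * G x = ∑ x ∈ range L.T, L.p x * G x :=
  Fin.sum_univ_eq_sum_range (fun x => L.p x * G x) L.T

theorem avgJ_mono {Φ Ψ : (ι → ℕ) → ℝ} (h : ∀ J, (∀ d, J d < L.T) → Φ J ≤ Ψ J) :
    avgJ L ι Φ ≤ avgJ L ι Ψ :=
  sum_le_sum fun J _ => mul_le_mul_of_nonneg_left (h _ fun d => (J d).2)
    (prod_nonneg fun _ _ => L.p_nonneg _)

theorem avgJ_congr {Φ Ψ : (ι → ℕ) → ℝ} (h : ∀ J, (∀ d, J d < L.T) → Φ J = Ψ J) :
    avgJ L ι Φ = avgJ L ι Ψ :=
  le_antisymm (avgJ_mono fun J hJ => (h J hJ).le) (avgJ_mono fun J hJ => (h J hJ).ge)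

theorem avgJ_const (x : ℝ) : avgJ L ι (fun _ => x) = x := by
  unfold avgJ
  rw [← sum_mul, ← Fintype.piFinset_univ,
    ← Finset.prod_univ_sum (fun _ => univ) (fun _ (y : Fin L.T) => L.p y)]
  have : ∑ y : Fin L.T, L.p y = 1 := by
    rw [Fin.sum_univ_eq_sum_range (fun x => L.p x) L.T, L.sum_p_T]
  simp [this]

theorem avgJ_add (Φ Ψ : (ι → ℕ) → ℝ) :
    avgJ L ι (fun J => Φ J + Ψ J) = avgJ L ι Φ + avgJ L ι Ψ := by
  simp [avgJ, mul_add, sum_add_distrib]

theorem avgJ_sub (Φ Ψ : (ι → ℕ) → ℝ) :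
    avgJ L ι (fun J => Φ J - Ψ J) = avgJ L ι Φ - avgJ L ι Ψ := by
  simp [avgJ, mul_sub, sum_sub_distrib]

theorem avgJ_const_mul (x : ℝ) (Φ : (ι → ℕ) → ℝ) :
    avgJ L ι (fun J => x * Φ J) = x * avgJ L ι Φ := by
  simp [avgJ, mul_sum, mul_left_comm]

theorem avgJ_sum {κ : Type} (s : Finset κ) (Φ : κ → (ι → ℕ) → ℝ) :
    avgJ L ι (fun J => ∑ k ∈ s, Φ k J) = ∑ k ∈ s, avgJ L ι (Φ k) := by
  simp only [avgJ, mul_sum]
  exact sum_comm

theorem avgJ_nonneg {Φ : (ι → ℕ) → ℝ} (h : ∀ J, (∀ d, J d < L.T) → 0 ≤ Φ J) : 0 ≤ avgJ L ι Φ := by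
  have := avgJ_mono (L := L) (Φ := fun _ => 0) h
  rwa [avgJ_const] at this

theorem avgJ_le {Φ : (ι → ℕ) → ℝ} {x : ℝ} (h : ∀ J, (∀ d, J d < L.T) → Φ J ≤ x) :
    avgJ L ι Φ ≤ x := by
  have := avgJ_mono (L := L) (Ψ := fun _ => x) h
  rwa [avgJ_const] at this

theorem abs_avgJ_le (Φ : (ι → ℕ) → ℝ) : |avgJ L ι Φ| ≤ avgJ L ι (fun J => |Φ J|) := by
  refine (abs_sum_le_sum_abs _ _).trans (sum_le_sum fun J _ => ?_)
  rw [abs_mul, abs_of_nonneg (prod_nonneg fun _ _ => L.p_nonneg _)]

/-- resampling one coordinate of a product weight -/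
theorem sum_prod_update {κ : Type} [Fintype κ] (w : ι → κ → ℝ) (u : ι) (hw : ∑ x, w u x = 1)
    (Φ : (ι → κ) → ℝ) :
    ∑ J : ι → κ, (∏ d, w d (J d)) * ∑ x, w u x * Φ (update J u x) =
      ∑ J : ι → κ, (∏ d, w d (J d)) * Φ J := by
  rw [← (Equiv.piSplitAt u (fun _ : ι => κ)).symm.sum_comp,
    ← (Equiv.piSplitAt u (fun _ : ι => κ)).symm.sum_comp, Fintype.sum_prod_type,
    Fintype.sum_prod_type, sum_comm, sum_comm (s := univ (α := κ))]
  refine sum_congr rfl fun y _ => ?_
  have h1 : ∀ x x', update ((Equiv.piSplitAt u (fun _ : ι => κ)).symm (x, y)) u x' =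
      (Equiv.piSplitAt u (fun _ : ι => κ)).symm (x', y) := by
    intro x x'
    ext d
    by_cases hd : d = u
    · subst hd; simp [Equiv.piSplitAt]
    · simp [Equiv.piSplitAt, hd]
  have h2 : ∀ x, ∏ d, w d ((Equiv.piSplitAt u (fun _ : ι => κ)).symm (x, y) d) =
      w u x * ∏ d : {d // d ≠ u}, w d (y d) := by
    intro x
    rw [Fintype.prod_eq_mul_prod_subtype_ne _ u]
    congr 1
    · simp [Equiv.piSplitAt]
    · exact prod_congr rfl fun d _ => by simp [Equiv.piSplitAt, d.2]
  simp only [h1, h2]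
  rw [← sum_mul, ← sum_mul, hw, one_mul, mul_sum]
  exact sum_congr rfl fun x _ => by ring

theorem avgJ_update (u : ι) (Φ : (ι → ℕ) → ℝ) :
    avgJ L ι (fun J => ∑ x ∈ range L.T, L.p x * Φ (update J u x)) = avgJ L ι Φ := by
  unfold avgJ
  have hw : ∑ y : Fin L.T, L.p y = 1 := by
    rw [Fin.sum_univ_eq_sum_range (fun x => L.p x) L.T, L.sum_p_T]
  rw [← sum_prod_update (fun _ (y : Fin L.T) => L.p y) u hw
    (fun J => Φ fun d => (J d : ℕ))]
  refine sum_congr rfl fun J _ => ?_
  beta_reduce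
  rw [← sum_p_fin L (fun x => Φ (update (fun d => (J d : ℕ)) u x))]
  congr 1
  refine sum_congr rfl fun x _ => ?_
  congr 2
  ext d
  by_cases hd : d = u
  · subst hd; simp
  · simp [hd]

theorem Sys.E_avgJ {Ω : Type} [Fintype Ω] (S : Sys L Ω) (c : ℕ) (Φ : (ι → ℕ) → Fn Ω) (ω : ℕ → Ω) :
    S.E c (fun ω' => avgJ L ι fun J => Φ J ω') ω = avgJ L ι fun J => S.E c (Φ J) ω := by
  unfold avgJ
  rw [S.E_sum_apply]
  simp only [S.E_const_mul]

theorem Sys.N_avgJ_le {Ω I : Type} [Fintype Ω] [Fintype I] (S : Sys L Ω) (ω₀ : ℕ → Ω) (a : ℕ)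
    (Φ : (ι → ℕ) → I → Fn Ω) :
    S.N ω₀ a (fun i ω => avgJ L ι fun J => Φ J i ω) ≤ avgJ L ι fun J => S.N ω₀ a (Φ J) := by
  have : (fun i ω => avgJ L ι fun J => Φ J i ω) =
      ∑ J : ι → Fin L.T, (∏ d, L.p (J d)) • Φ (fun d => (J d : ℕ)) := by
    ext i ω; simp [avgJ]
  rw [this]
  refine (S.N_sum_le ω₀ a _ _).trans (sum_le_sum fun J _ => ?_)
  rw [S.N_smul, abs_of_nonneg (prod_nonneg fun _ _ => L.p_nonneg _)]
end AvgJ

end Crest.Agent.R141
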