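import Crest.Agent.R141.Defs

/-! Replica trees: definitions. Nodes are elements of a linear order; a tree is a root `r`, a
finite set `nd` of further nodes and a parent map. -/

set_option autoImplicit false
open Finset Function Crest.ProbabilityR.Diluted

namespace Crest.Agent.R141

section
variable {ι : Type} [LinearOrder ι]

/-- integrate out the node `d`: multiply the label of its parent by `T d (h d)` -/
def step {F : Type} [CommMonoid F] (par : ι → ι) (T : ι → F → F) (h : ι → F) (d : ι) : ι → F :=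
  update h (par d) (h (par d) * T d (h d))

/-- accumulated labels, the nodes being integrated out from the largest to the smallest -/
def acc {F : Type} [CommMonoid F] (nd : Finset ι) (par : ι → ι) (T : ι → F → F) (h : ι → F) :
    ι → F := (nd.sort (· ≥ ·)).foldl (step par T) h

/-- `(r, nd, par)` is a recursive tree -/
def Valid (r : ι) (nd : Finset ι) (par : ι → ι) : Prop :=
  ∀ d ∈ nd, r < d ∧ par d < d ∧ (par d = r ∨ par d ∈ nd)

instance (r : ι) (nd : Finset ι) (par : ι → ι) : Decidable (Valid r nd par) := by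
  unfold Valid; infer_instance

/-- birth levels: the root has level `x`, a node `q` has level `max (level of parent) (J q)` -/
def lev [WellFoundedLT ι] (nd : Finset ι) (par : ι → ι) (x : ℕ) (J : ι → ℕ) (q : ι) : ℕ :=
  if _h : q ∈ nd ∧ par q < q then max (lev nd par x J (par q)) (J q) else x
termination_by (wellFounded_lt (α := ι)).wrap q
decreasing_by exact _h.2

/-- the oldest ancestor of `q` sharing the first `b` coordinates with `q` -/
def top [WellFoundedLT ι] (nd : Finset ι) (par : ι → ι) (c : ι → ℕ) (b : ℕ) (q : ι) : ι :=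
  if _h : q ∈ nd ∧ par q < q ∧ b ≤ c q then top nd par c b (par q) else q
termination_by (wellFounded_lt (α := ι)).wrap q
decreasing_by exact _h.2.1

/-- strict descendants of `q` -/
def desc [WellFoundedLT ι] (nd : Finset ι) (par : ι → ι) (q : ι) : Finset ι :=
  nd.filter fun d => q < d ∧ top (nd.erase q) par (fun _ => 0) 0 d = q

/-- the path functionals of a tree with birth levels `c` and labels `h` -/
def Sys.gam {L : Lev} {Ω : Type} [Fintype Ω] (S : Sys L Ω) (nd : Finset ι) (par : ι → ι)
    (c : ι → ℕ) (h : ι → Fn Ω) : ι → Fn Ω := acc nd par (fun d f => S.E (c d) f) h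

/-- average over independent branching levels `J d ∼ p` -/
def avgJ (L : Lev) (ι : Type) [Fintype ι] [DecidableEq ι] (Φ : (ι → ℕ) → ℝ) : ℝ :=
  ∑ J : ι → Fin L.T, (∏ d, L.p (J d)) * Φ (fun d => (J d : ℕ))
end

/-- law of the parent of node `d` in a random recursive tree -/
noncomputable def kap {n₀ : ℕ} (d q : Fin (n₀ + 1)) : ℝ :=
  if d = 0 then (if q = 0 then 1 else 0) else if q < d then ((d : ℕ) : ℝ)⁻¹ else 0

/-- the non-root nodes of the tree with `n` replicas -/
def nodes (n₀ n : ℕ) : Finset (Fin (n₀ + 1)) := univ.filter fun d => 0 < d ∧ (d : ℕ) < n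

/-- the `n`-replica expectation of the product of the labels `h`, below level `a` -/
noncomputable def Sys.rep {L : Lev} {Ω : Type} [Fintype Ω] (S : Sys L Ω) (a n₀ n : ℕ)
    (h : Fin (n₀ + 1) → Fn Ω) (ω : ℕ → Ω) : ℝ :=
  ∑ par : Fin (n₀ + 1) → Fin (n₀ + 1), (∏ d, kap d (par d)) *
    avgJ L (Fin (n₀ + 1)) fun J =>
      S.E a (S.gam (nodes n₀ n) par (lev (nodes n₀ n) par a J) h 0) ω

/-- spin labels -/
noncomputable def spinLab {Ω I ι : Type} (sp : I → (ℕ → Ω) → Bool) (e : ι → Bool) (i : I) :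
    ι → Fn Ω := fun q ω => if e q then spinVal (sp i ω) else 1

/-- the decoupling error of one tree shape -/
noncomputable def Sys.treeErr {L : Lev} {Ω I : Type} [Fintype Ω] [Fintype I] (S : Sys L Ω)
    (ω₀ : ℕ → Ω) (sp : I → (ℕ → Ω) → Bool) {n : ℕ} (r : Fin n) (nd : Finset (Fin n))
    (par : Fin n → Fin n) (e : Fin n → Bool) : ℝ :=
  (L.T : ℝ)⁻¹ * ∑ a ∈ range L.T, avgJ L (Fin n) fun J =>
    S.N ω₀ a fun i => S.gam nd par (lev nd par a J) (spinLab sp e i) r

/-- the total decoupling error of all trees on `Fin n` with fewer than `k` non-root nodes -/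
noncomputable def Sys.coreErr {L : Lev} {Ω I : Type} [Fintype Ω] [Fintype I] (S : Sys L Ω)
    (ω₀ : ℕ → Ω) (sp : I → (ℕ → Ω) → Bool) (n k : ℕ) : ℝ :=
  ∑ r : Fin n, ∑ nd : Finset (Fin n), ∑ par : Fin n → Fin n, ∑ e : Fin n → Bool,
    if Valid r nd par ∧ nd.card < k then S.treeErr ω₀ sp r nd par e else 0

/-! ### states of the multi-parameter expansion -/

/-- non-root nodes, parent map, and the node on which each index is placed -/
structure St (ι : Type) where
  nd : Finset ι
  par : ι → ι
  pl : ι → ι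

/-- the states reached after processing the list of indices (latest first) -/
noncomputable def statesL {ι : Type} [LinearOrder ι] (r : ι) : List ι → List (St ι)
  | [] => [⟨∅, fun _ => r, fun _ => r⟩]
  | s :: l => (statesL r l).flatMap fun st => (insert r st.nd).toList.flatMap fun q =>
      [⟨st.nd, st.par, update st.pl s q⟩, ⟨insert s st.nd, update st.par s q, update st.pl s s⟩]

noncomputable def states {ι : Type} [LinearOrder ι] (r : ι) (S : Finset ι) : List (St ι) :=
  statesL r (S.sort (· ≥ ·))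

/-- all pair tests of the index set `insert r S` succeed -/
def Tests {ι : Type} [LinearOrder ι] [WellFoundedLT ι] (r : ι) (S : Finset ι) (lv : ι → ι → ℕ)
    (st : St ι) (c : ι → ℕ) : Prop :=
  ∀ s ∈ insert r S, ∀ s' ∈ insert r S, s < s' →
    top st.nd st.par c (lv s s') (st.pl s) = top st.nd st.par c (lv s s') (st.pl s')

instance {ι : Type} [LinearOrder ι] [WellFoundedLT ι] (r : ι) (S : Finset ι) (lv : ι → ι → ℕ)
    (st : St ι) (c : ι → ℕ) : Decidable (Tests r S lv st c) := by
  unfold Tests; infer_instance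

/-- labels of a state -/
def St.lab {ι Ω : Type} [LinearOrder ι] (r : ι) (S : Finset ι) (st : St ι) (u : ι → Fn Ω) :
    ι → Fn Ω := fun q => ∏ s ∈ (insert r S).filter (fun s => st.pl s = q), u s

/-- the contribution of one state to the leading coefficient -/
noncomputable def Sys.Wst {L : Lev} {Ω : Type} [Fintype Ω] (S' : Sys L Ω) (a : ℕ) {n : ℕ}
    (r : Fin n) (S : Finset (Fin n)) (lv : Fin n → Fin n → ℕ) (u : Fin n → Fn Ω) (st : St (Fin n)) :
    Fn Ω := fun ω => avgJ L (Fin n) fun J =>
      if Tests r S lv st (lev st.nd st.par a J)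
      then S'.gam st.nd st.par (lev st.nd st.par a J) (st.lab r S u) r ω else 0

/-- the leading coefficient of the expansion -/
noncomputable def Sys.W {L : Lev} {Ω : Type} [Fintype Ω] (S' : Sys L Ω) (a : ℕ) {n : ℕ}
    (r : Fin n) (S : Finset (Fin n)) (lv : Fin n → Fin n → ℕ) (u : Fin n → Fn Ω) : Fn Ω :=
  ((states r S).map fun st => ((-1 : ℝ) ^ st.nd.card) • S'.Wst a r S lv u st).sum

/-- the gadget factor of index `s` -/
def psi {ι Ω : Type} [LinearOrder ι] (r : ι) (S : Finset ι) (u : ι → Fn Ω) (ξ : ι → ι → Fn Ω)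
    (s : ι) : Fn Ω := u s * ∏ s' ∈ (insert r S).erase s, ξ (min s s') (max s s')

/-- the grid of test levels -/
def gridLv (T Lb : ℕ) : Finset ℕ := (range (T / Lb + 2)).image fun j => min (Lb * j) T

/-- arrays of test levels -/
def gridArr (n T Lb : ℕ) : Finset (Fin n → Fin n → ℕ) :=
  Fintype.piFinset fun _ => Fintype.piFinset fun _ => gridLv T Lb

/-- the perturbed Hamiltonian: `H` on the spins of the last coordinate plus one local term `pt k`
at the site `st k` for every `k` -/
def pertH (L : Lev) {𝒦 B Sg I : Type} [Fintype 𝒦] (pt : 𝒦 → Bool → (ℕ → B) → ℝ)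
    (spin : I → Sg → Bool) (H : Sg → ℝ) (st : 𝒦 → I) : Fn (Sg × B) :=
  fun ω => H (ω (L.T - 1)).1 + ∑ k, pt k (spin (st k) (ω (L.T - 1)).1) (fun j => (ω j).2)

/-- the hierarchical pinning statement -/
def CoreStmt : Prop :=
  ∀ (n : ℕ) (ε : ℝ), 0 < ε → ∃ (L : Lev) (𝒦 B : Type) (_ : Fintype 𝒦) (_ : DecidableEq 𝒦)
    (_ : Fintype B) (_ : Nonempty B) (pt : 𝒦 → Bool → (ℕ → B) → ℝ) (A : ℝ),
    L.Unif ∧ (L.T : ℝ)⁻¹ ≤ ε ∧ (∀ k b y, |pt k b y| ≤ A) ∧
    ∀ (Sg I : Type) [Fintype Sg] [Nonempty Sg] [Fintype I] [Nonempty I] (spin : I → Sg → Bool)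
      (H : Sg → ℝ) (ω₀ : ℕ → Sg × B),
      (Fintype.card (𝒦 → I) : ℝ)⁻¹ * ∑ st : 𝒦 → I,
        ((Sys.unif L (Sg × B)).tilt (pertH L pt spin H st)).coreErr ω₀
          (fun i ω => spin i (ω (L.T - 1)).1) n n ≤ ε

end Crest.Agent.R141
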