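import Crest.Agent.R141.TreeDefs
import Crest.Agent.R141.Approx

/-! Auxiliary lemmas for the upper bound: push-forward weights, uniform averages, thinning. -/

set_option autoImplicit false
set_option maxHeartbeats 400000
open Finset Function MeasureTheory Crest.ProbabilityR.Diluted

namespace Crest.Agent.R141.Up
open Sys

/-- push-forward of weights -/
def push {α ι : Type} [Fintype α] [DecidableEq ι] (e : α → ι) (w : α → ℝ) : ι → ℝ :=
  fun x => ∑ c, if e c = x then w c else 0

section push
variable {α ι : Type} [Fintype α] [Fintype ι] [DecidableEq ι]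

lemma push_nonneg (e : α → ι) {w : α → ℝ} (hw : ∀ c, 0 ≤ w c) (x : ι) : 0 ≤ push e w x :=
  sum_nonneg fun c _ => by split_ifs; exacts [hw c, le_rfl]

lemma sum_push (e : α → ι) (w : α → ℝ) (G : ι → ℝ) :
    ∑ x, push e w x * G x = ∑ c, w c * G (e c) := by
  simp only [push, sum_mul]
  rw [sum_comm]
  refine sum_congr rfl fun c _ => ?_
  simp [ite_mul]

lemma sum_push_one (e : α → ι) (w : α → ℝ) : ∑ x, push e w x = ∑ c, w c := by
  simpa using sum_push e w fun _ => 1

omit [Fintype ι] in
lemma exists_of_push_ne {e : α → ι} {w : α → ℝ} {x : ι} (h : push e w x ≠ 0) : ∃ c, e c = x := by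
  obtain ⟨c, _, hc⟩ := exists_ne_zero_of_sum_ne_zero h
  exact ⟨c, by by_contra h'; simp [h'] at hc⟩

lemma sum_prod_push {M : ℕ} (e : Fin M → α → ι) (w : α → ℝ) (G : (Fin M → ι) → ℝ) :
    ∑ xs : Fin M → ι, (∏ j, push (e j) w (xs j)) * G xs =
      ∑ cs : Fin M → α, (∏ j, w (cs j)) * G (fun j => e j (cs j)) := by
  simp only [push, Fintype.prod_sum, sum_mul]
  rw [sum_comm]
  refine sum_congr rfl fun cs _ => ?_
  rw [sum_eq_single (fun j => e j (cs j))]
  · simp
  · intro xs _ hx
    obtain ⟨j, hj⟩ := Function.ne_iff.1 hx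
    rw [prod_eq_zero (mem_univ j) (by simp [Ne.symm hj]), zero_mul]
  · simp
end push

/-- uniform average -/
noncomputable def avg {α : Type} [Fintype α] (F : α → ℝ) : ℝ := (Fintype.card α : ℝ)⁻¹ * ∑ x, F x

section avg
variable {α β : Type} [Fintype α] [Fintype β]

lemma avg_equiv (e : α ≃ β) (F : β → ℝ) : avg (fun x => F (e x)) = avg F := by
  unfold avg; rw [Fintype.card_congr e, Equiv.sum_comp e F]

lemma avg_const [Nonempty α] (c : ℝ) : avg (fun _ : α => c) = c := by
  have : (Fintype.card α : ℝ) ≠ 0 := by exact_mod_cast Fintype.card_ne_zero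
  simp [avg, this]

lemma avg_prod (F : α × β → ℝ) : avg F = avg fun a => avg fun b => F (a, b) := by
  simp only [avg, Fintype.card_prod, Fintype.sum_prod_type, ← mul_sum]
  push_cast; rw [mul_inv]; ring

lemma avg_comm (F : α → β → ℝ) : (avg fun a => avg fun b => F a b) = avg fun b => avg fun a => F a b := by
  simp only [avg, ← mul_sum]
  rw [sum_comm]; ring

lemma avg_fst [Nonempty β] (F : α → ℝ) : avg (fun x : α × β => F x.1) = avg F := by
  rw [avg_prod]; simp only [avg_const]

lemma avg_snd [Nonempty α] (F : β → ℝ) : avg (fun x : α × β => F x.2) = avg F := by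
  rw [avg_prod]; simp only [avg_const]

lemma avg_add (F G : α → ℝ) : avg (fun x => F x + G x) = avg F + avg G := by
  simp only [avg, sum_add_distrib, mul_add]

lemma avg_sum {κ : Type} (s : Finset κ) (F : κ → α → ℝ) :
    avg (fun x => ∑ k ∈ s, F k x) = ∑ k ∈ s, avg (F k) := by
  simp only [avg, ← mul_sum]; rw [sum_comm]

lemma avg_mono {F G : α → ℝ} (h : ∀ x, F x ≤ G x) : avg F ≤ avg G :=
  mul_le_mul_of_nonneg_left (sum_le_sum fun x _ => h x) (by positivity)

lemma abs_avg_le [Nonempty α] {F : α → ℝ} {B : ℝ} (h : ∀ x, |F x| ≤ B) : |avg F| ≤ B := by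
  rw [abs_le]
  constructor
  · have := avg_mono (F := fun _ => -B) (G := F) fun x => (abs_le.1 (h x)).1
    rwa [avg_const] at this
  · have := avg_mono (F := F) (G := fun _ => B) fun x => (abs_le.1 (h x)).2
    rwa [avg_const] at this

lemma avg_comp_inj {A A' : Type} [Fintype A] [Fintype A'] [DecidableEq A] [DecidableEq A']
    [Nonempty β] {ι : A' → A} (hι : Injective ι) (F : (A' → β) → ℝ) :
    avg (fun x : A → β => F (fun a => x (ι a))) = avg F := by
  classical
  let e₁ := Equiv.piEquivPiSubtypeProd (fun a => a ∈ Set.range ι) (fun _ : A => β)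
  let e₂ : ({a // a ∈ Set.range ι} → β) ≃ (A' → β) :=
    Equiv.arrowCongr (Equiv.ofInjective ι hι).symm (Equiv.refl β)
  have h1 : (fun x : A → β => F (fun a => x (ι a))) =
      fun x => (fun y : ({a // a ∈ Set.range ι} → β) × ({a // ¬ a ∈ Set.range ι} → β) =>
        F (e₂ y.1)) (e₁ x) := rfl
  rw [h1, avg_equiv e₁ (fun y => F (e₂ y.1)), avg_fst (fun y => F (e₂ y)), avg_equiv e₂]

lemma integral_avg {D : Type} [MeasurableSpace D] {μ : Measure D} {F : D → α → ℝ}
    (h : ∀ x, Integrable (fun d => F d x) μ) :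
    ∫ d, avg (F d) ∂μ = avg fun x => ∫ d, F d x ∂μ := by
  unfold avg
  rw [integral_const_mul, integral_finsetSum _ fun x _ => h x]

lemma integrable_avg {D : Type} [MeasurableSpace D] {μ : Measure D} {F : D → α → ℝ}
    (h : ∀ x, Integrable (fun d => F d x) μ) : Integrable (fun d => avg (F d)) μ :=
  (integrable_finsetSum _ fun x _ => h x).const_mul _

lemma avg_pi_eq {M : ℕ} (G : (Fin M → α) → ℝ) :
    ∑ cs : Fin M → α, (∏ _j : Fin M, (Fintype.card α : ℝ)⁻¹) * G cs = avg G := by
  simp [avg, mul_sum]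
end avg

lemma isPi_unif {L : Lev} {Ω Lab : Type} {Ω' : Lab → Type} [Fintype Ω] [Fintype Lab]
    [DecidableEq Lab] [∀ s, Fintype (Ω' s)] [Nonempty Ω] [∀ s, Nonempty (Ω' s)]
    (e : Ω ≃ ∀ s, Ω' s) :
    IsPi (unif L Ω) (fun s => unif L (Ω' s)) (fun s _ x => e x s) := by
  intro j _ ω F
  simp only [unif, ← mul_sum]
  rw [Equiv.sum_comp e (fun y => ∏ s, F s (y s)), ← Fintype.prod_sum, prod_mul_distrib,
    Fintype.card_congr e, Fintype.card_pi]
  simp

lemma isProj_unif' {L : Lev} {Ω Ω' : Type} [Fintype Ω] [Fintype Ω'] [Nonempty Ω] [Nonempty Ω']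
    (π : Ω → Ω') (h : ∀ F : Ω' → ℝ, avg (fun x => F (π x)) = avg F) :
    IsProj (unif L Ω) (unif L Ω') (fun _ => π) := isProj_unif _ fun _ F => h F

/-- restriction of a product measure along an injective map -/
lemma measurePreserving_comp_inj {A A' D : Type} [Fintype A] [Fintype A'] [MeasurableSpace D]
    (μ : Measure D) [IsProbabilityMeasure μ] {ι : A' → A} (hι : Injective ι) :
    MeasurePreserving (fun (x : A → D) a => x (ι a)) (Measure.pi fun _ => μ)
      (Measure.pi fun _ => μ) := by
  refine ⟨measurable_pi_lambda _ fun a => measurable_pi_apply _, ?_⟩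
  have h := (ProbabilityTheory.iIndepFun_pi (μ := fun _ : A => μ) (X := fun _ => id)
    (fun _ => aemeasurable_id)).precomp hι
  refine (h.map_fun_eq_pi_map (fun a => (measurable_pi_apply (ι a)).aemeasurable)).trans ?_
  congr 1
  ext a : 1
  exact (measurePreserving_eval (fun _ : A => μ) (ι a)).map_eq

/-- the number of hits of a site is binomial -/
lemma avg_hits {N : ℕ} (i : Fin N) (M : ℕ) (s : ℕ → ℝ) :
    avg (fun idx : Fin M → Fin N => s (univ.filter fun j => idx j = i).card) =
      ∑ z ∈ antidiagonal M, (M.choose z.1 : ℝ) *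
        (((N : ℝ)⁻¹) ^ z.1 * (1 - (N : ℝ)⁻¹) ^ z.2 * s z.1) := by
  have hN : (N : ℝ) ≠ 0 := by exact_mod_cast (Fin.pos i).ne'
  induction M generalizing s with
  | zero => simp [avg]
  | succ M ih =>
    rw [← avg_equiv (Fin.consEquiv fun _ => Fin N), avg_prod, avg_comm,
      sum_antidiagonal_choose_succ_mul
        (fun a b => ((N : ℝ)⁻¹) ^ a * (1 - (N : ℝ)⁻¹) ^ b * s a)]
    have h1 : ∀ idx : Fin M → Fin N, (avg fun a : Fin N =>
        s (univ.filter fun j => (Fin.consEquiv fun _ => Fin N) (a, idx) j = i).card) =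
        (1 - (N : ℝ)⁻¹) * s (univ.filter fun j => idx j = i).card +
          (N : ℝ)⁻¹ * s ((univ.filter fun j => idx j = i).card + 1) := by
      intro idx
      have h2 : ∀ a : Fin N,
          s (univ.filter fun j => (Fin.consEquiv fun _ => Fin N) (a, idx) j = i).card =
          s (univ.filter fun j => idx j = i).card + if a = i then
            s ((univ.filter fun j => idx j = i).card + 1) - s (univ.filter fun j => idx j = i).card
            else 0 := by
        intro a
        rw [Fin.card_filter_univ_succ']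
        simp only [Fin.consEquiv_apply, Fin.cons_zero, Fin.cons_succ]
        split_ifs <;> simp [add_comm]
      simp only [h2, avg, sum_add_distrib, sum_ite_eq', mem_univ, if_true, sum_const, card_univ,
        Fintype.card_fin, nsmul_eq_mul]
      field_simp; ring
    simp only [h1]
    rw [avg_add, ih (fun k => (1 - (N : ℝ)⁻¹) * s k), ih (fun k => (N : ℝ)⁻¹ * s (k + 1))]
    congr 1
    · exact sum_congr rfl fun z _ => by ring
    · refine sum_congr rfl fun z hz => ?_
      rw [Nat.choose_symm_of_eq_add (mem_antidiagonal.1 hz).symm]; ring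

lemma poissonWeight_nonneg' {lam : ℝ} (h : 0 ≤ lam) (k : ℕ) : 0 ≤ poissonWeight lam k := by
  unfold poissonWeight; positivity

/-- Poisson thinning -/
lemma thinning {lam q a b : ℝ} (hl : 0 ≤ lam) (hq0 : 0 ≤ q) (hq1 : q ≤ 1) (s : ℕ → ℝ)
    (hs : ∀ k, |s k| ≤ a + k * b) :
    HasSum (fun M : ℕ => poissonWeight lam M * ∑ z ∈ antidiagonal M, (M.choose z.1 : ℝ) *
        (q ^ z.1 * (1 - q) ^ z.2 * s z.1)) (∑' k, poissonWeight (lam * q) k * s k) := by
  have h1 : Summable fun k => ‖poissonWeight (lam * q) k * s k‖ := by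
    refine (Approx.summable_poisson (lam * q) a b).of_nonneg_of_le (fun _ => norm_nonneg _) fun k => ?_
    rw [norm_mul, Real.norm_of_nonneg (poissonWeight_nonneg' (by positivity) k)]
    exact mul_le_mul_of_nonneg_left (hs k) (poissonWeight_nonneg' (by positivity) k)
  have h3 : HasSum (fun l => poissonWeight (lam * (1 - q)) l) 1 := by
    convert hasSum_poi (lam * (1 - q)) using 2 with l
    unfold poissonWeight; ring
  have h2 : Summable fun l => ‖poissonWeight (lam * (1 - q)) l‖ := by
    simpa only [Real.norm_of_nonneg (poissonWeight_nonneg' (mul_nonneg hl (sub_nonneg.2 hq1)) _)]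
      using h3.summable
  have h4 := tsum_mul_tsum_eq_tsum_sum_antidiagonal_of_summable_norm h1 h2
  have h5 := (summable_norm_sum_mul_antidiagonal_of_summable_norm h1 h2).of_norm.hasSum
  rw [← h4, h3.tsum_eq, mul_one] at h5
  refine (congrArg (fun f => HasSum f _) (funext fun M => ?_)).mp h5
  symm
  rw [mul_sum]
  refine sum_congr rfl fun z hz => ?_
  have hz' := mem_antidiagonal.1 hz
  unfold poissonWeight
  rw [← hz', Nat.cast_add_choose, pow_add, mul_pow, mul_pow,
    show -lam = -(lam * q) + -(lam * (1 - q)) by ring, Real.exp_add]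
  field_simp

end Crest.Agent.R141.Up
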