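import Crest.Agent.R141.UpAux
import Crest.Agent.R141.Glue

/-! The slot system of the upper bound and the evaluation of both ends of the interpolation. -/

set_option autoImplicit false
set_option maxHeartbeats 400000
open Finset Function MeasureTheory Crest.ProbabilityR.Diluted

namespace Crest.Agent.R141.Up
open Sys

/-- the levels attached to admissible exponents -/
noncomputable def lev0 {r : ℕ} (m : Fin r → ℝ) (hm : AdmissibleExponents m) : Lev where
  T := r + 1
  m j := if h : j < r then m ⟨j, h⟩ else 1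
  T_pos := Nat.succ_pos r
  m_pos j := by split_ifs with h; exacts [(hm.2 _).1, one_pos]
  mono a b hab := by
    dsimp only
    split_ifs with h1 h2 h2
    · exact hm.1.monotone hab
    · exact (hm.2 _).2.le
    · omega
    · exact le_rfl
  last := by simp

lemma continuous_Xk {L : Lev} {Ω Θ : Type} [Fintype Ω] [TopologicalSpace Θ] (S : Sys L Ω)
    {V : Θ → Fn Ω} (h : ∀ ω, Continuous fun θ => V θ ω) (k c : ℕ) (ω : ℕ → Ω) :
    Continuous fun θ => S.Xk k c (V θ) ω := by
  induction k generalizing c ω with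
  | zero => exact h ω
  | succ k ih =>
    simp only [Xk, Q]
    refine continuous_const.mul (Continuous.log ?_ fun θ => (S.P_pos (fun _ => Real.exp_pos _) ω).ne')
    simp only [P_apply]
    exact continuous_finsetSum _ fun x _ =>
      continuous_const.mul (continuous_const.mul (ih _ _)).rexp

lemma abs_Xk_le {L : Lev} {Ω : Type} [Fintype Ω] (S : Sys L Ω) (k c : ℕ) {V : Fn Ω} {B : ℝ}
    (h : ∀ ω, |V ω| ≤ B) (ω : ℕ → Ω) : |S.Xk k c V ω| ≤ B := by
  have := S.abs_Xk_sub_le k c (V := V) (V' := fun _ => 0) (B := B) (by simpa using h) ω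
  simpa [Xk_const] using this

lemma X_unif {L : Lev} {r : ℕ} (hT : L.T = r + 1) {Ω : Type} [Fintype Ω] [Nonempty Ω] (V : Fn Ω) :
    (unif L Ω).X 0 V =
      (unif L Ω).Xk r 0 fun ω => Real.log (avg fun x => Real.exp (V (update ω r x))) := by
  rw [← (unif L Ω).Xk_X r 0 (by omega)]
  congr 1
  ext ω
  have h := (unif L Ω).X_last V ω
  rw [show L.T - 1 = r by omega, E_of_lt _ (by omega), E_of_le _ (by omega), P_apply] at h
  rw [zero_add, h]
  simp only [unif, avg, mul_sum]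

section
variable {p N M n r : ℕ}

abbrev Om (p N M n : ℕ) : Type := (Fin N → Bool) × (Fin M → Fin p → Fin n)
abbrev ChB (p N n : ℕ) : Type := (Fin p → Fin N) ⊕ (Fin p → Fin n)
abbrev ChA (p N n : ℕ) : Type := Fin N × (Fin p → Fin n)

/-- messages -/
def msg (g : (Fin (r + 1) → Fin n) → ℝ) (x₀ : Fin n) (ω : ℕ → Fin n) : ℝ :=
  g (Fin.cons x₀ fun d : Fin r => ω d)

lemma msg_congr (g : (Fin (r + 1) → Fin n) → ℝ) (x₀ : Fin n) {ω ω' : ℕ → Fin n}
    (h : ∀ d < r, ω d = ω' d) : msg g x₀ ω = msg g x₀ ω' := by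
  unfold msg
  congr 2
  ext d : 1
  exact h d d.2

def cst (ℓ : Fin (p - 1)) : Fin p := Fin.castLE (Nat.sub_le p 1) ℓ

lemma cst_inj : Injective (cst : Fin (p - 1) → Fin p) :=
  Fin.castLE_injective (Nat.sub_le p 1)

variable (g : (Fin (r + 1) → Fin n) → ℝ)

/-- the terms of slot `k` -/
noncomputable def Vt (k : Fin M) : ChB p N n ⊕ ChA p N n → Inter p → Fn (Om p N M n)
  | Sum.inl (Sum.inl idx), θ, ω => θ fun ℓ => (ω r).1 (idx ℓ)
  | Sum.inl (Sum.inr x₀), θ, ω =>
      Real.log (edgeTerm θ fun ℓ => msg g (x₀ ℓ) fun j => (ω j).2 k ℓ)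
  | Sum.inr c, θ, ω =>
      siteMessage θ (fun ℓ => msg g (c.2 (cst ℓ)) fun j => (ω j).2 k (cst ℓ)) ((ω r).1 c.1)

lemma Vt_congr (k : Fin M) (c : ChB p N n ⊕ ChA p N n) (θ : Inter p) {ω ω' : ℕ → Om p N M n}
    (h1 : (ω r).1 = (ω' r).1) (h2 : ∀ d < r, (ω d).2 k = (ω' d).2 k) :
    Vt g k c θ ω = Vt g k c θ ω' := by
  have h3 : ∀ x₀ ℓ, msg g x₀ (fun j => (ω j).2 k ℓ) = msg g x₀ fun j => (ω' j).2 k ℓ :=
    fun x₀ ℓ => msg_congr g x₀ fun d hd => by rw [h2 d hd]
  rcases c with (idx | x₀) | c <;> simp only [Vt, h1, h3]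

lemma abs_Vt_le (k : Fin M) (c : ChB p N n ⊕ ChA p N n) (θ : Inter p) (ω : ℕ → Om p N M n) :
    |Vt g k c θ ω| ≤ supNorm θ := by
  rcases c with (idx | x₀) | c
  · exact Approx.abs_le_supNorm _ _
  · exact Approx.abs_log_le (Approx.edge_bounds _ _)
  · exact Approx.abs_siteMessage _ _ _

lemma supNorm_nonneg (θ : Inter p) : 0 ≤ supNorm θ := by
  rw [supNorm_eq_norm]; exact norm_nonneg _

lemma continuous_logEdge (x : Fin p → ℝ) : Continuous fun θ : Inter p => Real.log (edgeTerm θ x) :=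
  (Approx.continuous_edge.comp (continuous_id.prodMk continuous_const)).log fun θ =>
    ((Real.exp_pos _).trans_le (Approx.edge_bounds θ x).1).ne'

lemma continuous_Vt (k : Fin M) (c : ChB p N n ⊕ ChA p N n) (ω : ℕ → Om p N M n) :
    Continuous fun θ => Vt g k c θ ω := by
  rcases c with (idx | x₀) | c
  · exact continuous_apply _
  · exact continuous_logEdge _
  · exact (Approx.continuous_siteMessage _).comp (continuous_id.prodMk continuous_const)

def ext {Ω : Type} (y : Fin (r + 1) → Ω) (j : ℕ) : Ω := if h : j < r + 1 then y ⟨j, h⟩ else y 0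

def res (r : ℕ) {Ω : Type} (ω : ℕ → Ω) (j : Fin (r + 1)) : Ω := ω j

lemma ext_res {Ω : Type} (ω : ℕ → Ω) {j : ℕ} (hj : j < r + 1) : ext (res r ω) j = ω j := by
  simp [ext, res, hj]

/-- the slot terms -/
noncomputable def slotTerms (p N M : ℕ) (μ : Measure (Inter p)) [IsProbabilityMeasure μ]
    (hμ : Integrable (fun θ => supNorm θ) μ) :
    Terms (Fin (r + 1) → Om p N M n) (Fin M × (ChB p N n ⊕ ChA p N n)) (Inter p) where
  ν := μ
  U x θ y := Vt g x.1 x.2 θ (ext y)
  nrm := supNorm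
  mU x := measurable_pi_lambda _ fun y => (continuous_Vt g x.1 x.2 (ext y)).measurable
  int := hμ
  le x θ := (pi_norm_le_iff_of_nonneg (supNorm_nonneg θ)).2 fun _ => abs_Vt_le g x.1 x.2 θ _

variable [NeZero n]

/-- base path -/
def om0 : ℕ → Om p N M n := fun _ => (fun _ => true, fun _ _ => 0)

/-- the free energy of the slot system -/
noncomputable def Phi (L : Lev) (r : ℕ) (H : (Fin (r + 1) → Om p N M n) → ℝ) : ℝ :=
  (unif L (Om p N M n)).X 0 (fun ω => H (res r ω)) om0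

lemma lip_Phi (L : Lev) : Lip 1 (Phi (p := p) (N := N) (M := M) (n := n) L r) :=
  ⟨zero_le_one, fun H H' => abs_X_sub_le _ _ (fun ω => by
    rw [one_mul]; exact norm_le_pi_norm (H - H') (res r ω)) _⟩

lemma Phi_eq (L : Lev) (μ : Measure (Inter p)) [IsProbabilityMeasure μ]
    (hμ : Integrable (fun θ => supNorm θ) μ) (H₀ : (Fin N → Bool) → ℝ)
    (cs : Fin M → ChB p N n ⊕ ChA p N n) (θs : Fin M → Inter p) :
    Phi L r ((fun y => H₀ (y (Fin.last r)).1) +
      ∑ j, (slotTerms g p N M μ hμ).U (j, cs j) (θs j)) =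
      (unif L (Om p N M n)).X 0 (fun ω => H₀ (ω r).1 + ∑ j, Vt g j (cs j) (θs j) ω) om0 := by
  unfold Phi
  congr 1
  ext ω
  simp only [Pi.add_apply, Finset.sum_apply, slotTerms]
  congr 1
  exact sum_congr rfl fun j _ => Vt_congr g _ _ _ (by rw [ext_res ω (by omega)])
    fun d hd => by rw [ext_res ω (by omega)]

/-- log-average -/
noncomputable def Psi (H : (Fin N → Bool) → ℝ) : ℝ := Real.log (avg fun σ => Real.exp (H σ))

/-- the edge functional -/
noncomputable def edgeX (L : Lev) (θ : Inter p) (x₀ : Fin p → Fin n) : ℝ :=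
  (unif L (Fin p → Fin n)).Xk r 0 (fun ω' => Real.log (edgeTerm θ fun ℓ =>
    msg g (x₀ ℓ) (pmap (fun _ x => x ℓ) ω'))) (fun _ _ => 0)

/-- the site functional -/
noncomputable def siteX (L : Lev) (k : ℕ) (h : ℝ) (θs : Fin k → Inter p)
    (x₀ : Fin k × Fin (p - 1) → Fin n) : ℝ :=
  (unif L (Fin k × Fin (p - 1) → Fin n)).Xk r 0 (fun ω' => Real.log (siteTerm h θs fun j ℓ =>
    msg g (x₀ (j, ℓ)) (pmap (fun _ x => x (j, ℓ)) ω'))) (fun _ _ => 0)

/-- the terms of the reduced system -/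
noncomputable def Ured (L : Lev) : ChB p N n → Inter p → (Fin N → Bool) → ℝ
  | Sum.inl idx, θ, σ => θ fun ℓ => σ (idx ℓ)
  | Sum.inr x₀, θ, _ => edgeX g L θ x₀

lemma Psi_add_const (H : (Fin N → Bool) → ℝ) (c : ℝ) : Psi (fun σ => H σ + c) = Psi H + c := by
  unfold Psi avg
  simp only [Real.exp_add, ← sum_mul, ← mul_assoc]
  rw [Real.log_mul _ (Real.exp_pos _).ne', Real.log_exp]
  have : (0 : ℝ) < Fintype.card (Fin N → Bool) := by exact_mod_cast Fintype.card_pos
  exact (mul_pos (inv_pos.2 this) (sum_pos (fun _ _ => Real.exp_pos _) univ_nonempty)).ne'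

/-- the clause/edge end -/
lemma end_B {L : Lev} (hT : L.T = r + 1) (H₀ : (Fin N → Bool) → ℝ) (cs : Fin M → ChB p N n)
    (θs : Fin M → Inter p) :
    (unif L (Om p N M n)).X 0 (fun ω => H₀ (ω r).1 + ∑ j, Vt g j (Sum.inl (cs j)) (θs j) ω) om0 =
      Psi (H₀ + ∑ j, Ured g L (cs j) (θs j)) := by
  let G : (Fin N → Bool) → ℝ := fun σ => H₀ σ +
    ∑ j, Sum.elim (fun idx => θs j fun ℓ => σ (idx ℓ)) (fun _ => (0 : ℝ)) (cs j)
  let W : Fin M → Fn (Fin p → Fin n) := fun j ω' => Sum.elim (fun _ => (0 : ℝ))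
    (fun x₀ => Real.log (edgeTerm (θs j) fun ℓ => msg g (x₀ ℓ) (pmap (fun _ x => x ℓ) ω'))) (cs j)
  have hP := (isProd_unif (L := L) (Equiv.refl (Om p N M n))).X 0 (fun ω₁ => G (ω₁ r))
    (fun ω₂ => ∑ j, W j (pmap (fun _ x => x j) ω₂))
  have e1 : (fun ω : ℕ → Om p N M n => H₀ (ω r).1 + ∑ j, Vt g j (Sum.inl (cs j)) (θs j) ω) =
      fun ω => G (pmap (fun _ x => (Equiv.refl (Om p N M n) x).1) ω r) +
        ∑ j, W j (pmap (fun _ x => x j) (pmap (fun _ x => (Equiv.refl (Om p N M n) x).2) ω)) := by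
    ext ω
    simp only [G, W, add_assoc, ← sum_add_distrib]
    congr 1
    refine sum_congr rfl fun j _ => ?_
    rcases cs j with idx | x₀
    · simp [Vt, pmap]
    · simp only [Vt, Sum.elim_inr, zero_add]; rfl
  rw [e1, hP]
  dsimp only
  rw [← pi_unif (Lab := Fin M), (isPi_pi fun _ : Fin M => unif L (Fin p → Fin n)).X 0 W, X_unif hT]
  simp only [update_self, Xk_const]
  have e2 : H₀ + ∑ j, Ured g L (cs j) (θs j) = fun σ => G σ +
      ∑ j, Sum.elim (fun _ => (0 : ℝ)) (fun x₀ => edgeX g L (θs j) x₀) (cs j) := by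
    ext σ
    simp only [G, Pi.add_apply, Finset.sum_apply, add_assoc, ← sum_add_distrib]
    congr 1
    refine sum_congr rfl fun j _ => ?_
    rcases cs j with idx | x₀ <;> simp [Ured]
  rw [e2, Psi_add_const]
  congr 1
  refine sum_congr rfl fun j _ => ?_
  simp only [W]
  rcases cs j with idx | x₀
  · simp only [Sum.elim_inl, X_const]
  · simp only [Sum.elim_inr]
    rw [X_unif hT]
    unfold edgeX
    congr 1
    ext ω
    have : ∀ x ℓ, msg g (x₀ ℓ) (pmap (fun _ x => x ℓ) (update ω r x)) =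
        msg g (x₀ ℓ) (pmap (fun _ x => x ℓ) ω) := fun x ℓ =>
      msg_congr g _ fun d hd => by simp [pmap, update_of_ne hd.ne]
    simp only [this, avg_const, Real.log_exp]

/-- one site of the field end -/
lemma end_site {L : Lev} (hT : L.T = r + 1) {κ : Type} [Fintype κ] [DecidableEq κ] {k : ℕ}
    (e : Fin k ≃ κ) (h : ℝ) (θ : κ → Inter p) (x₀ : κ → Fin p → Fin n) :
    (unif L (Bool × (κ → Fin p → Fin n))).X 0 (fun ω => h * spinVal (ω r).1 +
      ∑ j, siteMessage (θ j) (fun ℓ => msg g (x₀ j (cst ℓ)) fun d => (ω d).2 j (cst ℓ)) (ω r).1)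
      (fun _ => (true, fun _ _ => 0)) =
      siteX g L k h (fun j => θ (e j)) (fun q => x₀ (e q.1) (cst q.2)) := by
  let π : Bool × (κ → Fin p → Fin n) → (Fin k × Fin (p - 1) → Fin n) :=
    fun x q => x.2 (e q.1) (cst q.2)
  have hπ : IsProj (unif L (Bool × (κ → Fin p → Fin n))) (unif L (Fin k × Fin (p - 1) → Fin n))
      (fun _ => π) := by
    refine isProj_unif' π fun F => ?_
    rw [avg_snd (fun y : κ → Fin p → Fin n => F fun q => y (e q.1) (cst q.2)),
      ← avg_equiv (Equiv.curry κ (Fin p) (Fin n))]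
    exact avg_comp_inj (ι := Prod.map e cst) (e.injective.prodMap cst_inj) F
  have h1 := congrFun (hπ.Xk r 0 (by omega) (fun ω' => Real.log (siteTerm h (fun j => θ (e j))
    fun j ℓ => msg g (x₀ (e j) (cst ℓ)) (pmap (fun _ x => x (j, ℓ)) ω'))))
    (fun _ => (true, fun _ _ => 0))
  rw [X_unif hT]
  refine Eq.trans ?_ h1
  congr 1
  ext ω
  congr 1
  have : ∀ x j ℓ, msg g (x₀ j (cst ℓ)) (fun d => (update ω r x d).2 j (cst ℓ)) =
      msg g (x₀ j (cst ℓ)) (fun d => (ω d).2 j (cst ℓ)) := fun x j ℓ =>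
    msg_congr g _ fun d hd => by simp [update_of_ne hd.ne]
  simp only [this, update_self]
  rw [avg_fst (fun ε : Bool => Real.exp (h * spinVal ε + ∑ j, siteMessage (θ j)
    (fun ℓ => msg g (x₀ j (cst ℓ)) fun d => (ω d).2 j (cst ℓ)) ε))]
  unfold avg siteTerm
  simp only [← Equiv.sum_comp e]
  congr 1
  simp

/-- enumeration of the slots sitting at site `i` -/
noncomputable def fib (idx : Fin M → Fin N) (i : Fin N) :
    Fin (univ.filter fun j => idx j = i).card ≃ {j // idx j = i} :=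
  (Fintype.equivFinOfCardEq (Fintype.card_subtype _)).symm

/-- the field end -/
lemma end_A {L : Lev} (hT : L.T = r + 1) (hs : Fin N → ℝ) (idx : Fin M → Fin N)
    (x₀ : Fin M → Fin p → Fin n) (θs : Fin M → Inter p) :
    (unif L (Om p N M n)).X 0 (fun ω => ∑ i, hs i * spinVal ((ω r).1 i) +
      ∑ j, Vt g j (Sum.inr (idx j, x₀ j)) (θs j) ω) om0 =
      ∑ i, siteX g L _ (hs i) (fun j => θs (fib idx i j))
        (fun q => x₀ (fib idx i q.1) (cst q.2)) := by
  let e : Om p N M n ≃ ∀ i : Fin N, Bool × ({j // idx j = i} → Fin p → Fin n) :=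
    { toFun := fun x i => (x.1 i, fun k => x.2 k.1)
      invFun := fun y => (fun i => (y i).1, fun j => (y (idx j)).2 ⟨j, rfl⟩)
      left_inv := fun x => rfl
      right_inv := fun y => by
        funext i
        refine Prod.ext rfl ?_
        funext k
        rcases k with ⟨k, rfl⟩
        rfl }
  have hP := congrFun ((isPi_unif (L := L) e).X 0 (fun i ω => hs i * spinVal (ω r).1 +
    ∑ j : {j // idx j = i}, siteMessage (θs j)
      (fun ℓ => msg g (x₀ j (cst ℓ)) fun d => (ω d).2 j (cst ℓ)) (ω r).1)) om0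
  refine Eq.trans ?_ (hP.trans (sum_congr rfl fun i _ => end_site g hT (fib idx i) _ _ _))
  congr 1
  ext ω
  rw [sum_add_distrib, ← Fintype.sum_fiberwise idx]
  congr 1
  refine sum_congr rfl fun i _ => sum_congr rfl fun j _ => ?_
  rcases j with ⟨j, rfl⟩
  rfl

end

end Crest.Agent.R141.Up
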