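import Crest.Agent.R141.UpEnds

/-! The upper bound from the one-slot inequality. -/

set_option autoImplicit false
set_option maxHeartbeats 400000
open Finset Function MeasureTheory Crest.ProbabilityR.Diluted

namespace Crest.Agent.R141.Up
open Sys

/-- the one-slot (Franz–Leone) inequality -/
def FL (p : ℕ) (μ : Measure (Inter p)) : Prop :=
  ∀ (L : Lev) (Ω Ω₁ Ω₂ Ω₀ I : Type) [Fintype Ω] [Fintype Ω₁] [Fintype Ω₂] [Fintype Ω₀] [Fintype I]
    [DecidableEq Ω₀] [DecidableEq I] [Nonempty Ω₀] [Nonempty I]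
    (S : Sys L Ω) (S₁ : Sys L Ω₁) (S₂ : Sys L Ω₂) (π₁ : ℕ → Ω → Ω₁) (π₂ : ℕ → Ω → Fin p → Ω₂),
    IsProd S S₁ (Sys.pi fun _ => S₂) π₁ π₂ →
    ∀ (sp : I → (ℕ → Ω₁) → Bool) (ms : Ω₀ → Fn Ω₂) (ω₀ : ℕ → Ω) (ω₂ : ℕ → Ω₂),
    (∀ j ℓ, π₂ j (ω₀ j) ℓ = ω₂ j) →
    (p : ℝ)⁻¹ * ∫ θ, avg (fun idx : Fin p → I =>
        S.X 0 (fun ω => θ fun ℓ => sp (idx ℓ) (pmap π₁ ω)) ω₀) ∂μ +
      (p - 1) * (p : ℝ)⁻¹ * ∫ θ, avg (fun x₀ : Fin p → Ω₀ => S.X 0 (fun ω => Real.log
        (edgeTerm θ fun ℓ => ms (x₀ ℓ) fun j => π₂ j (ω j) ℓ)) ω₀) ∂μ ≤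
      ∫ θ, avg (fun c : I × (Fin p → Ω₀) => S.X 0 (fun ω => siteMessage θ
        (fun ℓ => ms (c.2 (cst ℓ)) fun j => π₂ j (ω j) (cst ℓ)) (sp c.1 (pmap π₁ ω))) ω₀) ∂μ

section
variable {p N M n r : ℕ} (g : (Fin (r + 1) → Fin n) → ℝ) [NeZero n] [NeZero N]

noncomputable def wB (p N n : ℕ) : ChB p N n → ℝ :=
  Sum.elim (fun _ => (p : ℝ)⁻¹ * (Fintype.card (Fin p → Fin N) : ℝ)⁻¹)
    (fun _ => (p - 1) * (p : ℝ)⁻¹ * (Fintype.card (Fin p → Fin n) : ℝ)⁻¹)

noncomputable def wA (p N n : ℕ) : ChA p N n → ℝ := fun _ => (Fintype.card (ChA p N n) : ℝ)⁻¹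

omit [NeZero n] [NeZero N] in
lemma wB_nonneg (hp : 1 ≤ p) (c : ChB p N n) : 0 ≤ wB p N n c := by
  have : (0 : ℝ) ≤ p - 1 := sub_nonneg.2 (by exact_mod_cast hp)
  rcases c with c | c <;> simp only [wB, Sum.elim_inl, Sum.elim_inr] <;> positivity

omit [NeZero n] [NeZero N] in
lemma sum_wB (G : ChB p N n → ℝ) : ∑ c, wB p N n c * G c =
    (p : ℝ)⁻¹ * avg (fun idx => G (Sum.inl idx)) +
      (p - 1) * (p : ℝ)⁻¹ * avg (fun x₀ => G (Sum.inr x₀)) := by
  simp only [Fintype.sum_sum_type, wB, Sum.elim_inl, Sum.elim_inr, avg, ← mul_sum, mul_assoc]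

lemma sum_wB_one (hp : 1 ≤ p) : ∑ c, wB p N n c = 1 := by
  have := sum_wB (p := p) (N := N) (n := n) fun _ => 1
  simp only [mul_one, avg_const] at this
  have hp' : (p : ℝ) ≠ 0 := by positivity
  rw [this]; field_simp; ring

variable (μ : Measure (Inter p)) [IsProbabilityMeasure μ] (hμ : Integrable (fun θ => supNorm θ) μ)

include hμ in
lemma integrable_of_le {F : Inter p → ℝ} (hF : Continuous F) (h : ∀ θ, |F θ| ≤ supNorm θ) :
    Integrable F μ := hμ.mono' hF.aestronglyMeasurable (Filter.Eventually.of_forall h)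

/-- functionals not depending on slot `k` -/
def Ind (r : ℕ) (k : Fin M) : Set ((Fin (r + 1) → Om p N M n) → ℝ) :=
  {H | ∀ y y' : Fin (r + 1) → Om p N M n,
    (∀ j, (y j).1 = (y' j).1 ∧ ∀ k', k' ≠ k → (y j).2 k' = (y' j).2 k') → H y = H y'}

lemma slot_step (hp : 1 ≤ p) (hFL : FL p μ) (L : Lev) (k : Fin M) (H : (Fin (r + 1) → Om p N M n) → ℝ)
    (hH : H ∈ Ind r k) :
    (slotTerms g p N M μ hμ).T (push (fun c => (k, Sum.inl c)) (wB p N n)) (Phi L r) H ≤
      (slotTerms g p N M μ hμ).T (push (fun c => (k, Sum.inr c)) (wA p N n)) (Phi L r) H := by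
  let e : Om p N M n ≃ ((Fin N → Bool) × ({k' // k' ≠ k} → Fin p → Fin n)) × (Fin p → Fin n) :=
    { toFun := fun x => ((x.1, fun k' => x.2 k'.1), x.2 k)
      invFun := fun z => (z.1.1, fun k' => if h : k' = k then z.2 else z.1.2 ⟨k', h⟩)
      left_inv := fun x => by
        refine Prod.ext rfl ?_
        funext k'
        by_cases h : k' = k <;> simp [h]
      right_inv := fun z => by
        refine Prod.ext (Prod.ext rfl ?_) (by simp)
        funext k'
        simp [k'.2] }
  let H' : Fn ((Fin N → Bool) × ({k' // k' ≠ k} → Fin p → Fin n)) :=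
    fun ω₁ => H (fun j => e.symm (ω₁ j, 0))
  have hH' : (fun ω => H (res r ω)) = fun ω => H' (pmap (fun _ x => (e x).1) ω) := by
    ext ω
    refine hH _ _ fun j => ⟨rfl, fun k' hk' => ?_⟩
    simp [e, pmap, res, hk']
  have hprod := (isProd_unif (L := L) e).tilt_left H'
  rw [← hH', ← pi_unif (Lab := Fin p)] at hprod
  set S := (unif L (Om p N M n)).tilt fun ω => H (res r ω) with hS
  have key := hFL L _ _ _ (Fin n) (Fin N) _ _ _ _ _ hprod (fun i ω₁ => (ω₁ r).1 i) (msg g) om0
    (fun _ => 0) (fun _ _ => rfl)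
  have hΦ : ∀ c θ, Phi L r (H + (slotTerms g p N M μ hμ).U (k, c) θ) =
      Phi L r H + S.X 0 (Vt g k c θ) om0 := by
    intro c θ
    have := congrFun ((unif L (Om p N M n)).X_add 0 (fun ω => H (res r ω)) (Vt g k c θ)) om0
    refine Eq.trans ?_ this
    unfold Phi
    congr 1
    ext ω
    simp only [Pi.add_apply, slotTerms]
    congr 1
    exact Vt_congr g _ _ _ (by rw [ext_res ω (by omega)]) fun d hd => by rw [ext_res ω (by omega)]
  have hint : ∀ c, Integrable (fun θ => S.X 0 (Vt g k c θ) om0) μ := fun c =>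
    integrable_of_le μ hμ (continuous_Xk S (continuous_Vt g k c) _ _ _)
      fun θ => S.abs_X_le 0 (abs_Vt_le g k c θ) _
  have hI : ∀ c, ∫ θ, Phi L r (H + (slotTerms g p N M μ hμ).U (k, c) θ) ∂μ =
      Phi L r H + ∫ θ, S.X 0 (Vt g k c θ) om0 ∂μ := by
    intro c
    simp only [hΦ]
    rw [integral_add (integrable_const _) (hint c)]; simp
  rw [Terms.T_eq _ _ (lip_Phi L), Terms.T_eq _ _ (lip_Phi L), sum_push, sum_push]
  change ∑ c, wB p N n c * ∫ θ, Phi L r (H + (slotTerms g p N M μ hμ).U (k, Sum.inl c) θ) ∂μ ≤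
    ∑ c, wA p N n c * ∫ θ, Phi L r (H + (slotTerms g p N M μ hμ).U (k, Sum.inr c) θ) ∂μ
  simp only [hI, mul_add, sum_add_distrib, ← sum_mul, sum_wB_one hp]
  have hA : ∑ c, wA p N n c = 1 := by
    have := avg_const (α := ChA p N n) 1
    simpa only [avg, wA, mul_sum, mul_one] using this
  rw [hA, sum_wB]
  refine add_le_add le_rfl ?_
  simp only [wA, ← mul_sum]
  rw [← integral_avg fun idx => hint _, ← integral_avg fun x₀ => hint _]
  exact key.trans (le_of_eq (integral_avg fun c => hint (Sum.inr c)))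

include hμ in
/-- Lindeberg replacement for a fixed number of slots and fixed fields -/
lemma slots_le (hp : 1 ≤ p) (hFL : FL p μ) {L : Lev} (hT : L.T = r + 1) (hs : Fin N → ℝ) :
    ∫ θs : Fin M → Inter p, ∑ cs : Fin M → ChB p N n, (∏ j, wB p N n (cs j)) *
        Psi ((fun σ => ∑ i, hs i * spinVal (σ i)) + ∑ j, Ured g L (cs j) (θs j))
        ∂(Measure.pi fun _ => μ) ≤
      ∫ θs : Fin M → Inter p, avg (fun idx : Fin M → Fin N => ∑ i,
        avg (siteX g L _ (hs i) fun j => θs (fib idx i j))) ∂(Measure.pi fun _ => μ) := by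
  have hwA : ∀ c, 0 ≤ wA p N n c := fun c => by unfold wA; positivity
  have h := (slotTerms g p N M μ hμ).F_lindeberg M
    (fun k => push (fun c => (k, Sum.inr c)) (wA p N n))
    (fun k => push (fun c => (k, Sum.inl c)) (wB p N n))
    (fun k => push_nonneg _ hwA) (fun k => push_nonneg _ (wB_nonneg hp)) (lip_Phi L) (Ind r)
    (fun k k' hkk H hH x θ hx y y' hy => by
      have hx1 : x.1 = k' := by
        rcases hx with hx | hx <;> obtain ⟨c, rfl⟩ := exists_of_push_ne hx <;> rfl
      have he : ∀ j, (ext y j).1 = (ext y' j).1 ∧ (ext y j).2 k' = (ext y' j).2 k' := by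
        intro j
        unfold ext
        split_ifs
        · exact ⟨(hy _).1, (hy _).2 _ hkk.symm⟩
        · exact ⟨(hy _).1, (hy _).2 _ hkk.symm⟩
      simp only [Pi.add_apply, hH y y' hy, slotTerms]
      congr 1
      exact Vt_congr g _ _ _ (he r).1 fun d _ => by rw [hx1]; exact (he d).2)
    (slot_step g μ hμ hp hFL L)
    (fun y => (fun σ : Fin N → Bool => ∑ i, hs i * spinVal (σ i)) (y (Fin.last r)).1)
    (fun k y y' hy => by simp only [(hy _).1])
  rw [Terms.F_eq _ _ _ (lip_Phi L), Terms.F_eq _ _ _ (lip_Phi L)] at h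
  simp only [sum_prod_push, Phi_eq g L μ hμ (fun σ => ∑ i, hs i * spinVal (σ i)),
    end_B g hT (fun σ => ∑ i, hs i * spinVal (σ i))] at h
  refine h.trans (le_of_eq ?_)
  refine integral_congr_ae (Filter.Eventually.of_forall fun θs => ?_)
  simp only [wA]
  rw [avg_pi_eq, ← avg_equiv (Equiv.arrowProdEquivProdArrow _ _ _).symm, avg_prod]
  congr 1
  ext idx
  have : ∀ x₀ : Fin M → Fin p → Fin n, (unif L (Om p N M n)).X 0
      (fun ω => ∑ i, hs i * spinVal ((ω r).1 i) + ∑ j, Vt g j (Sum.inr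
        ((Equiv.arrowProdEquivProdArrow (Fin M) (fun _ => Fin N) fun _ => Fin p → Fin n).symm
          (idx, x₀) j)) (θs j) ω) om0 = _ := fun x₀ => end_A g hT hs idx x₀ θs
  simp only [this]
  rw [avg_sum]
  refine sum_congr rfl fun i _ => ?_
  rw [← avg_equiv (Equiv.curry (Fin M) (Fin p) (Fin n))]
  exact avg_comp_inj (ι := Prod.map (fun j => (fib idx i j : Fin M)) cst)
    ((Subtype.val_injective.comp (fib idx i).injective).prodMap cst_inj) _

omit [NeZero N] in
lemma Psi_mono {H H' : (Fin N → Bool) → ℝ} (h : ∀ σ, H σ ≤ H' σ) : Psi H ≤ Psi H' := by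
  have : (0 : ℝ) < Fintype.card (Fin N → Bool) := by exact_mod_cast Fintype.card_pos
  exact Real.log_le_log (mul_pos (inv_pos.2 this) (sum_pos (fun _ _ => Real.exp_pos _) univ_nonempty))
    (avg_mono fun σ => Real.exp_le_exp.2 (h σ))

omit [NeZero N] in
lemma lip_Psi : Lip 1 (Psi (N := N)) := by
  refine ⟨zero_le_one, fun H H' => ?_⟩
  have h0 : ∀ σ, |H σ - H' σ| ≤ ‖H - H'‖ := fun σ => norm_le_pi_norm (H - H') σ
  have h1 := Psi_mono (H := H) (H' := fun σ => H' σ + ‖H - H'‖)
    fun σ => by linarith [(abs_le.1 (h0 σ)).2]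
  have h2 := Psi_mono (H := H') (H' := fun σ => H σ + ‖H - H'‖)
    fun σ => by linarith [(abs_le.1 (h0 σ)).1]
  rw [Psi_add_const] at h1 h2
  rw [abs_le]; constructor <;> linarith

omit [NeZero N] in
lemma abs_Psi_le {H : (Fin N → Bool) → ℝ} {B : ℝ} (h : ∀ σ, |H σ| ≤ B) : |Psi H| ≤ B := by
  have h0 : Psi (N := N) (fun _ => 0) = 0 := by simp [Psi, avg_const]
  have h1 := Psi_mono (H := H) (H' := fun _ => 0 + B) fun σ => by linarith [(abs_le.1 (h σ)).2]
  have h2 := Psi_mono (H := fun _ => 0 + -B) (H' := H) fun σ => by linarith [(abs_le.1 (h σ)).1]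
  rw [Psi_add_const (fun _ => 0), h0] at h1 h2
  rw [abs_le]; constructor <;> linarith

/-- the external field -/
def fld (hs : Fin N → ℝ) : (Fin N → Bool) → ℝ := fun σ => ∑ i, hs i * spinVal (σ i)

omit [NeZero N] in
lemma abs_fld_le (hs : Fin N → ℝ) (σ : Fin N → Bool) : |fld hs σ| ≤ ∑ i, |hs i| := by
  refine (abs_sum_le_sum_abs _ _).trans (sum_le_sum fun i _ => ?_)
  rw [abs_mul]
  unfold spinVal; split_ifs <;> simp

omit [NeZero N] in
lemma continuous_fld : Continuous (fld (N := N)) := by unfold fld; fun_prop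

omit [NeZero N] in
lemma abs_edgeX_le (L : Lev) (θ : Inter p) (x₀ : Fin p → Fin n) : |edgeX g L θ x₀| ≤ supNorm θ :=
  abs_Xk_le _ _ _ (fun _ => Approx.abs_log_le (Approx.edge_bounds _ _)) _

omit [NeZero N] in
lemma continuous_edgeX (L : Lev) (x₀ : Fin p → Fin n) : Continuous fun θ => edgeX g L θ x₀ :=
  continuous_Xk _ (fun _ => continuous_logEdge _) _ _ _

omit [NeZero N] in
lemma abs_Ured_le (L : Lev) (c : ChB p N n) (θ : Inter p) (σ : Fin N → Bool) :
    |Ured g L c θ σ| ≤ supNorm θ := by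
  rcases c with idx | x₀
  · exact Approx.abs_le_supNorm θ _
  · exact abs_edgeX_le g L θ x₀

omit [NeZero N] in
lemma continuous_Ured (L : Lev) (c : ChB p N n) : Continuous fun θ => Ured g L c θ := by
  refine continuous_pi fun σ => ?_
  rcases c with idx | x₀
  · exact continuous_apply _
  · exact continuous_edgeX g L x₀

/-- the reduced terms -/
noncomputable def redTerms (N : ℕ) (L : Lev) : Terms (Fin N → Bool) (ChB p N n) (Inter p) where
  ν := μ
  U := Ured g L
  nrm := supNorm
  mU x := (continuous_Ured g L x).measurable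
  int := hμ
  le x θ := (pi_norm_le_iff_of_nonneg (supNorm_nonneg θ)).2 fun _ => abs_Ured_le g L x θ _

omit [NeZero N] in
lemma abs_siteX_le (L : Lev) (k : ℕ) (h : ℝ) (θs : Fin k → Inter p)
    (x₀ : Fin k × Fin (p - 1) → Fin n) : |siteX g L k h θs x₀| ≤ |h| + ∑ j, supNorm (θs j) :=
  abs_Xk_le _ _ _ (fun _ => Approx.abs_log_le (Approx.site_bounds _ _ _)) _

omit [NeZero N] in
lemma continuous_siteF (L : Lev) (k : ℕ) :
    Continuous fun z : (Fin k → Inter p) × ℝ => avg (siteX g L k z.2 z.1) := by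
  unfold avg
  refine continuous_const.mul (continuous_finsetSum _ fun x₀ _ => ?_)
  refine continuous_Xk _ (fun ω => ?_) _ _ _
  exact (Approx.continuous_site.comp (continuous_id.prodMk continuous_const)).log fun z =>
    ((Real.exp_pos _).trans_le (Approx.site_bounds _ _ _).1).ne'

variable (ν : Measure ℝ) [IsProbabilityMeasure ν] (hν : Integrable (fun x : ℝ => x) ν)

omit [NeZero N] in
include hμ in
lemma integrable_sum_supNorm (M : ℕ) :
    Integrable (fun θs : Fin M → Inter p => ∑ j, supNorm (θs j)) (Measure.pi fun _ => μ) :=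
  integrable_finsetSum _ fun j _ =>
    (measurePreserving_eval (fun _ : Fin M => μ) j).integrable_comp_of_integrable hμ

omit [NeZero N] in
include hν in
lemma integrable_sum_abs :
    Integrable (fun hs : Fin N → ℝ => ∑ i, |hs i|) (Measure.pi fun _ => ν) :=
  integrable_finsetSum _ fun j _ =>
    (measurePreserving_eval (fun _ : Fin N => ν) j).integrable_comp_of_integrable hν.abs

omit [NeZero N] in
include hμ hν in
lemma integrable_both {F : (Fin M → Inter p) × (Fin N → ℝ) → ℝ} (hc : Continuous F)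
    (hb : ∀ z, |F z| ≤ ∑ i, |z.2 i| + ∑ j, supNorm (z.1 j)) :
    Integrable F ((Measure.pi fun _ => μ).prod (Measure.pi fun _ => ν)) :=
  (((integrable_sum_abs ν hν).comp_snd _).add ((integrable_sum_supNorm μ hμ M).comp_fst _)).mono'
    hc.aestronglyMeasurable (Filter.Eventually.of_forall hb)

/-- the log-average with the fields integrated out -/
noncomputable def PsiB (H : (Fin N → Bool) → ℝ) : ℝ :=
  ∫ hs, Psi (fld hs + H) ∂(Measure.pi fun _ : Fin N => ν)

omit [NeZero N] in
include hν in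
lemma integrable_Psi (H : (Fin N → Bool) → ℝ) :
    Integrable (fun hs => Psi (fld hs + H)) (Measure.pi fun _ : Fin N => ν) :=
  ((integrable_sum_abs ν hν).add (integrable_const ‖H‖)).mono'
    (lip_Psi.continuous.comp (continuous_fld.add continuous_const)).aestronglyMeasurable
    (Filter.Eventually.of_forall fun hs => abs_Psi_le fun σ =>
      (abs_add_le _ _).trans (add_le_add (abs_fld_le hs σ) (norm_le_pi_norm H σ)))

omit [NeZero N] in
include hν in
lemma lip_PsiB : Lip 1 (PsiB (N := N) ν) := by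
  refine ⟨zero_le_one, fun H H' => ?_⟩
  unfold PsiB
  rw [← integral_sub (integrable_Psi ν hν H) (integrable_Psi ν hν H')]
  have := norm_integral_le_of_norm_le_const (μ := Measure.pi fun _ : Fin N => ν)
    (f := fun hs => Psi (fld hs + H) - Psi (fld hs + H')) (C := 1 * ‖H - H'‖)
    (Filter.Eventually.of_forall fun hs => by
      simpa using lip_Psi.2 (fld hs + H) (fld hs + H'))
  simpa using this

omit [NeZero N] in
include hν in
lemma equi_PsiB : Equi (PsiB (N := N) ν) := by
  intro H c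
  unfold PsiB
  have : ∀ hs, Psi (fld hs + fun y => H y + c) = Psi (fld hs + H) + c := fun hs => by
    rw [← Psi_add_const]; congr 1; ext σ; simp [add_assoc]
  simp only [this]
  rw [integral_add (integrable_Psi ν hν H) (integrable_const _)]; simp

/-- the expected site functional -/
noncomputable def sK (L : Lev) (k : ℕ) : ℝ :=
  ∫ θs : Fin k → Inter p, ∫ h, avg (siteX g L k h θs) ∂ν ∂(Measure.pi fun _ => μ)

omit [NeZero N] in
include hμ hν in
lemma integrable_siteF (L : Lev) (k : ℕ) :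
    Integrable (fun z : (Fin k → Inter p) × ℝ => avg (siteX g L k z.2 z.1))
      ((Measure.pi fun _ => μ).prod ν) :=
  ((hν.abs.comp_snd _).add ((integrable_sum_supNorm μ hμ k).comp_fst _)).mono'
    (continuous_siteF g L k).aestronglyMeasurable
    (Filter.Eventually.of_forall fun z => abs_avg_le fun x₀ => abs_siteX_le g L k _ _ x₀)

omit [NeZero N] in
include hμ hν in
lemma abs_sK_le (L : Lev) (k : ℕ) :
    |sK g μ ν L k| ≤ ∫ h, |h| ∂ν + k * ∫ θ, supNorm θ ∂μ := by
  unfold sK
  rw [← integral_prod _ (integrable_siteF g μ hμ ν hν L k)]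
  refine (norm_integral_le_of_norm_le
    (f := fun z : (Fin k → Inter p) × ℝ => avg (siteX g L k z.2 z.1)) ((hν.abs.comp_snd (Measure.pi fun _ => μ)).add
    ((integrable_sum_supNorm μ hμ k).comp_fst ν))
    (Filter.Eventually.of_forall fun z => abs_avg_le fun x₀ => abs_siteX_le g L k _ _ x₀)).trans
    (le_of_eq ?_)
  simp only [Pi.add_apply]
  rw [integral_add (hν.abs.comp_snd _) ((integrable_sum_supNorm μ hμ k).comp_fst ν),
    integral_fun_snd (fun h : ℝ => |h|),
    integral_fun_fst (fun θs : Fin k → Inter p => ∑ j, supNorm (θs j)),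
    integral_finsetSum (f := fun j (θs : Fin k → Inter p) => supNorm (θs j)) _ fun j _ =>
      (measurePreserving_eval (fun _ : Fin k => μ) j).integrable_comp_of_integrable hμ]
  have : ∀ j : Fin k, ∫ θs : Fin k → Inter p, supNorm (θs j) ∂(Measure.pi fun _ => μ) =
      ∫ θ, supNorm θ ∂μ := fun j => integral_comp_eval (μ := fun _ : Fin k => μ) hμ.aestronglyMeasurable
  simp [this]

include hμ hν in
/-- the inequality for a fixed number of slots -/
lemma slots_le' (hp : 1 ≤ p) (hFL : FL p μ) {L : Lev} (hT : L.T = r + 1) (M : ℕ) :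
    ∫ θs : Fin M → Inter p, ∑ cs : Fin M → ChB p N n, (∏ j, wB p N n (cs j)) *
        PsiB ν (0 + ∑ j, Ured g L (cs j) (θs j)) ∂(Measure.pi fun _ => μ) ≤
      N * ∑ z ∈ antidiagonal M, (M.choose z.1 : ℝ) *
        (((N : ℝ)⁻¹) ^ z.1 * (1 - (N : ℝ)⁻¹) ^ z.2 * sK g μ ν L z.1) := by
  have i1 : ∀ cs : Fin M → ChB p N n, Integrable (fun z : (Fin M → Inter p) × (Fin N → ℝ) =>
      Psi (fld z.2 + ∑ j, Ured g L (cs j) (z.1 j)))
      ((Measure.pi fun _ => μ).prod (Measure.pi fun _ => ν)) := fun cs =>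
    integrable_both μ hμ ν hν (lip_Psi.continuous.comp ((continuous_fld.comp continuous_snd).add
      (continuous_finsetSum _ fun j _ => (continuous_Ured g L _).comp (by fun_prop))))
      fun z => abs_Psi_le fun σ => (abs_add_le _ _).trans (add_le_add (abs_fld_le _ σ) (by
        rw [Finset.sum_apply]
        exact (abs_sum_le_sum_abs _ _).trans (sum_le_sum fun j _ => abs_Ured_le g L _ _ _)))
  have i2 : Integrable (fun z : (Fin M → Inter p) × (Fin N → ℝ) => ∑ cs : Fin M → ChB p N n,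
      (∏ j, wB p N n (cs j)) * Psi (fld z.2 + ∑ j, Ured g L (cs j) (z.1 j)))
      ((Measure.pi fun _ => μ).prod (Measure.pi fun _ => ν)) :=
    integrable_finsetSum _ fun cs _ => (i1 cs).const_mul _
  have mp : ∀ (idx : Fin M → Fin N) (i : Fin N), MeasurePreserving
      (fun z : (Fin M → Inter p) × (Fin N → ℝ) => ((fun j => z.1 (fib idx i j)), z.2 i))
      ((Measure.pi fun _ => μ).prod (Measure.pi fun _ => ν)) ((Measure.pi fun _ => μ).prod ν) :=
    fun idx i => (measurePreserving_comp_inj μ (ι := fun j => (fib idx i j : Fin M))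
      (Subtype.val_injective.comp (fib idx i).injective)).prod (measurePreserving_eval _ i)
  have i3 : ∀ (idx : Fin M → Fin N) (i : Fin N),
      Integrable (fun z : (Fin M → Inter p) × (Fin N → ℝ) =>
        avg (siteX g L _ (z.2 i) fun j => z.1 (fib idx i j)))
      ((Measure.pi fun _ => μ).prod (Measure.pi fun _ => ν)) := fun idx i =>
    (mp idx i).integrable_comp_of_integrable (integrable_siteF g μ hμ ν hν L _)
  have i4 : Integrable (fun z : (Fin M → Inter p) × (Fin N → ℝ) => avg fun idx : Fin M → Fin N =>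
      ∑ i, avg (siteX g L _ (z.2 i) fun j => z.1 (fib idx i j)))
      ((Measure.pi fun _ => μ).prod (Measure.pi fun _ => ν)) :=
    integrable_avg fun idx => integrable_finsetSum _ fun i _ => i3 idx i
  calc _ = ∫ θs : Fin M → Inter p, ∫ hs : Fin N → ℝ, ∑ cs : Fin M → ChB p N n,
          (∏ j, wB p N n (cs j)) * Psi (fld hs + ∑ j, Ured g L (cs j) (θs j))
          ∂(Measure.pi fun _ => ν) ∂(Measure.pi fun _ => μ) := by
        refine integral_congr_ae (Filter.Eventually.of_forall fun θs => ?_)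
        dsimp only
        rw [integral_finsetSum _ fun cs _ => (integrable_Psi ν hν _).const_mul _]
        simp only [integral_const_mul, zero_add, PsiB]
    _ = _ := (integral_prod _ i2).symm
    _ = _ := integral_prod_symm _ i2
    _ ≤ _ := integral_mono i2.integral_prod_right i4.integral_prod_right
        fun hs => slots_le g μ hμ hp hFL hT hs
    _ = _ := (integral_prod_symm _ i4).symm
    _ = avg fun idx : Fin M → Fin N => ∑ i, sK g μ ν L (univ.filter fun j => idx j = i).card := by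
        rw [integral_avg fun idx => integrable_finsetSum _ fun i _ => i3 idx i]
        congr 1
        ext idx
        rw [integral_finsetSum _ fun i _ => i3 idx i]
        refine sum_congr rfl fun i _ => ?_
        unfold sK
        rw [← integral_prod _ (integrable_siteF g μ hμ ν hν L _), ← (mp idx i).map_eq,
          integral_map (mp idx i).measurable.aemeasurable
            (continuous_siteF g L _).aestronglyMeasurable]
    _ = _ := by
        rw [avg_sum]
        simp only [avg_hits]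
        simp

end

lemma poi_const {P ι D : Type} [Fintype P] [Fintype ι] [DecidableEq ι] [MeasurableSpace D]
    (𝒯 : Terms P ι D) {κ : ι → ℝ} (hκ : ∀ x, 0 ≤ κ x) {Φ : (P → ℝ) → ℝ} (hΦ : Lip 1 Φ)
    (hE : Equi Φ) (c : ι → D → ℝ) (hc : ∀ x, κ x ≠ 0 → ∀ d, 𝒯.U x d = fun _ => c x d)
    (hi : ∀ x, Integrable (c x) 𝒯.ν) (H : P → ℝ) :
    𝒯.Poi κ Φ H = Φ H + ∑ x, κ x * ∫ d, c x d ∂𝒯.ν := by
  set e := ∑ x, κ x * ∫ d, c x d ∂𝒯.ν with he
  set l := ∑ x, κ x with hl
  have key : ∀ k : ℕ, ∀ H, (𝒯.T κ)^[k + 1] Φ H = l ^ (k + 1) * Φ H + (k + 1) * l ^ k * e := by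
    have h1 : ∀ k : ℕ, ∀ H, (𝒯.T κ)^[k + 1] Φ H = l * (𝒯.T κ)^[k] Φ H + l ^ k * e := by
      intro k H
      rw [iterate_succ_apply', 𝒯.T_eq κ (𝒯.lip_iter hκ hΦ k), hl, he, sum_mul, mul_sum,
        ← sum_add_distrib]
      refine sum_congr rfl fun x _ => ?_
      by_cases hx : κ x = 0
      · simp [hx]
      · have : ∀ d, (𝒯.T κ)^[k] Φ (H + 𝒯.U x d) = (𝒯.T κ)^[k] Φ H + (∑ x, κ x) ^ k * c x d := by
          intro d
          rw [hc x hx d, ← 𝒯.iter_equi hκ hΦ hE]; rfl
        simp only [this]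
        rw [integral_add (integrable_const _) ((hi x).const_mul _), integral_const_mul]
        simp; ring
    intro k
    induction k with
    | zero => intro H; simpa using h1 0 H
    | succ k ih => intro H; rw [h1, ih]; push_cast; ring
  have h2 : HasSum (fun k : ℕ => Real.exp (-l) / (k.factorial : ℝ) * (𝒯.T κ)^[k] Φ H -
      Real.exp (-l) / (k.factorial : ℝ) * l ^ k * Φ H) e := by
    rw [← hasSum_nat_add_iff' 1]
    simp only [key, range_one, sum_singleton, iterate_zero, id, pow_zero, mul_one, sub_self,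
      sub_zero]
    have := (hasSum_poi l).mul_right e
    rw [one_mul] at this
    refine (congrArg (fun f => HasSum f e) (funext fun k => ?_)).mp this
    rw [Nat.factorial_succ]; push_cast; field_simp; ring
  have h3 := h2.add ((hasSum_poi l).mul_right (Φ H))
  simp only [sub_add_cancel, one_mul] at h3
  unfold Terms.Poi
  rw [h3.tsum_eq, add_comm]

theorem upper_of_FL (p : ℕ) (hp : 1 ≤ p) (α : ℝ) (hα : 0 ≤ α) (μ : Measure (Inter p))
    [IsProbabilityMeasure μ] (ν : Measure ℝ) [IsProbabilityMeasure ν]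
    (hμ : Integrable (fun θ => supNorm θ) μ) (hν : Integrable (fun x : ℝ => x) ν) (hFL : FL p μ)
    (r : ℕ) (m : Fin r → ℝ) (hm : AdmissibleExponents m) (n : ℕ) [NeZero n]
    (g : (Fin (r + 1) → Fin n) → ℝ) (N : ℕ) (hN : 1 ≤ N) :
    pressure p α μ ν N ≤ trialFunctional p α μ ν r m (fun u => g (fun j => grid n (u j))) := by
  have : NeZero N := ⟨by omega⟩
  have hN' : (0 : ℝ) < N := by exact_mod_cast hN
  have hp' : (0 : ℝ) < p := by exact_mod_cast hp
  have hp1 : (0 : ℝ) ≤ p - 1 := sub_nonneg.2 (by exact_mod_cast hp)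
  set L := lev0 m hm with hL
  have hT : L.T = r + 1 := rfl
  -- identification of the trial functional
  have hglue : ∀ (Lab : Type) [Fintype Lab] [DecidableEq Lab] (W : (Lab → ℝ) → ℝ), (∀ x, 0 < W x) →
      ∫ u, Real.log (powerMeans m (fun u' : Lab → Fin (r + 1) → unitInterval =>
        W (fun s => g (fun j => grid n (u' s j)))) u) ∂(uniformArrays Lab r) =
      avg fun x₀ : Lab → Fin n => (unif L (Lab → Fin n)).Xk r 0
        (fun ω' => Real.log (W fun s => msg g (x₀ s) (pmap (fun _ x => x s) ω'))) (fun _ _ => 0) := by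
    intro Lab _ _ W hW
    have hv : ∀ x, volume (grid n ⁻¹' {x}) = ENNReal.ofReal (Fintype.card (Fin n) : ℝ)⁻¹ :=
      fun x => by rw [volume_grid]; simp
    have := glue (Lab := Lab) (unif L (Fin n)) 0 r (by omega) m
      (fun d => by simp [hL, lev0]) (grid n) (fun _ _ => grid n) (measurableSet_grid n)
      (fun _ _ => measurableSet_grid n) hv (fun _ _ => hv) (fun _ => 0) (msg g) W hW
    rw [pi_unif] at this
    rw [show trialOf (grid n) (fun _ _ => grid n) 0 r (fun _ => 0) (msg g) = _ from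
      trialOf_grid n r g _] at this
    exact this
  have htrial : trialFunctional p α μ ν r m (fun u => g (fun j => grid n (u j))) =
      Real.log 2 + ∑' k, poissonWeight (α * p) k * sK g μ ν L k -
        α * (p - 1) * ∫ θ, avg (edgeX g L θ) ∂μ := by
    unfold trialFunctional sK
    congr 2
    · refine tsum_congr fun k => ?_
      congr 1
      refine integral_congr_ae (Filter.Eventually.of_forall fun θs => ?_)
      refine integral_congr_ae (Filter.Eventually.of_forall fun h => ?_)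
      exact hglue (Fin k × Fin (p - 1)) (fun x => siteTerm h θs fun j ℓ => x (j, ℓ))
        fun x => (Real.exp_pos _).trans_le (Approx.site_bounds _ _ _).1
    · refine integral_congr_ae (Filter.Eventually.of_forall fun θ => ?_)
      exact hglue (Fin p) (fun x => edgeTerm θ x)
        fun x => (Real.exp_pos _).trans_le (Approx.edge_bounds _ _).1
  set 𝒯 := redTerms g μ hμ N L with h𝒯
  have hΨ := lip_PsiB (N := N) ν hν
  have hΨ' := lip_one_iff.1 hΨ
  -- Poisson sum of the slot inequalities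
  obtain ⟨hs1, he1⟩ := 𝒯.Poi_eq (wB p N n) (wB_nonneg hp) (sum_wB_one hp) (α * N * p)
    (by positivity) (PsiB ν) hΨ' 0
  have hth := (thinning (lam := α * N * p) (q := (N : ℝ)⁻¹) (by positivity) (by positivity)
    (inv_le_one_of_one_le₀ (by exact_mod_cast hN)) (sK g μ ν L) (abs_sK_le g μ hμ ν hν L)).mul_left (N : ℝ)
  have hle : 𝒯.Poi (fun x => α * N * p * wB p N n x) (PsiB ν) 0 ≤
      N * ∑' k, poissonWeight (α * p) k * sK g μ ν L k := by
    rw [he1, show α * p = α * N * p * (N : ℝ)⁻¹ by field_simp]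
    refine hasSum_le (fun M => ?_) hs1.hasSum hth
    rw [mul_left_comm]
    exact mul_le_mul_of_nonneg_left (slots_le' g μ hμ ν hν hp hFL hT M)
      (poissonWeight_nonneg' (by positivity) M)
  -- splitting into clauses and edges
  set wC : ChB p N n → ℝ := push Sum.inl fun _ => (Fintype.card (Fin p → Fin N) : ℝ)⁻¹ with hwC
  set wE : ChB p N n → ℝ :=
    push Sum.inr fun _ => α * N * (p - 1) * (Fintype.card (Fin p → Fin n) : ℝ)⁻¹ with hwE
  have hC0 : ∀ x, 0 ≤ wC x := push_nonneg _ fun _ => by positivity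
  have hE0 : ∀ x, 0 ≤ wE x := push_nonneg _ fun _ => by positivity
  have hC1 : ∑ x, wC x = 1 := by
    rw [sum_push_one]
    simpa only [avg, mul_sum, mul_one] using avg_const (α := Fin p → Fin N) 1
  have hsplit : (fun x => α * N * p * wB p N n x) = wE + fun x => α * N * wC x := by
    ext x
    rcases x with x | x <;> simp [wB, hwC, hwE, push] <;> field_simp
  have hC0' : ∀ x, 0 ≤ α * N * wC x := fun x => mul_nonneg (by positivity) (hC0 x)
  rw [hsplit, 𝒯.Poi_add _ _ hE0 hC0' hΨ',
    poi_const 𝒯 hE0 (𝒯.lip_Poi' hC0' hΨ) (𝒯.equi_Poi _ hC0' hΨ' (equi_PsiB ν hν))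
      (fun x θ => Ured g L x θ fun _ => true)
      (fun x hx θ => by obtain ⟨c, rfl⟩ := exists_of_push_ne hx; rfl)
      (fun x => integrable_of_le μ hμ ((continuous_apply fun _ => true).comp (continuous_Ured g L x))
        fun θ => abs_Ured_le g L x θ _), sum_push] at hle
  have hedge : ∑ c : Fin p → Fin n, α * N * (p - 1) * (Fintype.card (Fin p → Fin n) : ℝ)⁻¹ *
      ∫ θ, Ured (N := N) g L (Sum.inr c) θ (fun _ => true) ∂𝒯.ν =
      α * N * (p - 1) * ∫ θ, avg (edgeX g L θ) ∂μ := by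
    rw [integral_avg fun x₀ => integrable_of_le μ hμ (continuous_edgeX g L x₀)
      fun θ => abs_edgeX_le g L θ x₀]
    simp only [avg, mul_sum, mul_assoc]
    rfl
  rw [hedge] at hle
  obtain ⟨hs2, he2⟩ := 𝒯.Poi_eq wC hC0 hC1 (α * N) (by positivity) (PsiB ν) hΨ' 0
  have hcl : ∀ M : ℕ, ∫ θs : Fin M → Inter p, ∑ xs : Fin M → ChB p N n, (∏ j, wC (xs j)) *
      PsiB ν (0 + ∑ j, 𝒯.U (xs j) (θs j)) ∂(Measure.pi fun _ => 𝒯.ν) =
      (∫ θs, ∫ hs, ((Fintype.card (Fin M → Fin p → Fin N) : ℝ)⁻¹ *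
        ∑ idx : Fin M → Fin p → Fin N, logPartition N θs idx hs)
        ∂(Measure.pi fun _ : Fin N => ν) ∂(Measure.pi fun _ : Fin M => μ)) - N * Real.log 2 := by
    intro M
    have h1 : ∀ (θs : Fin M → Inter p) (idx : Fin M → Fin p → Fin N) (hs : Fin N → ℝ),
        logPartition N θs idx hs =
          Psi (fld hs + (0 + ∑ j, 𝒯.U (Sum.inl (idx j)) (θs j))) + N * Real.log 2 := by
      intro θs idx hs
      unfold logPartition Psi avg
      rw [Real.log_mul (by positivity) (sum_pos (fun _ _ => Real.exp_pos _) univ_nonempty).ne',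
        Real.log_inv]
      simp only [Fintype.card_pi, Fintype.card_bool, prod_const, card_univ, Fintype.card_fin,
        Nat.cast_pow, Nat.cast_ofNat, Real.log_pow, zero_add, Pi.add_apply, Finset.sum_apply]
      rw [add_comm, ← add_assoc, add_neg_cancel, zero_add]
      congr 1
      refine sum_congr rfl fun σ _ => ?_
      rw [add_comm]; rfl
    have h2 : ∀ θs : Fin M → Inter p, ∫ hs, ((Fintype.card (Fin M → Fin p → Fin N) : ℝ)⁻¹ *
        ∑ idx : Fin M → Fin p → Fin N, logPartition N θs idx hs) ∂(Measure.pi fun _ : Fin N => ν) =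
        ∑ xs : Fin M → ChB p N n, (∏ j, wC (xs j)) * PsiB ν (0 + ∑ j, 𝒯.U (xs j) (θs j)) +
          N * Real.log 2 := by
      intro θs
      rw [hwC, sum_prod_push (fun _ => Sum.inl), avg_pi_eq]
      simp only [h1]
      refine (integral_avg fun idx => (integrable_Psi ν hν _).add (integrable_const _)).trans ?_
      rw [← avg_const (α := Fin M → Fin p → Fin N) (N * Real.log 2), ← avg_add]
      congr 1
      ext idx
      simp only [Pi.add_apply, avg_const]
      rw [integral_add (integrable_Psi ν hν _) (integrable_const _)]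
      simp [PsiB]
    simp only [h2]
    have hi : Integrable (fun θs : Fin M → Inter p => ∑ xs : Fin M → ChB p N n,
        (∏ j, wC (xs j)) * PsiB ν (0 + ∑ j, 𝒯.U (xs j) (θs j))) (Measure.pi fun _ => μ) :=
      𝒯.integrable_pi M (fun _ => wC) hΨ 0
    rw [integral_add hi (integrable_const _)]
    simp only [integral_const, probReal_univ, smul_eq_mul, one_mul, add_sub_cancel_right]
    rfl
  simp only [hcl] at hs2 he2
  have h3 : HasSum (fun l => poissonWeight (α * N) l * (N * Real.log 2)) (N * Real.log 2) := by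
    have := (hasSum_poi (α * N)).mul_right (N * Real.log 2)
    rw [one_mul] at this
    refine (congrArg (fun f => HasSum f _) (funext fun k => ?_)).mp this
    unfold poissonWeight; ring
  have h4 := hs2.hasSum.add h3
  simp only [mul_sub, sub_add_cancel] at h4
  rw [htrial]
  unfold pressure
  rw [h4.tsum_eq, one_div, inv_mul_le_iff₀ hN']
  simp only [mul_sub] at he2
  rw [← he2]
  linarith

end Crest.Agent.R141.Up
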